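import Crest.Agent.R149.Basic

/-! Lattice combinatorics: Schur test, coarse graining, averaging over grid offsets. -/

namespace Crest.Agent.R149

open MeasureTheory Crest.ProbabilityR.Continuum Filter Topology
open scoped ENNReal

variable {ι : Type}

/-- Schur test. -/
theorem schur {α : Type} [Fintype ι] [DecidableEq α] (c : ι → α) (k : α → α → ℝ) (R : ℝ)
    (hk : ∀ a b, 0 ≤ k a b) (hsymm : ∀ a b, k a b = k b a)
    (hrow : ∀ a (F : Finset α), ∑ b ∈ F, k a b ≤ R) :
    ∑ i, ∑ j, k (c i) (c j) ≤ R * pc c := by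
  set F := Finset.univ.image c with hF
  set n : α → ℝ := fun a => ((Finset.univ.filter fun i => c i = a).card : ℝ) with hn
  have hcomp : ∀ f : α → ℝ, ∑ i, f (c i) = ∑ a ∈ F, n a * f a := by
    intro f
    rw [Finset.sum_comp f c]
    simp only [nsmul_eq_mul, hn, hF]
  have h1 : ∑ i, ∑ j, k (c i) (c j) = ∑ a ∈ F, ∑ b ∈ F, n a * (n b * k a b) := by
    rw [hcomp (fun a => ∑ j, k a (c j))]
    refine Finset.sum_congr rfl fun a _ => ?_
    rw [hcomp (fun b => k a b), Finset.mul_sum]
  have h2 : pc c = ∑ a ∈ F, n a ^ 2 := by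
    unfold pc
    rw [hcomp (fun a => ∑ j, if a = c j then (1 : ℝ) else 0)]
    refine Finset.sum_congr rfl fun a ha => ?_
    rw [hcomp (fun b => if a = b then (1 : ℝ) else 0)]
    simp only [mul_ite, mul_one, mul_zero, Finset.sum_ite_eq, ha, if_true]
    ring
  have h3 : ∑ a ∈ F, ∑ b ∈ F, n b ^ 2 * k a b = ∑ a ∈ F, ∑ b ∈ F, n a ^ 2 * k a b := by
    rw [Finset.sum_comm]
    exact Finset.sum_congr rfl fun a _ => Finset.sum_congr rfl fun b _ => by rw [hsymm]
  have h4 : ∑ a ∈ F, ∑ b ∈ F, n a ^ 2 * k a b ≤ R * ∑ a ∈ F, n a ^ 2 := by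
    rw [Finset.mul_sum]
    refine Finset.sum_le_sum fun a _ => ?_
    rw [← Finset.mul_sum, mul_comm R]
    exact mul_le_mul_of_nonneg_left (hrow a F) (sq_nonneg _)
  have h5 : ∑ a ∈ F, ∑ b ∈ F, 2 * (n a * (n b * k a b)) ≤
      ∑ a ∈ F, ∑ b ∈ F, (n a ^ 2 * k a b + n b ^ 2 * k a b) := by
    refine Finset.sum_le_sum fun a _ => Finset.sum_le_sum fun b _ => ?_
    nlinarith [mul_nonneg (sq_nonneg (n a - n b)) (hk a b)]
  simp only [Finset.sum_add_distrib, ← Finset.mul_sum] at h5
  rw [h1, h2]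
  simp only [← Finset.mul_sum] at h3 h4 ⊢
  linarith

/-- The parent of a site in the grid coarsened by the factor `q`. -/
def latPar (q : ℕ) (a : Site) : Site := fun k => a k / (q : ℤ)

/-- The sites with the same parent as `a`. -/
noncomputable def latFib (q : ℕ) (a : Site) : Finset Site :=
  Fintype.piFinset fun k => Finset.Ico ((q : ℤ) * (a k / q)) ((q : ℤ) * (a k / q) + q)

theorem mem_latFib {q : ℕ} (hq : 0 < q) (a b : Site) :
    b ∈ latFib q a ↔ latPar q a = latPar q b := by
  have hq' : (0 : ℤ) < q := by exact_mod_cast hq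
  rw [latFib, Fintype.mem_piFinset, funext_iff]
  refine forall_congr' fun k => ?_
  rw [Finset.mem_Ico, latPar, latPar, eq_comm, Int.ediv_eq_iff_of_pos hq', mul_comm]

theorem latFib_sum {q : ℕ} (hq : 0 < q) (a : Site) :
    ∑ b ∈ latFib q a, (if latPar q a = latPar q b then (1 : ℝ) else 0) = (q : ℝ) ^ 3 := by
  rw [Finset.sum_congr rfl (g := fun _ => (1 : ℝ))
    (fun b hb => if_pos ((mem_latFib hq a b).1 hb))]
  simp [latFib, Fintype.card_piFinset]

theorem lat_sum_le_of_fib {q : ℕ} (hq : 0 < q) (a : Site) (F : Finset Site) :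
    ∑ b ∈ F, (if latPar q a = latPar q b then (1 : ℝ) else 0) ≤
      ∑ b ∈ latFib q a, (if latPar q a = latPar q b then (1 : ℝ) else 0) := by
  rw [← Finset.sum_filter, ← Finset.sum_filter]
  refine Finset.sum_le_sum_of_subset_of_nonneg (fun b hb => ?_) (fun _ _ _ => zero_le_one)
  have h := (Finset.mem_filter.mp hb).2
  exact Finset.mem_filter.mpr ⟨(mem_latFib hq a b).2 h, h⟩

theorem lat_abs_sub_lt {q : ℕ} (hq : 0 < q) {a b : ℤ} (h : a / (q : ℤ) = b / (q : ℤ)) :
    |a - b| < q := by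
  have hq' : (0 : ℤ) < q := by exact_mod_cast hq
  have h1 := Int.mul_ediv_add_emod a q
  have h2 := Int.emod_nonneg a hq'.ne'
  have h3 := Int.emod_lt_of_pos a hq'
  have h4 := Int.mul_ediv_add_emod b q
  have h5 := Int.emod_nonneg b hq'.ne'
  have h6 := Int.emod_lt_of_pos b hq'
  rw [h] at h1
  rw [abs_lt]
  constructor <;> linarith

theorem lat_sum_offsets (T : ℕ) (k : Fin 3) (g : ℤ → ℝ) :
    ∑ s ∈ offsets T, g (s k) = (T : ℝ) ^ 2 * ∑ σ ∈ Finset.Ico (0 : ℤ) T, g σ := by
  have h := Finset.prod_univ_sum (fun _ : Fin 3 => Finset.Ico (0 : ℤ) T)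
    (fun k' σ => if k' = k then g σ else 1)
  simp only [Finset.prod_ite_eq', Finset.mem_univ, if_true] at h
  rw [offsets, ← h, Fin.prod_univ_three]
  fin_cases k <;> simp [sq] <;> ring

theorem lat_count_le {m T : ℕ} (hm : 0 < m) (hmT : m ∣ T) (u : ℤ) (d : ℕ) :
    ∑ σ ∈ Finset.range T, ((u + d + σ) / (m : ℤ) - (u + σ) / (m : ℤ)) = d * (T / m : ℕ) := by
  obtain ⟨r, rfl⟩ := hmT
  have hm' : (m : ℤ) ≠ 0 := by exact_mod_cast hm.ne'
  rw [Nat.mul_div_cancel_left r hm]
  induction d with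
  | zero => simp
  | succ d ih =>
    have h1 := Finset.sum_range_succ (fun σ : ℕ => (u + d + σ) / (m : ℤ)) (m * r)
    have h2 := Finset.sum_range_succ' (fun σ : ℕ => (u + d + σ) / (m : ℤ)) (m * r)
    have h3 : (u + d + ((m * r : ℕ) : ℤ)) / (m : ℤ) = (u + d) / m + r := by
      push_cast
      exact Int.add_mul_ediv_left _ _ hm'
    have h4 : ∑ σ ∈ Finset.range (m * r), (u + ((d + 1 : ℕ) : ℤ) + σ) / (m : ℤ) =
        ∑ σ ∈ Finset.range (m * r), (u + d + ((σ + 1 : ℕ) : ℤ)) / (m : ℤ) :=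
      Finset.sum_congr rfl fun σ _ => by push_cast; ring_nf
    rw [Finset.sum_sub_distrib] at ih ⊢
    rw [h4]
    simp only [Nat.cast_zero, add_zero] at h2
    push_cast at h1 h2 h3 ih ⊢
    linarith

theorem lat_count {m T : ℕ} (hm : 0 < m) (hmT : m ∣ T) (u u' : ℤ) :
    (∑ σ ∈ Finset.Ico (0 : ℤ) T, if (u + σ) / (m : ℤ) = (u' + σ) / (m : ℤ) then (0 : ℝ) else 1) ≤
      |((u - u' : ℤ) : ℝ)| * (T / m) := by
  wlog h : u ≤ u' generalizing u u'
  · have := this u' u (by omega)
    rw [← Int.cast_abs, abs_sub_comm, Int.cast_abs] at this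
    simpa only [eq_comm] using this
  obtain ⟨d, rfl⟩ := Int.le.dest h
  have hm' : (0 : ℤ) < m := by exact_mod_cast hm
  have hI : Finset.Ico (0 : ℤ) T = (Finset.range T).image (fun σ : ℕ => (σ : ℤ)) := by
    ext z
    simp only [Finset.mem_Ico, Finset.mem_image, Finset.mem_range]
    constructor
    · rintro ⟨h1, h2⟩
      exact ⟨z.toNat, by omega, by omega⟩
    · rintro ⟨σ, h1, rfl⟩
      omega
  rw [hI, Finset.sum_image (fun a _ b _ h => by exact_mod_cast h)]
  have h1 := lat_count_le hm hmT u d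
  have h2 : ((d * (T / m : ℕ) : ℤ) : ℝ) = |((u - (u + d) : ℤ) : ℝ)| * (T / m) := by
    rw [Int.cast_mul, Int.cast_natCast, Int.cast_natCast,
      Nat.cast_div hmT (by exact_mod_cast hm.ne')]
    simp
  rw [← h2, ← h1]
  push_cast
  refine Finset.sum_le_sum fun σ _ => ?_
  have h3 : (u + σ) / (m : ℤ) ≤ (u + d + σ) / (m : ℤ) := Int.ediv_le_ediv hm' (by omega)
  split_ifs with h4
  · rw [h4]; simp
  · have h5 : (1 : ℤ) ≤ (u + d + σ) / (m : ℤ) - (u + σ) / (m : ℤ) := by omega
    exact_mod_cast h5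

theorem blk_mul (m q : ℕ) (s u : Site) : blk (m * q) s u = fun k => blk m s u k / (q : ℤ) := by
  funext k
  simp only [blk]
  push_cast
  exact (Int.ediv_ediv_of_nonneg (Int.natCast_nonneg m)).symm

theorem pc_bl_mul_le [Fintype ι] {m q : ℕ} (hm : 0 < m) (hq : 0 < q) (s : Site) (x : ι → Pt) :
    pc (bl (m * q) s x) ≤ (q : ℝ) ^ 3 * pc (bl m s x) := by
  have h := schur (bl m s x) (fun a b => if latPar q a = latPar q b then (1 : ℝ) else 0)
    ((q : ℝ) ^ 3) (fun a b => by split_ifs <;> norm_num)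
    (fun a b => by simp only [eq_comm]) (fun a F => by
      rw [← latFib_sum hq a]
      exact lat_sum_le_of_fib hq a F)
  refine le_trans (le_of_eq ?_) h
  unfold pc bl
  simp only [blk_mul]
  rfl

theorem pc_bl_le_pcu [Fintype ι] {m : ℕ} (hm : 0 < m) (s : Site) (x : ι → Pt) :
    pc (bl m s x) ≤ (m : ℝ) ^ 3 * pcu x := by
  have h := pc_bl_mul_le (m := 1) (q := m) one_pos hm s x
  rw [one_mul] at h
  refine h.trans (le_of_eq ?_)
  congr 1
  have : bl 1 s x = fun i => (fun u : Site => u + s) (cell (x i)) := by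
    funext i k
    simp [bl, blk]
  rw [this]
  exact pc_comp_inj _ _ (add_left_injective s)

/-- A point lies in the translate of the cube of side `m` attached to its block. -/
theorem sub_mem_cube_blk {m : ℕ} (hm : 0 < m) (s : Site) (y : Pt) :
    y - emb (fun k => (m : ℤ) * blk m s (cell y) k - s k) ∈ cube m := by
  intro k
  have hm' : (0 : ℤ) < m := by exact_mod_cast hm
  have h1 := Int.mul_ediv_add_emod (⌊y k⌋ + s k) m
  have h2 := Int.emod_nonneg (⌊y k⌋ + s k) hm'.ne'
  have h3 := Int.emod_lt_of_pos (⌊y k⌋ + s k) hm'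
  have h4 := Int.floor_le (y k)
  have h5 := Int.lt_floor_add_one (y k)
  have e : (y - emb (fun k => (m : ℤ) * blk m s (cell y) k - s k)) k =
      y k - (((m : ℤ) * ((⌊y k⌋ + s k) / m) - s k : ℤ) : ℝ) := by
    simp [emb, blk, cell]
  rw [e]
  have h6 : (m : ℤ) * ((⌊y k⌋ + s k) / m) - s k ≤ ⌊y k⌋ := by linarith
  have h7 : ⌊y k⌋ + 1 ≤ (m : ℤ) * ((⌊y k⌋ + s k) / m) - s k + m := by linarith
  have h6' : (((m : ℤ) * ((⌊y k⌋ + s k) / m) - s k : ℤ) : ℝ) ≤ ⌊y k⌋ := by exact_mod_cast h6
  have h7' : (⌊y k⌋ : ℝ) + 1 ≤ (((m : ℤ) * ((⌊y k⌋ + s k) / m) - s k : ℤ) : ℝ) + m := by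
    exact_mod_cast h7
  constructor <;> linarith

theorem blk_mem_range {m : ℕ} (hm : 0 < m) {T : ℕ} {s : Site} (hs : s ∈ offsets T) {L : ℝ}
    {y : Pt} (hy : y ∈ cube L) (k : Fin 3) :
    0 ≤ blk m s (cell y) k ∧ blk m s (cell y) k < ((⌊(L + T) / m⌋₊ + 1 : ℕ) : ℤ) := by
  have hm' : (0 : ℤ) < m := by exact_mod_cast hm
  have hmR : (0 : ℝ) < m := by exact_mod_cast hm
  have hsk := Finset.mem_Ico.mp (Fintype.mem_piFinset.mp hs k)
  have hy0 := (hy k).1
  have hyL := (hy k).2
  have hf0 : 0 ≤ ⌊y k⌋ := Int.floor_nonneg.mpr hy0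
  have h0 : 0 ≤ blk m s (cell y) k := Int.ediv_nonneg (add_nonneg hf0 hsk.1) hm'.le
  refine ⟨h0, ?_⟩
  have h1 : (m : ℤ) * blk m s (cell y) k ≤ ⌊y k⌋ + s k := Int.mul_ediv_self_le hm'.ne'
  have h2 : ((m : ℝ)) * (blk m s (cell y) k : ℝ) ≤ L + T := by
    have h3 : ((m : ℝ)) * (blk m s (cell y) k : ℝ) ≤ (⌊y k⌋ : ℝ) + s k := by exact_mod_cast h1
    have h4 : (s k : ℝ) ≤ T := by exact_mod_cast hsk.2.le
    have h5 := Int.floor_le (y k)
    linarith
  have h6 : ((blk m s (cell y) k).toNat : ℝ) ≤ (L + T) / m := by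
    rw [le_div_iff₀ hmR, mul_comm]
    have : ((blk m s (cell y) k).toNat : ℝ) = (blk m s (cell y) k : ℝ) := by
      exact_mod_cast Int.toNat_of_nonneg h0
    rw [this]
    exact h2
  have h7 := Nat.le_floor h6
  omega

/-- Coarse-grained upper bound on the long-range attraction, with the gain coming from
inhomogeneity inside the parent blocks of side `m * t`. -/
theorem long_bound [Fintype ι] [DecidableEq ι] {wl : ℝ → ℝ} (h0 : ∀ r, 0 ≤ wl r)
    (hanti : Antitone wl) {m t : ℕ} (hm : 0 < m) (ht : 0 < t) {Ap γ : ℝ}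
    (hrow : ∀ F : Finset Site, ∑ z ∈ F, wl (m * (‖emb z‖ - 2)) ≤ Ap) (hγ : 0 ≤ γ)
    (hγle : ∀ r, r ≤ 2 * (m * t) → γ ≤ wl r) (s : Site) (x : ι → Pt) :
    en wl x ≤ Ap / 2 * pc (bl m s x) -
      γ / 2 * ((t : ℝ) ^ 3 * pc (bl m s x) - pc (bl (m * t) s x)) := by
  have hmR : (0 : ℝ) < m := by exact_mod_cast hm
  have htR : (0 : ℝ) < t := by exact_mod_cast ht
  set K : Site → Site → ℝ := fun a b => wl (m * (‖emb (a - b)‖ - 2)) with hK
  set b := bl m s x with hb
  have hemb : ∀ a a' : Site, emb (a - a') = emb a - emb a' := by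
    intro a a'
    ext k
    simp [emb]
  have hpair : ∀ i j, wl (dist (x i) (x j)) ≤ K (b i) (b j) := by
    intro i j
    refine hanti ?_
    have h1 := dist_le_of_mem_cube (sub_mem_cube_blk hm s (x i)) (sub_mem_cube_blk hm s (x j))
    have h2 : (m : ℝ) • emb (b i - b j) = (x i - x j) -
        ((x i - emb (fun k => (m : ℤ) * blk m s (cell (x i)) k - s k)) -
          (x j - emb (fun k => (m : ℤ) * blk m s (cell (x j)) k - s k))) := by
      ext k
      simp [emb, hb, bl]
      ring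
    have h3 : (m : ℝ) * ‖emb (b i - b j)‖ ≤ dist (x i) (x j) + 7 / 4 * m := by
      rw [← abs_of_pos hmR, ← Real.norm_eq_abs, ← norm_smul, h2, Real.norm_eq_abs,
        abs_of_pos hmR]
      refine (norm_sub_le _ _).trans ?_
      rw [← dist_eq_norm, ← dist_eq_norm]
      linarith
    linarith
  have hKγ : ∀ a a', 0 ≤ K a a' - γ * (if latPar t a = latPar t a' then (1 : ℝ) else 0) := by
    intro a a'
    split_ifs with h
    · have h1 : ‖emb (a - a')‖ ≤ 2 * t := by
        rw [EuclideanSpace.norm_eq]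
        refine Real.sqrt_le_iff.2 ⟨by positivity, ?_⟩
        have h2 : ∀ k, ‖emb (a - a') k‖ ^ 2 ≤ (t : ℝ) ^ 2 := by
          intro k
          have h3 := lat_abs_sub_lt ht (congrFun h k)
          have h4 : |((a k - a' k : ℤ) : ℝ)| ≤ t := by exact_mod_cast h3.le
          have h5 : emb (a - a') k = ((a k - a' k : ℤ) : ℝ) := by simp [emb]
          rw [h5, Real.norm_eq_abs]
          exact pow_le_pow_left₀ (abs_nonneg _) h4 2
        rw [Fin.sum_univ_three]
        nlinarith [h2 0, h2 1, h2 2]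
      have h6 : (m : ℝ) * (‖emb (a - a')‖ - 2) ≤ ((2 * (m * t) : ℕ) : ℝ) := by
        push_cast; nlinarith
      have := (hγle (2 * (m * t)) le_rfl).trans (hanti h6)
      simp only [hK]
      linarith
    · simp only [hK, mul_zero, sub_zero]
      exact h0 _
  have hS := schur b (fun a a' => K a a' - γ * (if latPar t a = latPar t a' then (1 : ℝ) else 0))
    (Ap - γ * (t : ℝ) ^ 3) hKγ
    (fun a a' => by
      simp only [hK, eq_comm]
      rw [hemb, hemb, norm_sub_rev])
    (fun a F => by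
      calc ∑ a' ∈ F, (K a a' - γ * (if latPar t a = latPar t a' then (1 : ℝ) else 0))
          ≤ ∑ a' ∈ F ∪ latFib t a,
            (K a a' - γ * (if latPar t a = latPar t a' then (1 : ℝ) else 0)) :=
            Finset.sum_le_sum_of_subset_of_nonneg Finset.subset_union_left
              (fun a' _ _ => hKγ a a')
        _ = ∑ a' ∈ F ∪ latFib t a, K a a' - γ * ∑ a' ∈ F ∪ latFib t a,
            (if latPar t a = latPar t a' then (1 : ℝ) else 0) := by
            rw [Finset.sum_sub_distrib, Finset.mul_sum]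
        _ ≤ Ap - γ * (t : ℝ) ^ 3 := by
            have h1 := hrow ((F ∪ latFib t a).image fun a' => a - a')
            rw [Finset.sum_image (fun p _ q _ h => sub_right_injective h)] at h1
            have h2 : (t : ℝ) ^ 3 ≤ ∑ a' ∈ F ∪ latFib t a,
                (if latPar t a = latPar t a' then (1 : ℝ) else 0) := by
              rw [← latFib_sum ht a]
              exact Finset.sum_le_sum_of_subset_of_nonneg Finset.subset_union_right
                (fun a' _ _ => by split_ifs <;> norm_num)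
            have h3 := mul_le_mul_of_nonneg_left h2 hγ
            simp only [hK]
            linarith)
  have hpc : pc (bl (m * t) s x) =
      ∑ i, ∑ j, (if latPar t (b i) = latPar t (b j) then (1 : ℝ) else 0) := by
    unfold pc bl
    simp only [blk_mul]
    rfl
  have hen : en wl x ≤ (∑ i, ∑ j, K (b i) (b j)) / 2 := by
    unfold en
    gcongr with i _ j _
    split_ifs
    · exact h0 _
    · exact hpair i j
  simp only [Finset.sum_sub_distrib, ← Finset.mul_sum] at hS
  rw [← hpc] at hS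
  linarith

theorem card_offsets (T : ℕ) : (offsets T).card = T ^ 3 := by
  simp [offsets, Fintype.card_piFinset]

/-- Averaged over the offset of the grid, few short-range pairs are separated by the grid. -/
theorem offset_avg [Fintype ι] [DecidableEq ι] {ws : ℝ → ℝ} (h0 : ∀ r, 0 ≤ ws r) {lam : ℝ}
    (hlam : 0 ≤ lam) (hz : ∀ r, lam ≤ r → ws r = 0) {m T : ℕ} (hm : 0 < m) (hmT : m ∣ T)
    (x : ι → Pt) :
    ∑ s ∈ offsets T, cross ws (bl m s x) x ≤ (T : ℝ) ^ 3 * (3 * (lam + 1) / m) * en ws x := by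
  have hmR : (0 : ℝ) < m := by exact_mod_cast hm
  have hpair : ∀ i j, (∑ s ∈ offsets T,
      if bl m s x i = bl m s x j then 0 else ws (dist (x i) (x j))) ≤
      (T : ℝ) ^ 3 * (3 * (lam + 1) / m) * (if i = j then 0 else ws (dist (x i) (x j))) := by
    intro i j
    by_cases hij : i = j
    · simp [hij]
    rw [if_neg hij]
    by_cases hd : lam ≤ dist (x i) (x j)
    · simp [hz _ hd]
    push Not at hd
    have hk : ∀ k : Fin 3, (∑ s ∈ offsets T,
        if (cell (x i) k + s k) / (m : ℤ) = (cell (x j) k + s k) / (m : ℤ) then (0 : ℝ) else 1) ≤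
        (T : ℝ) ^ 3 * ((lam + 1) / m) := by
      intro k
      rw [lat_sum_offsets T k (fun σ =>
        if (cell (x i) k + σ) / (m : ℤ) = (cell (x j) k + σ) / (m : ℤ) then (0 : ℝ) else 1)]
      have h1 := lat_count hm hmT (cell (x i) k) (cell (x j) k)
      have h2 : |((cell (x i) k - cell (x j) k : ℤ) : ℝ)| ≤ lam + 1 := by
        have h3 := abs_le.mp (abs_sub_le_dist (x i) (x j) k)
        have h4 := Int.floor_le (x i k)
        have h5 := Int.lt_floor_add_one (x i k)
        have h6 := Int.floor_le (x j k)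
        have h7 := Int.lt_floor_add_one (x j k)
        simp only [cell]
        push_cast
        rw [abs_le]
        constructor <;> linarith [h3.1, h3.2]
      calc (T : ℝ) ^ 2 * _ ≤ (T : ℝ) ^ 2 * ((lam + 1) * (T / m)) := by
            refine mul_le_mul_of_nonneg_left (h1.trans ?_) (by positivity)
            exact mul_le_mul_of_nonneg_right h2 (by positivity)
        _ = _ := by ring
    have hw := h0 (dist (x i) (x j))
    calc (∑ s ∈ offsets T, if bl m s x i = bl m s x j then 0 else ws (dist (x i) (x j)))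
        ≤ ∑ s ∈ offsets T, (∑ k : Fin 3,
          if (cell (x i) k + s k) / (m : ℤ) = (cell (x j) k + s k) / (m : ℤ) then (0 : ℝ) else 1) *
            ws (dist (x i) (x j)) := by
          refine Finset.sum_le_sum fun s _ => ?_
          have hnn : ∀ k : Fin 3, (0 : ℝ) ≤
              if (cell (x i) k + s k) / (m : ℤ) = (cell (x j) k + s k) / (m : ℤ) then (0 : ℝ)
                else 1 := fun k => by split_ifs <;> norm_num
          split_ifs with h
          · exact mul_nonneg (Finset.sum_nonneg fun k _ => hnn k) hw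
          · obtain ⟨k, hk⟩ := Function.ne_iff.mp h
            refine le_mul_of_one_le_left hw ?_
            refine le_trans ?_ (Finset.single_le_sum (fun k _ => hnn k) (Finset.mem_univ k))
            exact (if_neg hk).ge
      _ ≤ _ := by
          rw [← Finset.sum_mul, Finset.sum_comm]
          refine mul_le_mul_of_nonneg_right ?_ hw
          rw [Fin.sum_univ_three]
          have e : (T : ℝ) ^ 3 * (3 * (lam + 1) / m) = 3 * ((T : ℝ) ^ 3 * ((lam + 1) / m)) := by
            ring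
          rw [e]
          linarith [hk 0, hk 1, hk 2]
  unfold cross en
  rw [← Finset.sum_div, ← mul_div_assoc, Finset.sum_comm, Finset.mul_sum]
  refine div_le_div_of_nonneg_right (Finset.sum_le_sum fun i _ => ?_) (by norm_num)
  rw [Finset.sum_comm, Finset.mul_sum]
  exact Finset.sum_le_sum fun j _ => hpair i j

theorem superstab [Fintype ι] [DecidableEq ι] {φ₀ : ℝ → ℝ} {a : ℝ} (h0 : ∀ r, 0 ≤ φ₀ r)
    (ha : ∀ r, 0 ≤ r → r < 9 / 5 → a ≤ φ₀ r) (x : ι → Pt) :
    a / 2 * (pcu x - Fintype.card ι) ≤ en φ₀ x := by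
  have h1 : pcu x - Fintype.card ι =
      ∑ i, ∑ j, ((if cell (x i) = cell (x j) then (1 : ℝ) else 0) - if i = j then 1 else 0) := by
    unfold pcu pc
    simp [Finset.sum_sub_distrib]
  have h2 : ∀ i j, a * ((if cell (x i) = cell (x j) then (1 : ℝ) else 0) - if i = j then 1 else 0)
      ≤ if i = j then 0 else φ₀ (dist (x i) (x j)) := by
    intro i j
    by_cases hij : i = j
    · simp [hij]
    · simp only [hij, if_false, sub_zero]
      split_ifs with h
      · rw [mul_one]
        refine ha _ dist_nonneg ?_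
        have h3 := dist_le_of_mem_cube (sub_mem_cube_blk one_pos 0 (x i))
          (sub_mem_cube_blk one_pos 0 (x j))
        rw [h, dist_sub_right] at h3
        norm_num at h3
        linarith
      · rw [mul_zero]; exact h0 _
  unfold en
  rw [h1, div_mul_eq_mul_div, Finset.mul_sum]
  refine div_le_div_of_nonneg_right (Finset.sum_le_sum fun i _ => ?_) (by norm_num)
  rw [Finset.mul_sum]
  exact Finset.sum_le_sum fun j _ => h2 i j

theorem sq_le_pcu [Fintype ι] {L : ℝ} (hL : 0 ≤ L) {x : ι → Pt} (hx : x ∈ box ι L) :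
    (Fintype.card ι : ℝ) ^ 2 ≤ (L + 1) ^ 3 * pcu x := by
  set D : Finset Site := Fintype.piFinset fun _ => Finset.Icc (0 : ℤ) ⌊L⌋ with hD
  have hcard : (D.card : ℝ) ≤ (L + 1) ^ 3 := by
    have h0 : 0 ≤ ⌊L⌋ := Int.floor_nonneg.mpr hL
    have h1 : (((⌊L⌋ + 1).toNat : ℕ) : ℝ) ≤ L + 1 := by
      have : (((⌊L⌋ + 1).toNat : ℕ) : ℝ) = ((⌊L⌋ + 1 : ℤ) : ℝ) := by
        exact_mod_cast Int.toNat_of_nonneg (by omega)
      rw [this]
      push_cast
      linarith [Int.floor_le L]
    simp only [hD, Fintype.card_piFinset, Int.card_Icc, sub_zero, Finset.prod_const,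
      Finset.card_univ, Fintype.card_fin]
    push_cast
    exact pow_le_pow_left₀ (Nat.cast_nonneg _) h1 3
  have hmem : ∀ i, cell (x i) ∈ D := by
    intro i
    rw [hD, Fintype.mem_piFinset]
    intro k
    have h := hx i (Set.mem_univ i) k
    exact Finset.mem_Icc.mpr ⟨Int.floor_nonneg.mpr h.1, Int.floor_le_floor h.2⟩
  have h := schur (fun i => cell (x i)) (fun a b => if a ∈ D ∧ b ∈ D then (1 : ℝ) else 0)
    ((L + 1) ^ 3) (fun a b => by split_ifs <;> norm_num) (fun a b => by simp only [and_comm])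
    (fun a F => by
      refine le_trans ?_ hcard
      calc ∑ b ∈ F, (if a ∈ D ∧ b ∈ D then (1 : ℝ) else 0)
          ≤ ∑ b ∈ F, (if b ∈ D then (1 : ℝ) else 0) := by
            refine Finset.sum_le_sum fun b _ => ?_
            by_cases h1 : a ∈ D <;> by_cases h2 : b ∈ D <;> simp [h1, h2]
        _ = ((F.filter fun b => b ∈ D).card : ℝ) := by rw [Finset.sum_boole]
        _ ≤ D.card := by
            exact_mod_cast Finset.card_le_card fun b hb => (Finset.mem_filter.mp hb).2)
  simp only [hmem, and_self, if_true, Finset.sum_const, Finset.card_univ, nsmul_eq_mul,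
    mul_one] at h
  rw [sq]
  exact h

end Crest.Agent.R149
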