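import Crest.Agent.R149.CP
import Crest.Agent.R149.Lattice

/-! Block upper bound (Lebowitz-Penrose type) on restricted partition functions. -/

namespace Crest.Agent.R149

open MeasureTheory Crest.ProbabilityR.Continuum Filter Topology
open scoped ENNReal

theorem bu_tendsto_blocks {m : ℝ} (hm : 0 < m) (T : ℕ) :
    Tendsto (fun L : ℝ => ((⌊(L + T) / m⌋₊ + 1 : ℕ) : ℝ) / L) atTop (𝓝 (1 / m)) := by
  have ht : Tendsto (fun L : ℝ => 1 / m + (T / m + 1) * L⁻¹) atTop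
      (𝓝 (1 / m + (T / m + 1) * 0)) :=
    (tendsto_inv_atTop_zero.const_mul _).const_add _
  rw [mul_zero, add_zero] at ht
  refine tendsto_of_tendsto_of_tendsto_of_le_of_le' tendsto_const_nhds ht ?_ ?_
  · filter_upwards [eventually_gt_atTop 0] with L hL
    have h1 := (Nat.lt_floor_add_one ((L + T) / m)).le
    rw [le_div_iff₀ hL]
    push_cast
    refine le_trans ?_ h1
    rw [one_div_mul_eq_div]
    gcongr
    exact le_add_of_nonneg_right (Nat.cast_nonneg T)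
  · filter_upwards [eventually_gt_atTop 0] with L hL
    have h1 := Nat.floor_le (show 0 ≤ (L + T) / m by positivity)
    rw [div_le_iff₀ hL]
    push_cast
    have : (1 / m + (T / m + 1) * L⁻¹) * L = (L + T) / m + 1 := by field_simp; ring
    rw [this]
    linarith

theorem bu_bound {φ φs wl : ℝ → ℝ} (hφ : Adm φ) (hφs : Measurable φs)
    (hneg : ∀ r, 2 ≤ r → φs r ≤ 0) (h0 : ∀ r, 0 ≤ wl r) (hanti : Antitone wl)
    (heq : ∀ r, φ r = φs r - wl r) {m : ℕ} (hm : 0 < m) {T : ℕ} {s : Site} (hs : s ∈ offsets T)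
    {Am : ℝ} (hAm : ∃ F : Finset Site, (0 : Site) ∉ F ∧
      Am ≤ ∑ z ∈ F, wl (((m : ℝ) + 2) * (‖emb z‖ + 2)))
    {β : ℝ} (hβ : 0 ≤ β) {α v κ ρ : ℝ} (hρ : 0 ≤ ρ)
    (hline : ∀ r, 0 ≤ r → α + v * r + κ * r ^ 2 ≤ fe φ β r) (A : Ev) (Γ : ℝ)
    (hA : ∀ᶠ L : ℝ in atTop, ∀ x ∈ box (Fin ⌊ρ * L ^ 3⌋₊) L ∩ A L ⌊ρ * L ^ 3⌋₊,
      Γ * L ^ 3 ≤ κ * pc (bl m s x) / ((m : ℝ) + 2) ^ 3 +
        β * (Am / 2 * pc (bl m s x) - en wl x + cross φs (bl m s x) x)) :
    UB φ β ρ A ((((m : ℝ) + 2) / m) ^ 3 * α + v * ρ + Γ - (ρ + 2) / m) := by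
  obtain ⟨F, hF0, hF⟩ := hAm
  have hm1 : (1 : ℝ) ≤ m := by exact_mod_cast hm
  have hmR : (0 : ℝ) < m := by linarith
  set m' : ℝ := (m : ℝ) + 2 with hm'
  have hm'0 : 0 < m' := by linarith
  set θ : ℕ → ℝ := fun n => α * m' ^ 3 + v * n + (κ / m' ^ 3 + β / 2 * Am) * (n : ℝ) ^ 2 with hθ
  have hZ : ∀ n, Z φs m n β ≤ ENNReal.ofReal (Real.exp (-θ n)) := by
    intro n
    have h := cp_bound hφ hφs hneg h0 hanti heq (m' := m') (by linarith) F hF0 n hβ
    rw [show m' - 2 = m by rw [hm']; ring] at h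
    refine h.trans (ENNReal.ofReal_le_ofReal (Real.exp_le_exp.2 (neg_le_neg ?_)))
    have h1 := mul_le_mul_of_nonneg_left (hline (n / m' ^ 3) (by positivity))
      (show 0 ≤ m' ^ 3 by positivity)
    have h2 : m' ^ 3 * (α + v * (n / m' ^ 3) + κ * (n / m' ^ 3) ^ 2) =
        α * m' ^ 3 + v * n + κ / m' ^ 3 * (n : ℝ) ^ 2 := by
      field_simp
    have h3 : β / 2 * Am * (n : ℝ) ^ 2 ≤
        β / 2 * (∑ z ∈ F, wl (m' * (‖emb z‖ + 2))) * (n : ℝ) ^ 2 := by gcongr
    simp only [hθ]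
    linarith
  intro γ' hγ'
  have hM := (bu_tendsto_blocks hmR T).pow 3
  have hN := tendsto_floor_div ρ hρ
  have hlim : Tendsto (fun L : ℝ => -Γ + (((⌊(L + T) / m⌋₊ + 1 : ℕ) : ℝ) / L) ^ 3 *
      (1 / m + Real.log m - α * m' ^ 3) + (⌊ρ * L ^ 3⌋₊ : ℝ) / L ^ 3 * (1 / m - v)) atTop
      (𝓝 (-Γ + (1 / m) ^ 3 * (1 / m + Real.log m - α * m' ^ 3) + ρ * (1 / m - v))) :=
    ((hM.mul_const _).const_add _).add (hN.mul_const _)
  have hlt : -Γ + (1 / (m : ℝ)) ^ 3 * (1 / m + Real.log m - α * m' ^ 3) + ρ * (1 / m - v) <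
      -γ' := by
    have h1 : (1 / (m : ℝ)) ^ 3 * (1 / m + Real.log m) ≤ 2 / m := by
      have h2 : Real.log m ≤ m - 1 := Real.log_le_sub_one_of_pos hmR
      have h3 : 1 / (m : ℝ) ≤ 1 := by rw [div_le_one hmR]; exact hm1
      have h4 : 1 / (m : ℝ) + Real.log m ≤ 2 * m ^ 2 := by nlinarith
      calc (1 / (m : ℝ)) ^ 3 * (1 / m + Real.log m) ≤ (1 / (m : ℝ)) ^ 3 * (2 * m ^ 2) := by
            gcongr
        _ = 2 / (m : ℝ) := by field_simp
    have h5 : (1 / (m : ℝ)) ^ 3 * (α * m' ^ 3) = (m' / m) ^ 3 * α := by field_simp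
    have h6 : (ρ + 2) / m = ρ * (1 / m) + 2 / m := by ring
    rw [mul_sub, h5]
    linarith
  filter_upwards [hA, hlim.eventually (gt_mem_nhds hlt), eventually_gt_atTop 0] with L hAL hL hL0
  set N := ⌊ρ * L ^ 3⌋₊ with hNdef
  set M := ⌊(L + T) / m⌋₊ + 1 with hMdef
  set f : (Fin 3 → Fin M) → Site := fun b k => ((b k : ℕ) : ℤ) with hf
  have hfinj : Function.Injective f := by
    intro b b' h
    funext k
    have := congrFun h k
    simp only [hf] at this
    exact Fin.ext (by exact_mod_cast this)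
  have hcard : Fintype.card (Fin 3 → Fin M) = M ^ 3 := by simp
  have h := genUB φ hφs β m L N (A L N) (B := Fin 3 → Fin M)
    (fun b => emb fun k => (m : ℤ) * f b k - s k) θ
    (-Γ * L ^ 3 - (M : ℝ) ^ 3 * (α * m' ^ 3) - v * N) hZ (fun x hx => ?_)
  · refine h.trans ?_
    rw [hcard, ← ENNReal.ofReal_natCast, ← ENNReal.ofReal_mul (Real.exp_pos _).le]
    refine ENNReal.ofReal_le_ofReal ?_
    refine (mul_le_mul_of_nonneg_left (choose_le_exp N (M ^ 3) hm1) (Real.exp_pos _).le).trans ?_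
    rw [← Real.exp_add, Real.exp_le_exp]
    have hL3 : 0 < L ^ 3 := by positivity
    have h1 := mul_le_mul_of_nonneg_right hL.le hL3.le
    refine le_trans (le_of_eq ?_) h1
    push_cast
    field_simp
    ring
  · have hr := fun i k => blk_mem_range hm hs (hx.1 i (Set.mem_univ i)) k
    set c : Fin N → Fin 3 → Fin M := fun i k => ⟨(blk m s (cell (x i)) k).toNat, by
      have := hr i k
      omega⟩ with hc
    have hfc : ∀ i, f (c i) = bl m s x i := by
      intro i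
      funext k
      simp only [hf, hc, bl]
      exact Int.toNat_of_nonneg (hr i k).1
    have hfc' : bl m s x = fun i => f (c i) := funext fun i => (hfc i).symm
    refine ⟨c, fun i => ?_, ?_⟩
    · simp only [hfc, bl]
      exact sub_mem_cube_blk hm s (x i)
    · have h1 := hAL x hx
      rw [hfc', pc_comp_inj c f hfinj, cross_comp_inj φs c f hfinj] at h1
      have h2 : ∑ b, θ (cnt c b) =
          (M : ℝ) ^ 3 * (α * m' ^ 3) + v * N + (κ / m' ^ 3 + β / 2 * Am) * pc c := by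
        simp only [hθ, Finset.sum_add_distrib, ← Finset.mul_sum]
        rw [← pc_eq_sum_cnt_sq, ← Nat.cast_sum, sum_cnt, Fintype.card_fin, Finset.sum_const,
          Finset.card_univ, hcard, nsmul_eq_mul]
        push_cast
        ring
      rw [Finset.sum_sub_distrib, h2, ← Finset.mul_sum, en_sub heq, en_split φs c x]
      have h3 : κ * pc c / m' ^ 3 = κ / m' ^ 3 * pc c := by ring
      rw [h3] at h1
      linarith

end Crest.Agent.R149
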