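import Crest.Agent.R149.Defs

/-! Elementary facts on energies and (restricted) partition functions. -/

namespace Crest.Agent.R149

open MeasureTheory Crest.ProbabilityR.Continuum Filter Topology
open scoped ENNReal

variable {ι ι' B B' : Type}

theorem energy_eq_en (φ : ℝ → ℝ) {N : ℕ} (x : Fin N → Pt) : energy φ x = en φ x := by
  unfold energy en
  have h1 : ∑ p : {p : Fin N × Fin N // p.1 < p.2}, φ (dist (x p.1.1) (x p.1.2)) =
      ∑ i, ∑ j, if i < j then φ (dist (x i) (x j)) else 0 := by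
    rw [← Finset.sum_subtype (Finset.univ.filter fun p : Fin N × Fin N => p.1 < p.2)
      (by simp) (fun p : Fin N × Fin N => φ (dist (x p.1) (x p.2))), Finset.sum_filter,
      Fintype.sum_prod_type]
  have h2 : (∑ i, ∑ j, if i < j then φ (dist (x i) (x j)) else 0) =
      ∑ i, ∑ j, if j < i then φ (dist (x i) (x j)) else 0 := by
    rw [Finset.sum_comm]
    refine Finset.sum_congr rfl fun i _ => Finset.sum_congr rfl fun j _ => ?_
    rw [dist_comm]
  have h3 : (∑ i, ∑ j, if i = j then 0 else φ (dist (x i) (x j))) =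
      (∑ i, ∑ j, if i < j then φ (dist (x i) (x j)) else 0) +
        ∑ i, ∑ j, if j < i then φ (dist (x i) (x j)) else 0 := by
    rw [← Finset.sum_add_distrib]
    refine Finset.sum_congr rfl fun i _ => ?_
    rw [← Finset.sum_add_distrib]
    refine Finset.sum_congr rfl fun j _ => ?_
    rcases lt_trichotomy i j with h | h | h
    · simp [h, h.ne, h.not_gt]
    · simp [h]
    · simp [h, h.ne', h.not_gt]
  rw [h1, h3, ← h2]
  ring

theorem en_comp_equiv (φ : ℝ → ℝ) [Fintype ι] [DecidableEq ι] [Fintype ι'] [DecidableEq ι']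
    (e : ι ≃ ι') (x : ι' → Pt) : en φ (fun i => x (e i)) = en φ x := by
  unfold en
  congr 1
  rw [← e.sum_comp]
  refine Finset.sum_congr rfl fun i _ => ?_
  rw [← e.sum_comp]
  refine Finset.sum_congr rfl fun j _ => ?_
  simp

theorem en_split (φ : ℝ → ℝ) [Fintype ι] [DecidableEq ι] [Fintype B] [DecidableEq B]
    (c : ι → B) (x : ι → Pt) : en φ x = ∑ b, en φ (fib c b x) + cross φ c x := by
  unfold en cross
  rw [← Finset.sum_div, ← add_div]
  congr 1
  have h1 : ∀ b, (∑ i : {i // c i = b}, ∑ j : {i // c i = b},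
      if i = j then 0 else φ (dist (fib c b x i) (fib c b x j))) =
      ∑ i, ∑ j, if c i = b then (if c j = b then
        (if i = j then 0 else φ (dist (x i) (x j))) else 0) else 0 := by
    intro b
    have h2 : ∀ f : ι → ℝ, ∑ i : {i // c i = b}, f i.1 = ∑ i, if c i = b then f i else 0 := by
      intro f
      rw [← Finset.sum_subtype (Finset.univ.filter fun i => c i = b) (by simp) f,
        Finset.sum_filter]
    have h3 : ∀ i : {i // c i = b}, (∑ j : {i // c i = b},
        if i = j then 0 else φ (dist (fib c b x i) (fib c b x j))) =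
        ∑ j, if c j = b then (if i.1 = j then 0 else φ (dist (x i.1) (x j))) else 0 := by
      intro i
      rw [← h2 fun j => if i.1 = j then 0 else φ (dist (x i.1) (x j))]
      refine Finset.sum_congr rfl fun j _ => ?_
      simp [fib, Subtype.ext_iff]
    simp_rw [h3]
    rw [h2 fun i => ∑ j, if c j = b then (if i = j then 0 else φ (dist (x i) (x j))) else 0]
    refine Finset.sum_congr rfl fun i _ => ?_
    split_ifs <;> simp
  simp_rw [h1]
  rw [Finset.sum_comm (s := (Finset.univ : Finset B)), ← Finset.sum_add_distrib]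
  refine Finset.sum_congr rfl fun i _ => ?_
  rw [Finset.sum_comm (s := (Finset.univ : Finset B)), ← Finset.sum_add_distrib]
  refine Finset.sum_congr rfl fun j _ => ?_
  rw [Finset.sum_ite_eq]
  by_cases h : c i = c j
  · simp [h]
  · have hij : i ≠ j := fun e => h (by rw [e])
    simp [h, hij, Ne.symm h]

theorem en_sub {φ ψ χ : ℝ → ℝ} (h : ∀ r, φ r = ψ r - χ r) [Fintype ι] [DecidableEq ι]
    (x : ι → Pt) : en φ x = en ψ x - en χ x := by
  unfold en
  rw [← sub_div, ← Finset.sum_sub_distrib]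
  congr 1
  refine Finset.sum_congr rfl fun i _ => ?_
  rw [← Finset.sum_sub_distrib]
  refine Finset.sum_congr rfl fun j _ => ?_
  split_ifs <;> simp [h]

theorem cross_sub {φ ψ χ : ℝ → ℝ} (h : ∀ r, φ r = ψ r - χ r) [Fintype ι] [DecidableEq B]
    (c : ι → B) (x : ι → Pt) : cross φ c x = cross ψ c x - cross χ c x := by
  unfold cross
  rw [← sub_div, ← Finset.sum_sub_distrib]
  congr 1
  refine Finset.sum_congr rfl fun i _ => ?_
  rw [← Finset.sum_sub_distrib]
  refine Finset.sum_congr rfl fun j _ => ?_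
  split_ifs <;> simp [h]

theorem en_mono {φ ψ : ℝ → ℝ} (h : ∀ r, 0 ≤ r → φ r ≤ ψ r) [Fintype ι] [DecidableEq ι]
    (x : ι → Pt) : en φ x ≤ en ψ x := by
  unfold en
  gcongr with i _ j _
  split_ifs
  · exact le_rfl
  · exact h _ dist_nonneg

theorem en_nonneg {φ : ℝ → ℝ} (h : ∀ r, 0 ≤ r → 0 ≤ φ r) [Fintype ι] [DecidableEq ι]
    (x : ι → Pt) : 0 ≤ en φ x := by
  unfold en
  refine div_nonneg (Finset.sum_nonneg fun i _ => Finset.sum_nonneg fun j _ => ?_) (by norm_num)
  split_ifs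
  · exact le_rfl
  · exact h _ dist_nonneg

theorem cross_nonneg {φ : ℝ → ℝ} (h : ∀ r, 0 ≤ r → 0 ≤ φ r) [Fintype ι] [DecidableEq B]
    (c : ι → B) (x : ι → Pt) : 0 ≤ cross φ c x := by
  unfold cross
  refine div_nonneg (Finset.sum_nonneg fun i _ => Finset.sum_nonneg fun j _ => ?_) (by norm_num)
  split_ifs
  · exact le_rfl
  · exact h _ dist_nonneg

theorem cross_nonpos {φ : ℝ → ℝ} [Fintype ι] [DecidableEq B] (c : ι → B) (x : ι → Pt)
    (h : ∀ i j, c i ≠ c j → φ (dist (x i) (x j)) ≤ 0) : cross φ c x ≤ 0 := by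
  unfold cross
  refine div_nonpos_of_nonpos_of_nonneg
    (Finset.sum_nonpos fun i _ => Finset.sum_nonpos fun j _ => ?_) (by norm_num)
  split_ifs with hij
  · exact le_rfl
  · exact h i j hij

theorem en_translate (φ : ℝ → ℝ) [Fintype ι] [DecidableEq ι] (x : ι → Pt) (v : Pt) :
    en φ (fun i => x i - v) = en φ x := by
  unfold en
  simp only [dist_sub_right]

theorem pc_nonneg [Fintype ι] [DecidableEq B] (c : ι → B) : 0 ≤ pc c := by
  unfold pc
  refine Finset.sum_nonneg fun i _ => Finset.sum_nonneg fun j _ => ?_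
  split_ifs <;> norm_num

theorem pc_comp_inj [Fintype ι] [DecidableEq B] [DecidableEq B'] (c : ι → B) (f : B → B')
    (hf : Function.Injective f) : pc (fun i => f (c i)) = pc c := by
  unfold pc
  simp only [hf.eq_iff]

theorem cross_comp_inj (φ : ℝ → ℝ) [Fintype ι] [DecidableEq B] [DecidableEq B'] (c : ι → B)
    (f : B → B') (hf : Function.Injective f) (x : ι → Pt) :
    cross φ (fun i => f (c i)) x = cross φ c x := by
  unfold cross
  simp only [hf.eq_iff]

theorem pc_eq_sum_cnt_sq [Fintype ι] [Fintype B] [DecidableEq B] (c : ι → B) :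
    pc c = ∑ b, (cnt c b : ℝ) ^ 2 := by
  unfold pc cnt
  have h : ∀ b, (((Finset.univ.filter fun i => c i = b).card : ℕ) : ℝ) =
      ∑ i, if c i = b then (1 : ℝ) else 0 := by
    intro b
    simp
  simp_rw [h, sq, Finset.sum_mul_sum]
  rw [Finset.sum_comm (s := (Finset.univ : Finset B))]
  refine Finset.sum_congr rfl fun i _ => ?_
  rw [Finset.sum_comm (s := (Finset.univ : Finset B))]
  refine Finset.sum_congr rfl fun j _ => ?_
  simp only [ite_mul, one_mul, zero_mul, Finset.sum_ite_eq, Finset.mem_univ, if_true]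
  by_cases hij : c i = c j
  · simp [hij]
  · simp [hij, Ne.symm hij]

theorem sum_cnt [Fintype ι] [Fintype B] [DecidableEq B] (c : ι → B) :
    ∑ b, cnt c b = Fintype.card ι := by
  unfold cnt
  rw [← Finset.card_univ, Finset.card_eq_sum_card_fiberwise (f := c) (t := Finset.univ)
    (fun _ _ => Finset.mem_univ _)]

theorem card_fib [Fintype ι] [DecidableEq B] (c : ι → B) (b : B) :
    Fintype.card {i // c i = b} = cnt c b := by
  unfold cnt
  exact Fintype.card_subtype _

theorem measurable_en {φ : ℝ → ℝ} (hφ : Measurable φ) [Fintype ι] [DecidableEq ι] :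
    Measurable fun x : ι → Pt => en φ x := by
  unfold en
  refine Measurable.div_const ?_ _
  refine Finset.measurable_sum _ fun i _ => Finset.measurable_sum _ fun j _ => ?_
  split_ifs
  · exact measurable_const
  · exact hφ.comp ((measurable_pi_apply i).dist (measurable_pi_apply j))

theorem measurable_boltz {φ : ℝ → ℝ} (hφ : Measurable φ) (β : ℝ) [Fintype ι] [DecidableEq ι] :
    Measurable fun x : ι → Pt => boltz φ β x := by
  unfold boltz
  exact ENNReal.measurable_ofReal.comp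
    (Real.measurable_exp.comp ((measurable_en hφ).const_mul (-β)))

theorem cube_eq_preimage (L : ℝ) :
    cube L = (fun y : Pt => y.ofLp) ⁻¹' Set.Icc (fun _ : Fin 3 => (0 : ℝ)) (fun _ => L) := by
  ext y
  simp [cube, Set.mem_Icc, Pi.le_def, forall_and]

theorem measurableSet_cube (L : ℝ) : MeasurableSet (cube L) := by
  rw [cube_eq_preimage]
  exact (PiLp.volume_preserving_ofLp (Fin 3)).measurable measurableSet_Icc

theorem volume_cube {L : ℝ} (hL : 0 ≤ L) : volume (cube L) = ENNReal.ofReal (L ^ 3) := by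
  rw [cube_eq_preimage,
    (PiLp.volume_preserving_ofLp (Fin 3)).measure_preimage measurableSet_Icc.nullMeasurableSet,
    Real.volume_Icc_pi]
  simp [ENNReal.ofReal_pow hL]

theorem measurableSet_box [Fintype ι] (L : ℝ) : MeasurableSet (box ι L) :=
  MeasurableSet.univ_pi fun _ => measurableSet_cube L

theorem volume_box [Fintype ι] {L : ℝ} (hL : 0 ≤ L) :
    volume (box ι L) = ENNReal.ofReal (L ^ 3) ^ Fintype.card ι := by
  unfold box
  rw [volume_pi_pi]
  simp [volume_cube hL]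

/-- Two points of a cube of side `m` are at distance at most `√3 m ≤ 7 m / 4`. -/
theorem dist_le_of_mem_cube {m : ℝ} {y y' : Pt} (hy : y ∈ cube m) (hy' : y' ∈ cube m) :
    dist y y' ≤ 7 / 4 * m := by
  have hm : 0 ≤ m := (hy 0).1.trans (hy 0).2
  rw [EuclideanSpace.dist_eq]
  refine Real.sqrt_le_iff.2 ⟨by positivity, ?_⟩
  have h : ∀ k, dist (y k) (y' k) ^ 2 ≤ m ^ 2 := by
    intro k
    rw [Real.dist_eq, sq_abs]
    have h1 := hy k
    have h2 := hy' k
    nlinarith [h1.1, h1.2, h2.1, h2.2]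
  rw [Fin.sum_univ_three]
  nlinarith [h 0, h 1, h 2, sq_nonneg m]

theorem abs_sub_le_dist (y y' : Pt) (k : Fin 3) : |y k - y' k| ≤ dist y y' := by
  have := PiLp.dist_apply_le y y' k
  rwa [Real.dist_eq] at this

/-- Relabelling the particles does not change an integral over the box. -/
theorem lintegral_box_comp_equiv [Fintype ι] [Fintype ι'] (e : ι ≃ ι') (L : ℝ)
    (F : (ι → Pt) → ℝ≥0∞) :
    ∫⁻ x in box ι' L, F (fun i => x (e i)) = ∫⁻ y in box ι L, F y := by
  have hmp := volume_measurePreserving_piCongrLeft (fun _ : ι => Pt) e.symm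
  have hfun : ∀ x : ι' → Pt, (MeasurableEquiv.piCongrLeft (fun _ : ι => Pt) e.symm) x =
      fun i => x (e i) := by
    intro x
    funext i
    simp [MeasurableEquiv.piCongrLeft, Equiv.piCongrLeft_apply_eq_cast]
  have hpre : (MeasurableEquiv.piCongrLeft (fun _ : ι => Pt) e.symm) ⁻¹' box ι L = box ι' L := by
    ext x
    simp only [Set.mem_preimage, hfun, box, Set.mem_pi, Set.mem_univ, true_imp_iff]
    exact ⟨fun h j => by simpa using h (e.symm j), fun h i => h _⟩
  rw [← hmp.setLIntegral_comp_preimage_emb (MeasurableEquiv.measurableEmbedding _) F, hpre]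
  simp only [hfun]

theorem lintegral_box {φ : ℝ → ℝ} [Fintype ι] [DecidableEq ι] (L β : ℝ) :
    ∫⁻ x in box ι L, boltz φ β x =
      ((Fintype.card ι).factorial : ℝ≥0∞) * Z φ L (Fintype.card ι) β := by
  unfold Z ZR
  rw [Set.inter_univ, ENNReal.mul_div_cancel (by exact_mod_cast (Nat.factorial_ne_zero _))
    (ENNReal.natCast_ne_top _), ← lintegral_box_comp_equiv (Fintype.equivFin ι).symm L]
  refine lintegral_congr fun x => ?_
  unfold boltz
  rw [en_comp_equiv]

theorem partitionFn_eq {φ : ℝ → ℝ} (hφ : Measurable φ) (L : ℝ) (N : ℕ) (β : ℝ) :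
    partitionFn φ L N β = (Z φ L N β).toReal := by
  unfold partitionFn Z ZR
  rw [Set.inter_univ, ENNReal.toReal_div, integral_eq_lintegral_of_nonneg_ae
    (ae_of_all _ fun x => (Real.exp_pos _).le)]
  · simp only [energy_eq_en, ENNReal.toReal_natCast, boltz, box]
    ring
  · simp only [energy_eq_en]
    exact (Real.measurable_exp.comp ((measurable_en hφ).const_mul (-β))).aestronglyMeasurable

theorem ZR_mono (φ : ℝ → ℝ) (L : ℝ) (N : ℕ) (β : ℝ) {A A' : Set (Fin N → Pt)}
    (h : box (Fin N) L ∩ A ⊆ A') : ZR φ L N β A ≤ ZR φ L N β A' := by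
  unfold ZR
  exact ENNReal.div_le_div_right
    (lintegral_mono_set (Set.subset_inter Set.inter_subset_left h)) _

theorem ZR_le_Z (φ : ℝ → ℝ) (L : ℝ) (N : ℕ) (β : ℝ) (A : Set (Fin N → Pt)) :
    ZR φ L N β A ≤ Z φ L N β :=
  ZR_mono φ L N β (Set.subset_univ _)

theorem ZR_cover (φ : ℝ → ℝ) (L : ℝ) (N : ℕ) (β : ℝ) {κ : Type} (s : Finset κ)
    (A : Set (Fin N → Pt)) (A' : κ → Set (Fin N → Pt))
    (h : ∀ x ∈ box (Fin N) L ∩ A, ∃ i ∈ s, x ∈ A' i) :
    ZR φ L N β A ≤ ∑ i ∈ s, ZR φ L N β (A' i) := by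
  unfold ZR
  simp only [div_eq_mul_inv]
  rw [← Finset.sum_mul]
  gcongr
  calc ∫⁻ x in box (Fin N) L ∩ A, boltz φ β x
      ≤ ∫⁻ x in ⋃ i : s, box (Fin N) L ∩ A' i, boltz φ β x := by
        refine lintegral_mono_set fun x hx => ?_
        obtain ⟨i, hi, hxi⟩ := h x hx
        exact Set.mem_iUnion.2 ⟨⟨i, hi⟩, hx.1, hxi⟩
    _ ≤ ∑' i : s, ∫⁻ x in box (Fin N) L ∩ A' i, boltz φ β x := lintegral_iUnion_le _ _
    _ = ∑ i ∈ s, ∫⁻ x in box (Fin N) L ∩ A' i, boltz φ β x :=
        Finset.tsum_subtype s fun i => ∫⁻ x in box (Fin N) L ∩ A' i, boltz φ β x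

theorem ZR_le_of_pointwise {φ φ' : ℝ → ℝ} (hφ' : Measurable φ') (L : ℝ) (N : ℕ) (β β' E : ℝ)
    (A : Set (Fin N → Pt))
    (h : ∀ x ∈ box (Fin N) L ∩ A, -β * en φ x ≤ E - β' * en φ' x) :
    ZR φ L N β A ≤ ENNReal.ofReal (Real.exp E) * ZR φ' L N β' A := by
  unfold ZR
  rw [← mul_div_assoc, ← lintegral_const_mul _ (measurable_boltz hφ' β')]
  refine ENNReal.div_le_div_right
    (setLIntegral_mono ((measurable_boltz hφ' β').const_mul _) fun x hx => ?_) _
  unfold boltz
  rw [← ENNReal.ofReal_mul (Real.exp_pos _).le, ← Real.exp_add]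
  refine ENNReal.ofReal_le_ofReal (Real.exp_le_exp.2 ?_)
  have := h x hx
  linarith

/-- If the exponent is bounded on the event, the ideal-gas bound applies. -/
theorem ZR_le_of_exponent (φ : ℝ → ℝ) {L : ℝ} (hL : 0 ≤ L) (N : ℕ) (β E : ℝ)
    (A : Set (Fin N → Pt)) (h : ∀ x ∈ box (Fin N) L ∩ A, -β * en φ x ≤ E) :
    ZR φ L N β A ≤ ENNReal.ofReal (Real.exp (E + L ^ 3)) := by
  unfold ZR
  have h1 : ∫⁻ x in box (Fin N) L ∩ A, boltz φ β x ≤
      ENNReal.ofReal (Real.exp E) * ENNReal.ofReal (L ^ 3) ^ N := by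
    calc ∫⁻ x in box (Fin N) L ∩ A, boltz φ β x
        ≤ ∫⁻ _ in box (Fin N) L ∩ A, ENNReal.ofReal (Real.exp E) :=
          setLIntegral_mono measurable_const fun x hx =>
            ENNReal.ofReal_le_ofReal (Real.exp_le_exp.2 (h x hx))
      _ ≤ ∫⁻ _ in box (Fin N) L, ENNReal.ofReal (Real.exp E) :=
          lintegral_mono_set Set.inter_subset_left
      _ = _ := by rw [setLIntegral_const, volume_box hL, Fintype.card_fin]
  have hL3 : 0 ≤ L ^ 3 := by positivity
  refine (ENNReal.div_le_div_right h1 _).trans ?_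
  rw [mul_div_assoc, Real.exp_add, ENNReal.ofReal_mul (Real.exp_pos _).le]
  gcongr
  rw [← ENNReal.ofReal_pow hL3, ← ENNReal.ofReal_natCast,
    ← ENNReal.ofReal_div_of_pos (by exact_mod_cast Nat.factorial_pos N)]
  exact ENNReal.ofReal_le_ofReal (Real.pow_div_factorial_le_exp _ hL3 N)

theorem Z_ne_top {φ : ℝ → ℝ} (hφ : Adm φ) {L : ℝ} (hL : 0 ≤ L) (N : ℕ) {β : ℝ} (hβ : 0 ≤ β) :
    Z φ L N β ≠ ⊤ := by
  obtain ⟨B, hB⟩ := hφ.stab
  refine ne_top_of_le_ne_top ENNReal.ofReal_ne_top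
    (ZR_le_of_exponent φ hL N β (β * (B * N)) Set.univ fun x _ => ?_)
  have := mul_le_mul_of_nonneg_left (hB N x) hβ
  linarith

theorem Z_pos {φ : ℝ → ℝ} (hφ : Measurable φ) {L : ℝ} (hL : 0 < L) (N : ℕ) (β : ℝ) :
    0 < Z φ L N β := by
  unfold Z ZR
  refine ENNReal.div_pos ?_ (ENNReal.natCast_ne_top _)
  rw [Set.inter_univ, ← pos_iff_ne_zero, setLIntegral_pos_iff (measurable_boltz hφ β)]
  have : (Function.support fun x : Fin N → Pt => boltz φ β x) = Set.univ := by
    ext x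
    simp [boltz, Real.exp_pos]
  rw [this, Set.univ_inter, volume_box hL.le]
  exact ENNReal.pow_pos (ENNReal.ofReal_pos.2 (by positivity)) _

theorem Z_zero_particles (φ : ℝ → ℝ) (L β : ℝ) : Z φ L 0 β = 1 := by
  unfold Z ZR
  have h1 : box (Fin 0) L = Set.univ := by
    ext x
    simp [box]
  have h2 : ∀ x : Fin 0 → Pt, boltz φ β x = 1 := by
    intro x
    simp [boltz, en]
  simp [h1, h2, volume_pi]

theorem ZR_holder {φ : ℝ → ℝ} (hφ : Measurable φ) (L : ℝ) (N : ℕ) (β₁ β₂ θ : ℝ) (h0 : 0 ≤ θ)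
    (h1 : θ ≤ 1) (A : Set (Fin N → Pt)) :
    ZR φ L N (θ * β₁ + (1 - θ) * β₂) A ≤ ZR φ L N β₁ A ^ θ * ZR φ L N β₂ A ^ (1 - θ) := by
  unfold ZR
  have h1' : 0 ≤ 1 - θ := by linarith
  have hb : ∀ x : Fin N → Pt, boltz φ (θ * β₁ + (1 - θ) * β₂) x =
      boltz φ β₁ x ^ θ * boltz φ β₂ x ^ (1 - θ) := by
    intro x
    unfold boltz
    rw [ENNReal.ofReal_rpow_of_pos (Real.exp_pos _), ENNReal.ofReal_rpow_of_pos (Real.exp_pos _),
      ← ENNReal.ofReal_mul (by positivity), ← Real.exp_mul, ← Real.exp_mul, ← Real.exp_add]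
    congr 2
    ring
  simp_rw [hb]
  have hH := ENNReal.lintegral_mul_norm_pow_le (μ := volume.restrict (box (Fin N) L ∩ A))
    (measurable_boltz hφ β₁).aemeasurable (measurable_boltz hφ β₂).aemeasurable h0 h1'
    (by ring)
  refine (ENNReal.div_le_div_right hH _).trans (le_of_eq ?_)
  rw [ENNReal.div_rpow_of_nonneg _ _ h0, ENNReal.div_rpow_of_nonneg _ _ h1']
  have hN0 : (N.factorial : ℝ≥0∞) ≠ 0 := by exact_mod_cast Nat.factorial_ne_zero N
  have hNt : (N.factorial : ℝ≥0∞) ≠ ⊤ := ENNReal.natCast_ne_top _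
  have hsplit : (N.factorial : ℝ≥0∞) =
      (N.factorial : ℝ≥0∞) ^ θ * (N.factorial : ℝ≥0∞) ^ (1 - θ) := by
    rw [← ENNReal.rpow_add _ _ hN0 hNt]
    simp
  conv_lhs => rw [hsplit]
  rw [div_eq_mul_inv, div_eq_mul_inv, div_eq_mul_inv, ENNReal.mul_inv
    (Or.inl (ENNReal.rpow_pos (pos_iff_ne_zero.2 hN0) hNt).ne')
    (Or.inl (ENNReal.rpow_ne_top_of_nonneg h0 hNt))]
  ring

end Crest.Agent.R149
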