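import Crest.Agent.R149.Basic

/-! Block decompositions of partition functions. -/

namespace Crest.Agent.R149

open MeasureTheory Crest.ProbabilityR.Continuum Filter Topology
open scoped ENNReal

variable {ι B : Type}

theorem blocks_lintegral_fin_prod {n : ℕ} {E : Fin n → Type*}
    {mE : ∀ i, MeasurableSpace (E i)} {μ : (i : Fin n) → Measure (E i)} [∀ i, SigmaFinite (μ i)]
    (f : (i : Fin n) → E i → ℝ≥0∞) (hf : ∀ i, Measurable (f i)) :
    ∫⁻ x : (i : Fin n) → E i, ∏ i, f i (x i) ∂(Measure.pi μ) = ∏ i, ∫⁻ x, f i x ∂(μ i) := by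
  induction n with
  | zero => simp
  | succ n n_ih =>
      calc
        _ = ∫⁻ x : E 0 × ((i : Fin n) → E (Fin.succ i)),
            f 0 x.1 * ∏ i : Fin n, f (Fin.succ i) (x.2 i)
            ∂((μ 0).prod (Measure.pi (fun i ↦ μ i.succ))) := by
          rw [← ((measurePreserving_piFinSuccAbove μ 0).symm).lintegral_comp_emb
            (MeasurableEquiv.measurableEmbedding _)]
          refine lintegral_congr fun x => ?_
          rw [Fin.prod_univ_succ]
          rfl
        _ = (∫⁻ x, f 0 x ∂μ 0)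
            * ∏ i : Fin n, ∫⁻ (x : E (Fin.succ i)), f (Fin.succ i) x ∂(μ i.succ) := by
          rw [← n_ih (fun i => f i.succ) (fun i => hf _), ← lintegral_prod_mul (hf 0).aemeasurable]
          exact (Finset.measurable_prod _ fun i _ =>
            (hf _).comp (measurable_pi_apply i)).aemeasurable
        _ = ∏ i, ∫⁻ x, f i x ∂(μ i) := by rw [Fin.prod_univ_succ]

theorem blocks_lintegral_prod {κ : Type*} [Fintype κ] {E : κ → Type*}
    {mE : ∀ i, MeasurableSpace (E i)} {μ : (i : κ) → Measure (E i)} [∀ i, SigmaFinite (μ i)]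
    (f : (i : κ) → E i → ℝ≥0∞) (hf : ∀ i, Measurable (f i)) :
    ∫⁻ x : (i : κ) → E i, ∏ i, f i (x i) ∂(Measure.pi μ) = ∏ i, ∫⁻ x, f i x ∂(μ i) := by
  let e := (Fintype.equivFin κ).symm
  rw [← (measurePreserving_piCongrLeft _ e).lintegral_comp_emb
    (MeasurableEquiv.measurableEmbedding _)]
  simp_rw [← e.prod_comp, MeasurableEquiv.coe_piCongrLeft, Equiv.piCongrLeft_apply_apply]
  exact blocks_lintegral_fin_prod (fun i => f (e i)) (fun i => hf _)

/-- Gluing the sub-configurations of the blocks. -/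
noncomputable def blocksGlue (v : B → Pt) (c : ι → B)
    (y : (b : B) → {i // c i = b} → Pt) : ι → Pt := fun i => y (c i) ⟨i, rfl⟩ + v (c i)

theorem blocksGlue_apply (v : B → Pt) (c : ι → B) (y : (b : B) → {i // c i = b} → Pt) (b : B)
    (j : {i // c i = b}) : blocksGlue v c y j.1 = y b j + v b := by
  obtain ⟨i, rfl⟩ := j
  rfl

theorem blocksGlue_measurable (v : B → Pt) (c : ι → B) : Measurable (blocksGlue v c) := by
  refine measurable_pi_lambda _ fun i => ?_
  exact ((measurable_pi_apply _).comp (measurable_pi_apply (c i))).add_const _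

theorem blocksGlue_preimage (v : B → Pt) (c : ι → B) (s : ι → Set Pt) :
    blocksGlue v c ⁻¹' Set.pi Set.univ s =
      Set.pi Set.univ fun b => Set.pi Set.univ fun j : {i // c i = b} =>
        (fun y => y + v b) ⁻¹' s j.1 := by
  ext y
  simp only [Set.mem_preimage, Set.mem_pi, Set.mem_univ, true_imp_iff]
  constructor
  · intro h b j
    rw [← blocksGlue_apply]
    exact h _
  · intro h i
    exact h (c i) ⟨i, rfl⟩

theorem blocksGlue_mp [Fintype ι] [Fintype B] [DecidableEq B] (v : B → Pt) (c : ι → B) :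
    MeasurePreserving (blocksGlue v c)
      (Measure.pi fun b => (volume : Measure ({i // c i = b} → Pt))) volume := by
  refine ⟨blocksGlue_measurable v c, ?_⟩
  rw [volume_pi]
  refine (Measure.pi_eq fun s hs => ?_).symm
  rw [Measure.map_apply (blocksGlue_measurable v c) (MeasurableSet.univ_pi hs),
    blocksGlue_preimage, Measure.pi_pi]
  simp_rw [volume_pi_pi, measure_preimage_add_right]
  exact Fintype.prod_fiberwise c fun i => volume (s i)

theorem inBlocks_eq_pi (m : ℝ) (v : B → Pt) (c : ι → B) :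
    inBlocks m v c = Set.pi Set.univ fun i => (fun y => y - v (c i)) ⁻¹' cube m := by
  ext x
  simp [inBlocks]

theorem measurableSet_inBlocks [Fintype ι] (m : ℝ) (v : B → Pt) (c : ι → B) :
    MeasurableSet (inBlocks m v c) := by
  rw [inBlocks_eq_pi]
  exact MeasurableSet.univ_pi fun i => (measurable_sub_const _) (measurableSet_cube m)

theorem blocks_measurable_fib (c : ι → B) (b : B) : Measurable (fib c b) :=
  measurable_pi_lambda _ fun j => measurable_pi_apply j.1

theorem blocks_measurable_prod {φ : ℝ → ℝ} (hφ : Measurable φ) (β : ℝ) [Fintype ι] [DecidableEq ι]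
    [Fintype B] [DecidableEq B] (c : ι → B) :
    Measurable fun x : ι → Pt => ∏ b, boltz φ β (fib c b x) :=
  Finset.measurable_prod _ fun b _ => (measurable_boltz hφ β).comp (blocks_measurable_fib c b)

/-- Fubini over the fibres of a labelling. -/
theorem prod_blocks {φ : ℝ → ℝ} (hφ : Measurable φ) (β m : ℝ) [Fintype ι] [DecidableEq ι]
    [Fintype B] [DecidableEq B] (v : B → Pt) (c : ι → B) :
    ∫⁻ x in inBlocks m v c, ∏ b, boltz φ β (fib c b x) =
      ∏ b, (((cnt c b).factorial : ℝ≥0∞) * Z φ m (cnt c b) β) := by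
  rw [← (blocksGlue_mp v c).setLIntegral_comp_preimage (measurableSet_inBlocks m v c)
    (blocks_measurable_prod hφ β c), inBlocks_eq_pi, blocksGlue_preimage]
  have h1 : (fun b => Set.pi Set.univ fun j : {i // c i = b} =>
      (fun y => y + v b) ⁻¹' ((fun y => y - v (c j.1)) ⁻¹' cube m)) =
      fun b => box {i // c i = b} m := by
    funext b
    unfold box
    congr 1
    funext j
    ext y
    simp [j.2]
  have h2 : ∀ (y : (b : B) → {i // c i = b} → Pt) (b : B),
      boltz φ β (fib c b (blocksGlue v c y)) = boltz φ β (y b) := by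
    intro y b
    unfold boltz
    rw [← en_translate φ (fib c b (blocksGlue v c y)) (v b)]
    congr 4
    funext j
    simp [fib, blocksGlue_apply]
  rw [h1, Measure.restrict_pi_pi]
  simp_rw [h2]
  rw [blocks_lintegral_prod (fun b (y : {i // c i = b} → Pt) => boltz φ β y)
    (fun b => measurable_boltz hφ β)]
  refine Finset.prod_congr rfl fun b _ => ?_
  rw [lintegral_box, card_fib]

theorem blocks_cnt_cons [DecidableEq B] {N : ℕ} (a : B) (c : Fin N → B) (b : B) :
    cnt (Fin.cons a c : Fin (N + 1) → B) b = cnt c b + if a = b then 1 else 0 := by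
  unfold cnt
  rw [Finset.card_filter, Finset.card_filter, Fin.sum_univ_succ]
  simp [add_comm]

theorem sum_prod_factorial (B : Type) [Fintype B] [DecidableEq B] (N : ℕ) :
    ∑ c : Fin N → B, ∏ b, (cnt c b).factorial = (Fintype.card B).ascFactorial N := by
  induction N with
  | zero => simp [cnt]
  | succ N ih =>
    rw [Nat.ascFactorial_succ, ← ih, Finset.mul_sum,
      ← (Fin.consEquiv fun _ : Fin (N + 1) => B).sum_comp, Fintype.sum_prod_type,
      Finset.sum_comm]
    refine Finset.sum_congr rfl fun c _ => ?_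
    have h : ∀ a : B, ∏ b, (cnt ((Fin.consEquiv fun _ : Fin (N + 1) => B) (a, c)) b).factorial =
        (cnt c a + 1) * ∏ b, (cnt c b).factorial := by
      intro a
      have h1 : ∀ b, (cnt ((Fin.consEquiv fun _ : Fin (N + 1) => B) (a, c)) b).factorial =
          (if a = b then cnt c b + 1 else 1) * (cnt c b).factorial := by
        intro b
        have := blocks_cnt_cons a c b
        rw [show ((Fin.consEquiv fun _ : Fin (N + 1) => B) (a, c)) = Fin.cons a c from rfl, this]
        split_ifs
        · rw [Nat.factorial_succ]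
        · simp
      simp_rw [h1]
      rw [Finset.prod_mul_distrib, Finset.prod_ite_eq]
      simp
    simp_rw [h]
    rw [← Finset.sum_mul, Finset.sum_add_distrib, sum_cnt]
    simp [add_comm]

theorem choose_le_exp (N b : ℕ) {m : ℝ} (hm : 1 ≤ m) :
    ((N + b).choose N : ℝ) ≤ Real.exp (N / m + b * (1 / m + Real.log m)) := by
  have hm0 : 0 < m := by linarith
  have h1 : ((N + b).choose N : ℝ) * (1 / m) ^ b ≤ (1 + 1 / m) ^ (N + b) := by
    rw [add_pow]
    have hN : N ∈ Finset.range (N + b + 1) := by simp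
    refine le_trans (le_of_eq ?_) (Finset.single_le_sum
      (f := fun k => (1 : ℝ) ^ k * (1 / m) ^ (N + b - k) * ((N + b).choose k : ℝ))
      (fun k _ => by positivity) hN)
    simp [mul_comm]
  have h2 : (1 + 1 / m) ^ (N + b) ≤ Real.exp (((N + b : ℕ) : ℝ) * (1 / m)) := by
    rw [Real.exp_nat_mul]
    refine pow_le_pow_left₀ (by positivity) ?_ _
    have := Real.add_one_le_exp (1 / m)
    linarith
  have h3 : Real.exp (N / m + b * (1 / m + Real.log m)) =
      Real.exp (((N + b : ℕ) : ℝ) * (1 / m)) * m ^ b := by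
    rw [show (N : ℝ) / m + b * (1 / m + Real.log m) =
      ((N + b : ℕ) : ℝ) * (1 / m) + b * Real.log m by push_cast; ring, Real.exp_add,
      Real.exp_nat_mul (Real.log m), Real.exp_log hm0]
  rw [h3]
  calc ((N + b).choose N : ℝ) = ((N + b).choose N : ℝ) * (1 / m) ^ b * m ^ b := by
        rw [mul_assoc, ← mul_pow, one_div_mul_cancel hm0.ne', one_pow, mul_one]
    _ ≤ _ := mul_le_mul_of_nonneg_right (h1.trans h2) (by positivity)

theorem blocks_prod_boltz (φ : ℝ → ℝ) (β : ℝ) [Fintype ι] [DecidableEq ι]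
    [Fintype B] [DecidableEq B] (c : ι → B) (x : ι → Pt) :
    ∏ b, boltz φ β (fib c b x) =
      ENNReal.ofReal (Real.exp (-β * ∑ b, en φ (fib c b x))) := by
  unfold boltz
  rw [← ENNReal.ofReal_prod_of_nonneg (fun b _ => (Real.exp_pos _).le), ← Real.exp_sum,
    Finset.mul_sum]

/-- Upper bound on a restricted partition function by block partition functions. -/
theorem genUB (φ : ℝ → ℝ) {φs : ℝ → ℝ} (hφs : Measurable φs) (β m L : ℝ) (N : ℕ)
    (A : Set (Fin N → Pt)) [Fintype B] [DecidableEq B] (v : B → Pt) (θ : ℕ → ℝ) (E : ℝ)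
    (hZ : ∀ n, Z φs m n β ≤ ENNReal.ofReal (Real.exp (-θ n)))
    (hA : ∀ x ∈ box (Fin N) L ∩ A, ∃ c : Fin N → B, x ∈ inBlocks m v c ∧
      -β * en φ x ≤ E + ∑ b, (θ (cnt c b) - β * en φs (fib c b x))) :
    ZR φ L N β A ≤ ENNReal.ofReal (Real.exp E) * ((N + Fintype.card B).choose N : ℝ≥0∞) := by
  unfold ZR
  set S : (Fin N → B) → Set (Fin N → Pt) := fun c => inBlocks m v c ∩
    {x | -β * en φ x ≤ E + ∑ b, (θ (cnt c b) - β * en φs (fib c b x))} with hS
  have hc : ∀ c : Fin N → B, ∫⁻ x in S c, boltz φ β x ≤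
      ENNReal.ofReal (Real.exp E) * ((∏ b, (cnt c b).factorial : ℕ) : ℝ≥0∞) := by
    intro c
    calc ∫⁻ x in S c, boltz φ β x
        ≤ ∫⁻ x in S c, ENNReal.ofReal (Real.exp (E + ∑ b, θ (cnt c b))) *
            ∏ b, boltz φs β (fib c b x) := by
          refine setLIntegral_mono ((blocks_measurable_prod hφs β c).const_mul _) fun x hx => ?_
          rw [blocks_prod_boltz, ← ENNReal.ofReal_mul (Real.exp_pos _).le, ← Real.exp_add]
          refine ENNReal.ofReal_le_ofReal (Real.exp_le_exp.2 ?_)
          have h := hx.2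
          simp only [Set.mem_ofPred_eq, Finset.sum_sub_distrib, ← Finset.mul_sum] at h
          linarith
      _ ≤ ∫⁻ x in inBlocks m v c, ENNReal.ofReal (Real.exp (E + ∑ b, θ (cnt c b))) *
            ∏ b, boltz φs β (fib c b x) := lintegral_mono_set Set.inter_subset_left
      _ = ENNReal.ofReal (Real.exp (E + ∑ b, θ (cnt c b))) *
            ∏ b, (((cnt c b).factorial : ℝ≥0∞) * Z φs m (cnt c b) β) := by
          rw [lintegral_const_mul _ (blocks_measurable_prod hφs β c), prod_blocks hφs]
      _ ≤ ENNReal.ofReal (Real.exp (E + ∑ b, θ (cnt c b))) *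
            ∏ b, (((cnt c b).factorial : ℝ≥0∞) * ENNReal.ofReal (Real.exp (-θ (cnt c b)))) := by
          gcongr with b _
          exact hZ _
      _ = _ := by
          rw [Finset.prod_mul_distrib,
            ← ENNReal.ofReal_prod_of_nonneg (fun b _ => (Real.exp_pos _).le), ← Real.exp_sum,
            mul_comm (∏ b, ((cnt c b).factorial : ℝ≥0∞)), ← mul_assoc,
            ← ENNReal.ofReal_mul (Real.exp_pos _).le, ← Real.exp_add, Finset.sum_neg_distrib]
          simp
  have h1 : ∫⁻ x in box (Fin N) L ∩ A, boltz φ β x ≤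
      ENNReal.ofReal (Real.exp E) * ((Fintype.card B).ascFactorial N : ℝ≥0∞) := by
    calc ∫⁻ x in box (Fin N) L ∩ A, boltz φ β x
        ≤ ∫⁻ x in ⋃ c, S c, boltz φ β x := by
          refine lintegral_mono_set fun x hx => ?_
          obtain ⟨c, hc1, hc2⟩ := hA x hx
          exact Set.mem_iUnion.2 ⟨c, hc1, hc2⟩
      _ ≤ ∑' c, ∫⁻ x in S c, boltz φ β x := lintegral_iUnion_le _ _
      _ = ∑ c, ∫⁻ x in S c, boltz φ β x := tsum_fintype _
      _ ≤ ∑ c : Fin N → B,
            ENNReal.ofReal (Real.exp E) * ((∏ b, (cnt c b).factorial : ℕ) : ℝ≥0∞) :=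
          Finset.sum_le_sum fun c _ => hc c
      _ = _ := by rw [← Finset.mul_sum, ← Nat.cast_sum, sum_prod_factorial]
  refine (ENNReal.div_le_div_right h1 _).trans ?_
  rw [mul_div_assoc]
  gcongr
  refine ENNReal.div_le_of_le_mul ?_
  rw [Nat.ascFactorial_eq_factorial_mul_choose', mul_comm]
  have : (Fintype.card B + N - 1).choose N ≤ (N + Fintype.card B).choose N :=
    Nat.choose_le_choose _ (by omega)
  exact_mod_cast Nat.mul_le_mul_right _ this

/-- Lower bound on a partition function by placing particles in disjoint blocks. -/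
theorem genLB {φ φs : ℝ → ℝ} (hφ : Measurable φ) (hφs : Measurable φs) (β m L : ℝ)
    [Fintype ι] [DecidableEq ι] [Fintype B] [DecidableEq B] (v : B → Pt) (c : ι → B) (E : ℝ)
    (hsub : ∀ b (y : Pt), y - v b ∈ cube m → y ∈ cube L)
    (hdisj : ∀ b b' (y : Pt), y - v b ∈ cube m → y - v b' ∈ cube m → b = b')
    (hE : ∀ x ∈ inBlocks m v c, E - β * ∑ b, en φs (fib c b x) ≤ -β * en φ x) :
    ENNReal.ofReal (Real.exp E) * ∏ b, Z φs m (cnt c b) β ≤ Z φ L (Fintype.card ι) β := by
  classical
  set P : ℕ := ∏ b, (cnt c b).factorial with hP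
  have hP0 : (P : ℝ≥0∞) ≠ 0 := by
    rw [hP]
    exact_mod_cast Finset.prod_ne_zero_iff.2 fun b _ => Nat.factorial_ne_zero _
  have hPt : (P : ℝ≥0∞) ≠ ⊤ := ENNReal.natCast_ne_top _
  -- lower bound on the integral over the blocks
  have h1 : ENNReal.ofReal (Real.exp E) * ((P : ℝ≥0∞) * ∏ b, Z φs m (cnt c b) β) ≤
      ∫⁻ x in inBlocks m v c, boltz φ β x := by
    rw [hP, Nat.cast_prod, ← Finset.prod_mul_distrib, ← prod_blocks hφs β m v c,
      ← lintegral_const_mul _ (blocks_measurable_prod hφs β c)]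
    refine setLIntegral_mono (measurable_boltz hφ β) fun x hx => ?_
    rw [blocks_prod_boltz, ← ENNReal.ofReal_mul (Real.exp_pos _).le, ← Real.exp_add]
    refine ENNReal.ofReal_le_ofReal (Real.exp_le_exp.2 ?_)
    have := hE x hx
    linarith
  set F : (ι → Pt) → ℝ≥0∞ := (inBlocks m v c).indicator fun x => boltz φ β x with hF
  have hFm : Measurable F := (measurable_boltz hφ β).indicator (measurableSet_inBlocks m v c)
  have hsubset : inBlocks m v c ⊆ box ι L := fun x hx i _ => hsub _ _ (hx i)
  have h2 : ∫⁻ x in box ι L, F x = ∫⁻ x in inBlocks m v c, boltz φ β x := by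
    rw [hF, lintegral_indicator (measurableSet_inBlocks m v c),
      Measure.restrict_restrict (measurableSet_inBlocks m v c), Set.inter_eq_left.2 hsubset]
  have h3 : ∀ x : ι → Pt, ∑ g : Equiv.Perm ι, F (fun i => x (g i)) ≤ P * boltz φ β x := by
    intro x
    have hb : ∀ g : Equiv.Perm ι, boltz φ β (fun i => x (g i)) = boltz φ β x := by
      intro g
      unfold boltz
      rw [en_comp_equiv]
    have hF' : ∀ g : Equiv.Perm ι, F (fun i => x (g i)) =
        if (fun i => x (g i)) ∈ inBlocks m v c then boltz φ β x else 0 := by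
      intro g
      rw [hF, Set.indicator_apply, hb]
    simp_rw [hF']
    rw [← Finset.sum_filter, Finset.sum_const, nsmul_eq_mul]
    gcongr
    set T := Finset.univ.filter fun g : Equiv.Perm ι => (fun i => x (g i)) ∈ inBlocks m v c
      with hT
    rcases T.eq_empty_or_nonempty with h | ⟨g₀, hg₀⟩
    · simp [h]
    have hg₀' : ∀ i, x (g₀ i) - v (c i) ∈ cube m := (Finset.mem_filter.1 hg₀).2
    have hcard : Fintype.card {g : Equiv.Perm ι // c ∘ g = c} = P := by
      rw [DomMulAct.stabilizer_card, hP]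
      exact Finset.prod_congr rfl fun b _ => by rw [card_fib]
    rw [← hcard, Fintype.card_subtype]
    refine Finset.card_le_card_of_injOn (fun g => g₀⁻¹ * g) (fun g hg => ?_) ?_
    · have hg' : ∀ i, x (g i) - v (c i) ∈ cube m := (Finset.mem_filter.1 hg).2
      simp only [Finset.coe_filter, Finset.mem_univ, true_and, Set.mem_ofPred_eq]
      funext i
      have h5 := hg₀' (g₀⁻¹ (g i))
      simp only [Equiv.Perm.coe_inv, Equiv.apply_symm_apply] at h5
      exact hdisj _ _ _ h5 (hg' i)
    · intro g _ g' _ h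
      exact mul_left_cancel h
  have h4 : ((Fintype.card ι).factorial : ℝ≥0∞) * ∫⁻ x in inBlocks m v c, boltz φ β x ≤
      P * (((Fintype.card ι).factorial : ℝ≥0∞) * Z φ L (Fintype.card ι) β) := by
    rw [← lintegral_box, ← h2, ← lintegral_const_mul (P : ℝ≥0∞) (measurable_boltz hφ β)]
    calc ((Fintype.card ι).factorial : ℝ≥0∞) * ∫⁻ x in box ι L, F x
        = ∑ g : Equiv.Perm ι, ∫⁻ x in box ι L, F (fun i => x (g i)) := by
          simp_rw [lintegral_box_comp_equiv _ L F]
          rw [Finset.sum_const, Finset.card_univ, Fintype.card_perm, nsmul_eq_mul]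
      _ = ∫⁻ x in box ι L, ∑ g : Equiv.Perm ι, F (fun i => x (g i)) := by
          rw [lintegral_finsetSum]
          intro g _
          exact hFm.comp (measurable_pi_lambda _ fun i => measurable_pi_apply _)
      _ ≤ _ := lintegral_mono h3
  have hf0 : ((Fintype.card ι).factorial : ℝ≥0∞) ≠ 0 := by
    exact_mod_cast Nat.factorial_ne_zero _
  have hft : ((Fintype.card ι).factorial : ℝ≥0∞) ≠ ⊤ := ENNReal.natCast_ne_top _
  have h5 : ((Fintype.card ι).factorial : ℝ≥0∞) * P *
      (ENNReal.ofReal (Real.exp E) * ∏ b, Z φs m (cnt c b) β) ≤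
      ((Fintype.card ι).factorial : ℝ≥0∞) * P * Z φ L (Fintype.card ι) β := by
    calc _ = ((Fintype.card ι).factorial : ℝ≥0∞) *
          (ENNReal.ofReal (Real.exp E) * ((P : ℝ≥0∞) * ∏ b, Z φs m (cnt c b) β)) := by ring
      _ ≤ ((Fintype.card ι).factorial : ℝ≥0∞) * ∫⁻ x in inBlocks m v c, boltz φ β x := by
          gcongr
      _ ≤ _ := h4
      _ = _ := by ring
  exact (ENNReal.mul_le_mul_iff_right (mul_ne_zero hf0 hP0) (ENNReal.mul_ne_top hft hPt)).1 h5

end Crest.Agent.R149
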