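import Crest.Agent.R149.Thermo

/-! Constant-profile bound: a periodic array of blocks, each holding `n` particles. -/

namespace Crest.Agent.R149

open MeasureTheory Crest.ProbabilityR.Continuum Filter Topology
open scoped ENNReal

/-- A grid index as a lattice site. -/
def cpSite {M : ℕ} (b : Fin 3 → Fin M) : Site := fun k => ((b k : ℕ) : ℤ)

theorem cp_emb_sub (a b : Site) : emb (a - b) = emb a - emb b := by
  ext k
  simp [emb]

theorem cp_pair_sum {f : Site → ℝ} (hf : ∀ z, 0 ≤ f z) (F : Finset Site) {R : ℕ}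
    (hR : ∀ z ∈ F, ∀ k, |z k| ≤ R) (M : ℕ) :
    (M : ℝ) ^ 3 * ∑ z ∈ F, f z ≤ ∑ b : Fin 3 → Fin (M + 2 * R), ∑ b' : Fin 3 → Fin (M + 2 * R),
      if cpSite b' - cpSite b ∈ F then f (cpSite b' - cpSite b) else 0 := by
  let e : (Fin 3 → Fin M) ↪ (Fin 3 → Fin (M + 2 * R)) :=
    ⟨fun a k => ⟨a k + R, by have := (a k).2; omega⟩, fun a a' h => by
      funext k
      have := congrArg (fun b => (b k : ℕ)) h
      simp only at this
      exact Fin.ext (by omega)⟩
  have h1 : ∀ a : Fin 3 → Fin M, ∑ z ∈ F, f z ≤ ∑ b' : Fin 3 → Fin (M + 2 * R),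
      if cpSite b' - cpSite (e a) ∈ F then f (cpSite b' - cpSite (e a)) else 0 := by
    intro a
    have h2 : ∀ b' : Fin 3 → Fin (M + 2 * R),
        (if cpSite b' - cpSite (e a) ∈ F then f (cpSite b' - cpSite (e a)) else 0) =
          ∑ z ∈ F, if cpSite b' - cpSite (e a) = z then f z else 0 := by
      intro b'
      rw [Finset.sum_ite_eq]
    simp_rw [h2]
    rw [Finset.sum_comm]
    refine Finset.sum_le_sum fun z hz => ?_
    have h3 : ∀ k, ((a k : ℕ) + R + z k : ℤ).toNat < M + 2 * R := by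
      intro k
      have := abs_le.1 (hR z hz k)
      have := (a k).2
      omega
    refine le_trans (le_of_eq ?_) (Finset.single_le_sum
      (f := fun b' : Fin 3 → Fin (M + 2 * R) => if cpSite b' - cpSite (e a) = z then f z else 0)
      (fun b' _ => by split_ifs; exacts [hf z, le_rfl])
      (Finset.mem_univ fun k => ⟨_, h3 k⟩))
    rw [if_pos]
    funext k
    have := abs_le.1 (hR z hz k)
    simp only [cpSite, e, Pi.sub_apply, Function.Embedding.coeFn_mk]
    omega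
  calc (M : ℝ) ^ 3 * ∑ z ∈ F, f z = ∑ _a : Fin 3 → Fin M, ∑ z ∈ F, f z := by simp
    _ ≤ ∑ a : Fin 3 → Fin M, ∑ b' : Fin 3 → Fin (M + 2 * R),
        if cpSite b' - cpSite (e a) ∈ F then f (cpSite b' - cpSite (e a)) else 0 :=
        Finset.sum_le_sum fun a _ => h1 a
    _ = ∑ b ∈ Finset.univ.map e, ∑ b' : Fin 3 → Fin (M + 2 * R),
        if cpSite b' - cpSite b ∈ F then f (cpSite b' - cpSite b) else 0 := by
        rw [Finset.sum_map]
    _ ≤ _ := Finset.sum_le_sum_of_subset_of_nonneg (Finset.subset_univ _) fun b _ _ =>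
        Finset.sum_nonneg fun b' _ => by split_ifs; exacts [hf _, le_rfl]

theorem cp_array {φ φs wl : ℝ → ℝ} (hφ : Measurable φ) (hφs : Measurable φs)
    (hneg : ∀ r, 2 ≤ r → φs r ≤ 0) (h0 : ∀ r, 0 ≤ wl r) (hanti : Antitone wl)
    (heq : ∀ r, φ r = φs r - wl r) {m' : ℝ} (hm' : 2 < m') (F : Finset Site)
    (hF : (0 : Site) ∉ F) {R : ℕ} (hR : ∀ z ∈ F, ∀ k, |z k| ≤ R) (n : ℕ) {β : ℝ} (hβ : 0 ≤ β)
    (M : ℕ) :
    ENNReal.ofReal (Real.exp (β / 2 * ((n : ℝ) ^ 2 *
        ((M : ℝ) ^ 3 * ∑ z ∈ F, wl (m' * (‖emb z‖ + 2)))))) *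
      Z φs (m' - 2) n β ^ (M + 2 * R) ^ 3 ≤
      Z φ (((M + 2 * R : ℕ) : ℝ) * m') ((M + 2 * R) ^ 3 * n) β := by
  set M' := M + 2 * R with hM'
  let v : (Fin 3 → Fin M') → Pt := fun b => m' • emb (cpSite b)
  have hv : ∀ b j, v b j = m' * ((b j : ℕ) : ℝ) := fun b j => by simp [v, emb, cpSite]
  have hfar : ∀ b b' (y y' : Pt), y - v b ∈ cube (m' - 2) → y' - v b' ∈ cube (m' - 2) → b ≠ b' →
      2 ≤ dist y y' := by
    intro b b' y y' hy hy' hbb
    obtain ⟨j, hj⟩ := Function.ne_iff.1 hbb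
    have h1 := hy j
    have h2 := hy' j
    simp only [PiLp.sub_apply, hv] at h1 h2
    refine le_trans ?_ (abs_sub_le_dist y y' j)
    have hj' : (b j : ℕ) ≠ (b' j : ℕ) := fun h => hj (Fin.ext h)
    rcases lt_or_gt_of_ne hj' with h | h
    · have : ((b j : ℕ) : ℝ) + 1 ≤ ((b' j : ℕ) : ℝ) := by exact_mod_cast h
      rw [le_abs]; right
      nlinarith [h1.2, h2.1]
    · have : ((b' j : ℕ) : ℝ) + 1 ≤ ((b j : ℕ) : ℝ) := by exact_mod_cast h
      rw [le_abs]; left
      nlinarith [h1.1, h2.2]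
  have hnear : ∀ b b' (y y' : Pt), y - v b ∈ cube (m' - 2) → y' - v b' ∈ cube (m' - 2) →
      dist y y' ≤ m' * (‖emb (cpSite b' - cpSite b)‖ + 2) := by
    intro b b' y y' hy hy'
    have h1 := dist_le_of_mem_cube hy hy'
    have h2 : y - y' = ((y - v b) - (y' - v b')) - m' • emb (cpSite b' - cpSite b) := by
      rw [cp_emb_sub, smul_sub]
      simp only [v]
      abel
    rw [dist_eq_norm] at h1 ⊢
    rw [h2]
    refine (norm_sub_le _ _).trans ?_
    rw [norm_smul, Real.norm_eq_abs, abs_of_pos (by linarith)]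
    linarith
  have h := genLB (ι := (Fin 3 → Fin M') × Fin n) (B := Fin 3 → Fin M') hφ hφs β (m' - 2)
    ((M' : ℝ) * m') v Prod.fst (β / 2 * ((n : ℝ) ^ 2 *
        ((M : ℝ) ^ 3 * ∑ z ∈ F, wl (m' * (‖emb z‖ + 2)))))
    (fun b y hy j => by
      have h1 := hy j
      simp only [PiLp.sub_apply, hv] at h1
      have h2 : ((b j : ℕ) : ℝ) + 1 ≤ M' := by exact_mod_cast (b j).2
      have h3 : (0 : ℝ) ≤ ((b j : ℕ) : ℝ) := Nat.cast_nonneg _
      constructor
      · nlinarith [h1.1]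
      · nlinarith [h1.2])
    (fun b b' y hy hy' => by
      by_contra hbb
      have := hfar b b' y y hy hy' hbb
      rw [dist_self] at this
      linarith)
    (fun x hx => by
      rw [en_sub heq, en_split φs Prod.fst x]
      have h1 := cross_nonpos (φ := φs) Prod.fst x fun i j hij =>
        hneg _ (hfar _ _ _ _ (hx i) (hx j) hij)
      have h2 : (n : ℝ) ^ 2 * ((M : ℝ) ^ 3 * ∑ z ∈ F, wl (m' * (‖emb z‖ + 2))) / 2 ≤ en wl x := by
        unfold en
        refine div_le_div_of_nonneg_right ?_ (by norm_num)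
        have h3 := cp_pair_sum (f := fun z => wl (m' * (‖emb z‖ + 2))) (fun z => h0 _) F hR M
        calc _ ≤ (n : ℝ) ^ 2 * ∑ b : Fin 3 → Fin M', ∑ b' : Fin 3 → Fin M',
              (if cpSite b' - cpSite b ∈ F then wl (m' * (‖emb (cpSite b' - cpSite b)‖ + 2))
                else 0) := by gcongr
          _ = ∑ i : (Fin 3 → Fin M') × Fin n, ∑ j : (Fin 3 → Fin M') × Fin n,
              (if cpSite j.1 - cpSite i.1 ∈ F then wl (m' * (‖emb (cpSite j.1 - cpSite i.1)‖ + 2))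
                else 0) := by
              simp only [Fintype.sum_prod_type, Finset.sum_const, Finset.card_univ,
                Fintype.card_fin, nsmul_eq_mul, ← Finset.mul_sum]
              ring
          _ ≤ _ := by
              refine Finset.sum_le_sum fun i _ => Finset.sum_le_sum fun j _ => ?_
              by_cases hij : i = j
              · simp [hij, hF]
              · rw [if_neg hij]
                split_ifs
                · exact hanti (hnear _ _ _ _ (hx i) (hx j))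
                · exact h0 _
      have h4 := mul_le_mul_of_nonneg_left h2 hβ
      have h5 := mul_le_mul_of_nonneg_left h1 hβ
      linarith)
  have hcnt : ∀ b, cnt (Prod.fst : (Fin 3 → Fin M') × Fin n → (Fin 3 → Fin M')) b = n := by
    intro b
    unfold cnt
    have : (Finset.univ.filter fun i : (Fin 3 → Fin M') × Fin n => i.1 = b) =
        ({b} : Finset _) ×ˢ Finset.univ := by
      ext i
      simp only [Finset.mem_filter, Finset.mem_univ, true_and, Finset.mem_product,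
        Finset.mem_singleton, and_true]
    rw [this]
    simp
  simpa only [hcnt, Finset.prod_const, Finset.card_univ, Fintype.card_prod, Fintype.card_fun,
    Fintype.card_fin] using h

theorem cp_bound {φ φs wl : ℝ → ℝ} (hφ : Adm φ) (hφs : Measurable φs)
    (hneg : ∀ r, 2 ≤ r → φs r ≤ 0) (h0 : ∀ r, 0 ≤ wl r) (hanti : Antitone wl)
    (heq : ∀ r, φ r = φs r - wl r) {m' : ℝ} (hm' : 2 < m') (F : Finset Site)
    (hF : (0 : Site) ∉ F) (n : ℕ) {β : ℝ} (hβ : 0 ≤ β) :
    Z φs (m' - 2) n β ≤ ENNReal.ofReal (Real.exp (-(m' ^ 3 * fe φ β (n / m' ^ 3) +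
      β / 2 * (∑ z ∈ F, wl (m' * (‖emb z‖ + 2))) * (n : ℝ) ^ 2))) := by
  obtain ⟨R, hR⟩ : ∃ R : ℕ, ∀ z ∈ F, ∀ k, |z k| ≤ R := by
    refine ⟨F.sup fun z => Finset.univ.sup fun k => (z k).natAbs, fun z hz k => ?_⟩
    rw [← Int.natCast_natAbs]
    exact_mod_cast (Finset.le_sup (f := fun k => (z k).natAbs) (Finset.mem_univ k)).trans
      (Finset.le_sup (f := fun z : Site => Finset.univ.sup fun k => (z k).natAbs) hz)
  have hm0 : 0 < m' := by linarith
  set S := ∑ z ∈ F, wl (m' * (‖emb z‖ + 2)) with hS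
  have hρ : (0 : ℝ) ≤ n / m' ^ 3 := by positivity
  have tM : Tendsto (fun M : ℕ => ((M + 2 * R : ℕ) : ℝ)) atTop atTop :=
    tendsto_natCast_atTop_atTop.comp (tendsto_add_atTop_nat _)
  have t1 : Tendsto (fun M : ℕ => (M : ℝ) / ((M + 2 * R : ℕ) : ℝ)) atTop (𝓝 1) := by
    simpa using tendsto_natCast_div_add_atTop (𝕜 := ℝ) ((2 * R : ℕ) : ℝ)
  have key : ∀ γ', γ' < fe φ β (n / m' ^ 3) → Z φs (m' - 2) n β ≤
      ENNReal.ofReal (Real.exp (-(m' ^ 3 * γ' + β / 2 * S * (n : ℝ) ^ 2))) := by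
    intro γ' hγ'
    have t2 : Tendsto (fun M : ℕ => ENNReal.ofReal (Real.exp (-(m' ^ 3 * γ' +
        β / 2 * S * (n : ℝ) ^ 2 * ((M : ℝ) / ((M + 2 * R : ℕ) : ℝ)) ^ 3)))) atTop
        (𝓝 (ENNReal.ofReal (Real.exp (-(m' ^ 3 * γ' + β / 2 * S * (n : ℝ) ^ 2 * 1 ^ 3))))) :=
      ENNReal.tendsto_ofReal (Real.continuous_exp.continuousAt.tendsto.comp
        (((t1.pow 3).const_mul _).const_add _).neg)
    rw [one_pow, mul_one] at t2
    refine ge_of_tendsto t2 ?_
    filter_upwards [(tM.atTop_mul_const hm0).eventually (UB_univ_fe hφ hβ hρ γ' hγ'),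
      eventually_gt_atTop 0] with M hM hM0
    have hM' : (0 : ℝ) < ((M + 2 * R : ℕ) : ℝ) := by
      have : 0 < M + 2 * R := by omega
      exact_mod_cast this
    have e1 : ⌊(n : ℝ) / m' ^ 3 * (((M + 2 * R : ℕ) : ℝ) * m') ^ 3⌋₊ = (M + 2 * R) ^ 3 * n := by
      have : (n : ℝ) / m' ^ 3 * (((M + 2 * R : ℕ) : ℝ) * m') ^ 3 =
          (((M + 2 * R) ^ 3 * n : ℕ) : ℝ) := by
        push_cast
        field_simp
      rw [this, Nat.floor_natCast]
    have h1 : Z φ (((M + 2 * R : ℕ) : ℝ) * m') ((M + 2 * R) ^ 3 * n) β ≤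
        ENNReal.ofReal (Real.exp (-γ' * (((M + 2 * R : ℕ) : ℝ) * m') ^ 3)) := by
      rw [← e1]
      exact hM
    have h2 := (cp_array hφ.meas hφs hneg h0 hanti heq hm' F hF hR n hβ M).trans h1
    rw [← hS] at h2
    rw [← ENNReal.pow_le_pow_left_iff (n := (M + 2 * R) ^ 3) (by positivity),
      ← ENNReal.ofReal_pow (Real.exp_pos _).le, ← Real.exp_nat_mul,
      ← ENNReal.mul_le_mul_iff_right (a := ENNReal.ofReal
        (Real.exp (β / 2 * ((n : ℝ) ^ 2 * ((M : ℝ) ^ 3 * S)))))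
        (ENNReal.ofReal_pos.2 (Real.exp_pos _)).ne' ENNReal.ofReal_ne_top,
      ← ENNReal.ofReal_mul (Real.exp_pos _).le, ← Real.exp_add]
    refine h2.trans (le_of_eq ?_)
    congr 2
    rw [Nat.cast_pow]
    field_simp
    ring
  have t3 : Tendsto (fun γ' : ℝ => ENNReal.ofReal (Real.exp (-(m' ^ 3 * γ' +
      β / 2 * S * (n : ℝ) ^ 2)))) (𝓝[<] (fe φ β (n / m' ^ 3)))
      (𝓝 (ENNReal.ofReal (Real.exp (-(m' ^ 3 * fe φ β (n / m' ^ 3) +
        β / 2 * S * (n : ℝ) ^ 2))))) := by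
    refine ENNReal.tendsto_ofReal (Tendsto.mono_left ?_ nhdsWithin_le_nhds)
    exact Continuous.tendsto (by fun_prop) _
  exact ge_of_tendsto t3 (eventually_nhdsWithin_of_forall key)

end Crest.Agent.R149
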