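import Crest.Agent.R149.Defs

/-! The two ends of the maximal affine piece of a convex function with quadratic growth. -/

namespace Crest.Agent.R149

open MeasureTheory Crest.ProbabilityR.Continuum Filter Topology
open scoped ENNReal

theorem ext_support (g : ℝ → ℝ) (hg : ConvexOn ℝ (Set.Ici 0) g) (ρ₀ : ℝ) (h0 : 0 < ρ₀) :
    ∃ v : ℝ, ∀ ρ, 0 ≤ ρ → g ρ₀ + v * (ρ - ρ₀) ≤ g ρ := by
  let S : Set ℝ := {s | ∃ z, ρ₀ < z ∧ s = (g z - g ρ₀) / (z - ρ₀)}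
  have hne : S.Nonempty := ⟨_, ρ₀ + 1, by linarith, rfl⟩
  have hlow : ∀ x, 0 ≤ x → x < ρ₀ → (g ρ₀ - g x) / (ρ₀ - x) ∈ lowerBounds S := by
    rintro x hx hx' s ⟨z, hz, rfl⟩
    exact hg.slope_mono_adjacent hx (show (0 : ℝ) ≤ z by linarith) hx' hz
  refine ⟨sInf S, fun ρ hρ => ?_⟩
  rcases lt_trichotomy ρ ρ₀ with h | h | h
  · have h1 := le_csInf hne (hlow ρ hρ h)
    rw [div_le_iff₀ (by linarith)] at h1
    linarith
  · simp [h]
  · have h1 : sInf S ≤ (g ρ - g ρ₀) / (ρ - ρ₀) := csInf_le ⟨_, hlow 0 le_rfl h0⟩ ⟨ρ, h, rfl⟩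
    rw [le_div_iff₀ (by linarith)] at h1
    linarith

theorem ext_right (D : ℝ → ℝ) (hD : ConvexOn ℝ (Set.Ici 0) D) (hnn : ∀ ρ, 0 ≤ ρ → 0 ≤ D ρ)
    (c T r : ℝ) (hc : 0 < c) (hT : 0 < T) (hgr : ∀ ρ, T ≤ ρ → c * ρ ^ 2 ≤ D ρ) (hr : 0 ≤ r)
    (hr0 : D r = 0) (hpos : ∀ ρ, r < ρ → 0 < D ρ) (ε : ℝ) (hε : 0 < ε) :
    ∃ κ : ℝ, 0 < κ ∧ ∃ w : ℝ, ∀ ρ, 0 ≤ ρ → w * (ρ - r) + κ * ((ρ - r) ^ 2 - ε) ≤ D ρ := by
  set δ : ℝ := min 1 (ε / (r + 1)) with hδ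
  have hδ0 : 0 < δ := lt_min one_pos (by positivity)
  have hδ1 : δ ≤ 1 := min_le_left _ _
  have hδ2 : δ * (r + 1) ≤ ε := by
    have := min_le_right 1 (ε / (r + 1))
    rwa [← hδ, le_div_iff₀ (by positivity)] at this
  have hd : 0 < D (r + δ) := hpos _ (by linarith)
  set κ : ℝ := min c (D (r + δ) / T ^ 2) with hκ
  have hκ0 : 0 < κ := lt_min hc (by positivity)
  have hκ1 : κ ≤ c := min_le_left _ _
  have hκ2 : κ * T ^ 2 ≤ D (r + δ) := by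
    have := min_le_right c (D (r + δ) / T ^ 2)
    rwa [← hκ, le_div_iff₀ (by positivity)] at this
  refine ⟨κ, hκ0, κ * r, fun ρ hρ => ?_⟩
  have e : κ * r * (ρ - r) + κ * ((ρ - r) ^ 2 - ε) = κ * ((ρ - r) * ρ - ε) := by ring
  rw [e]
  rcases le_total ρ (r + δ) with h | h
  · have h1 : (ρ - r) * ρ ≤ ε := by nlinarith
    have h2 : κ * ((ρ - r) * ρ - ε) ≤ 0 := mul_nonpos_of_nonneg_of_nonpos hκ0.le (by linarith)
    exact h2.trans (hnn ρ hρ)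
  · have h1 : κ * ((ρ - r) * ρ - ε) ≤ κ * ρ ^ 2 :=
      mul_le_mul_of_nonneg_left (by nlinarith) hκ0.le
    refine h1.trans ?_
    rcases le_total ρ T with h2 | h2
    · have h3 := hD.le_max_of_mem_Icc (x := r) (y := ρ) (z := r + δ) hr hρ ⟨by linarith, h⟩
      rw [hr0, max_eq_right (hnn ρ hρ)] at h3
      have h4 : κ * ρ ^ 2 ≤ κ * T ^ 2 := by gcongr
      linarith
    · have := hgr ρ h2
      have h4 : κ * ρ ^ 2 ≤ c * ρ ^ 2 := by gcongr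
      linarith

theorem ext_left (D : ℝ → ℝ) (hD : ConvexOn ℝ (Set.Ici 0) D) (hnn : ∀ ρ, 0 ≤ ρ → 0 ≤ D ρ)
    (c T r : ℝ) (hc : 0 < c) (hrT : r ≤ T) (hgr : ∀ ρ, T ≤ ρ → c * ρ ^ 2 ≤ D ρ) (hr : 0 < r)
    (hr0 : D r = 0) (hpos : ∀ ρ, 0 ≤ ρ → ρ < r → 0 < D ρ) (ε : ℝ) (hε : 0 < ε) :
    ∃ κ : ℝ, 0 < κ ∧ ∃ w : ℝ, ∀ ρ, 0 ≤ ρ → w * (ρ - r) + κ * ((ρ - r) ^ 2 - ε) ≤ D ρ := by
  have hT : 0 < T := by linarith
  set δ : ℝ := min (min 1 r) (ε / (T + 1)) with hδ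
  have hδ0 : 0 < δ := lt_min (lt_min one_pos hr) (by positivity)
  have hδ1 : δ ≤ 1 := (min_le_left _ _).trans (min_le_left _ _)
  have hδ3 : δ ≤ r := (min_le_left _ _).trans (min_le_right _ _)
  have hδ2 : δ * (T + 1) ≤ ε := by
    have := min_le_right (min 1 r) (ε / (T + 1))
    rwa [← hδ, le_div_iff₀ (by positivity)] at this
  have hd : 0 < D (r - δ) := hpos _ (by linarith) (by linarith)
  set κ : ℝ := min c (D (r - δ) / (2 * T ^ 2)) with hκ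
  have hκ0 : 0 < κ := lt_min hc (by positivity)
  have hκ1 : κ ≤ c := min_le_left _ _
  have hκ2 : κ * (2 * T ^ 2) ≤ D (r - δ) := by
    have := min_le_right c (D (r - δ) / (2 * T ^ 2))
    rwa [← hκ, le_div_iff₀ (by positivity)] at this
  refine ⟨κ, hκ0, -(κ * T), fun ρ hρ => ?_⟩
  have e : -(κ * T) * (ρ - r) + κ * ((ρ - r) ^ 2 - ε) = κ * ((ρ - r) * (ρ - r - T) - ε) := by ring
  rw [e]
  rcases le_total ρ (r - δ) with h | h
  · have h3 := hD.le_max_of_mem_Icc (x := ρ) (y := r) (z := r - δ) hρ hr.le ⟨h, by linarith⟩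
    rw [hr0, max_eq_left (hnn ρ hρ)] at h3
    have h1 : κ * ((ρ - r) * (ρ - r - T) - ε) ≤ κ * (2 * T ^ 2) :=
      mul_le_mul_of_nonneg_left (by nlinarith) hκ0.le
    linarith
  · rcases le_total ρ (r + T) with h2 | h2
    · have h1 : (ρ - r) * (ρ - r - T) ≤ ε := by
        rcases le_total ρ r with h4 | h4
        · nlinarith
        · nlinarith
      have h2 : κ * ((ρ - r) * (ρ - r - T) - ε) ≤ 0 :=
        mul_nonpos_of_nonneg_of_nonpos hκ0.le (by linarith)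
      exact h2.trans (hnn ρ hρ)
    · have h1 : κ * ((ρ - r) * (ρ - r - T) - ε) ≤ κ * ρ ^ 2 :=
        mul_le_mul_of_nonneg_left (by nlinarith) hκ0.le
      have := hgr ρ (by linarith)
      have h4 : κ * ρ ^ 2 ≤ c * ρ ^ 2 := by gcongr
      linarith

theorem ext_points (c C : ℝ) (hc : 0 < c) :
    ∃ C₁ : ℝ, 0 < C₁ ∧ ∀ (g : ℝ → ℝ) (ρ₀ : ℝ), ConvexOn ℝ (Set.Ici 0) g →
      (∀ ρ, 0 ≤ ρ → c * ρ ^ 2 - C * ρ - 1 ≤ g ρ) → (∀ ρ, 0 ≤ ρ → ρ ≤ 5 → g ρ ≤ C) →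
      1 / 4 ≤ ρ₀ → ρ₀ ≤ 5 / 2 →
      ∃ α v rm rp : ℝ, 0 ≤ rm ∧ rm ≤ ρ₀ ∧ ρ₀ ≤ rp ∧ |α| ≤ C₁ ∧ rp ≤ C₁ ∧ g rm ≤ C₁ ∧
        g rp ≤ C₁ ∧ (∀ ρ, 0 ≤ ρ → α + v * ρ ≤ g ρ) ∧ α + v * rp = g rp ∧ IsExt g rp ∧
        ((0 < rm ∧ α + v * rm = g rm ∧ IsExt g rm) ∨ (rm = 0 ∧ -1 ≤ α)) := by
  set K : ℝ := 5 * |C| + 1 with hK
  have hC0 : 0 ≤ |C| := abs_nonneg C
  have hK0 : 0 < K := by positivity
  set T : ℝ := 3 + 62 * K / c with hT
  have hT0 : 0 ≤ 62 * K / c := by positivity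
  have hT3 : 3 ≤ T := by linarith
  have hKT : 0 < K * T := by positivity
  refine ⟨21 * K + 8 * (K * T) + T, by positivity, fun g ρ₀ hg hlo hup h14 h52 => ?_⟩
  have hρ0 : 0 < ρ₀ := by linarith
  obtain ⟨v, hv⟩ := ext_support g hg ρ₀ hρ0
  have hCa := le_abs_self C
  have hCb := neg_abs_le C
  have hb : ∀ ρ, 0 ≤ ρ → ρ ≤ 5 → -K ≤ g ρ ∧ g ρ ≤ K := by
    intro ρ h0 h5
    have h1 := hlo ρ h0
    have h2 := hup ρ h0 h5
    have h3 : 0 ≤ c * ρ ^ 2 := by positivity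
    constructor
    · nlinarith
    · linarith
  have hb0 := hb 0 le_rfl (by norm_num)
  have hb1 := hb ρ₀ hρ0.le (by linarith)
  have hb2 := hb (2 * ρ₀) (by linarith) (by linarith)
  have hvu : v ≤ 8 * K := by
    have := hv (2 * ρ₀) (by linarith)
    by_contra hcon
    push Not at hcon
    nlinarith
  have hvl : -(8 * K) ≤ v := by
    have := hv 0 le_rfl
    by_contra hcon
    push Not at hcon
    nlinarith
  set α : ℝ := g ρ₀ - v * ρ₀ with hα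
  have hαu : α ≤ 21 * K := by nlinarith
  have hαl : -(21 * K) ≤ α := by nlinarith
  let D : ℝ → ℝ := fun ρ => g ρ - (α + v * ρ)
  have hDc : ConvexOn ℝ (Set.Ici 0) D := by
    refine ⟨convex_Ici 0, fun x hx y hy a b ha hb hab => ?_⟩
    have := hg.2 hx hy ha hb hab
    simp only [smul_eq_mul, D] at this ⊢
    have e : α = (a + b) * α := by rw [hab, one_mul]
    nlinarith
  have hnn : ∀ ρ, 0 ≤ ρ → 0 ≤ D ρ := by
    intro ρ hρ
    have := hv ρ hρ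
    simp only [D, hα]
    linarith
  have hD0 : D ρ₀ = 0 := by simp only [D, hα]; ring
  have hgr : ∀ ρ, T ≤ ρ → c / 2 * ρ ^ 2 ≤ D ρ := by
    intro ρ hρ
    have h1 := hlo ρ (by linarith)
    have h2 : 62 * K ≤ c * ρ := by
      have : 62 * K / c ≤ ρ := by linarith
      rw [div_le_iff₀ hc] at this
      linarith
    have h3 : 1 ≤ ρ := by linarith
    have h4 : C * ρ ≤ K * ρ := by nlinarith
    have h5 : v * ρ ≤ 8 * K * ρ := by nlinarith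
    have h6 : 62 * K * ρ ≤ c * ρ * ρ := by nlinarith
    have h7 : K ≤ K * ρ := by nlinarith
    have h8 : 1 ≤ K := by linarith
    simp only [D]
    nlinarith
  have hcont : ContinuousOn D (Set.Ioi 0) := by
    have := hDc.continuousOn_interior
    rwa [interior_Ici] at this
  have hcomp : ∀ a b : ℝ, 0 < a → IsCompact (Set.Icc a b ∩ D ⁻¹' {0}) := by
    intro a b ha
    refine isCompact_Icc.of_isClosed_subset ?_ Set.inter_subset_left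
    exact (hcont.mono fun x hx => lt_of_lt_of_le ha hx.1).preimage_isClosed_of_isClosed
      isClosed_Icc isClosed_singleton
  have hext : ∀ r, D r = 0 → (∀ ε : ℝ, 0 < ε → ∃ κ : ℝ, 0 < κ ∧ ∃ w : ℝ, ∀ ρ, 0 ≤ ρ →
      w * (ρ - r) + κ * ((ρ - r) ^ 2 - ε) ≤ D ρ) → IsExt g r := by
    intro r hr h ε hε
    obtain ⟨κ, hκ, w, hw⟩ := h ε hε
    refine ⟨κ, hκ, v + w, fun ρ hρ => ?_⟩
    have := hw ρ hρ
    simp only [D] at this hr
    nlinarith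
  obtain ⟨rp, ⟨⟨hp1, hp2⟩, hp3⟩, hp4⟩ :=
    (hcomp ρ₀ T hρ0).exists_isGreatest ⟨ρ₀, ⟨le_rfl, by linarith⟩, hD0⟩
  have hp3' : D rp = 0 := hp3
  have hppos : ∀ ρ, rp < ρ → 0 < D ρ := by
    intro ρ hρ
    rcases le_total ρ T with h | h
    · refine lt_of_le_of_ne (hnn ρ (by linarith)) fun h0 => ?_
      have := hp4 ⟨⟨by linarith, h⟩, h0.symm⟩
      linarith
    · have : 0 < ρ := by linarith
      exact lt_of_lt_of_le (by positivity) (hgr ρ h)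
  have hpe : IsExt g rp := hext rp hp3'
    (ext_right D hDc hnn (c / 2) T rp (by positivity) (by linarith) hgr (by linarith) hp3' hppos)
  have hpl : α + v * rp = g rp := by simp only [D] at hp3'; linarith
  have hgp : g rp ≤ 21 * K + 8 * (K * T) + T := by
    have : v * rp ≤ 8 * K * T := by nlinarith
    linarith
  have hline : ∀ ρ, 0 ≤ ρ → α + v * ρ ≤ g ρ := fun ρ hρ => by
    have := hnn ρ hρ
    simp only [D] at this
    linarith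
  have hαa : |α| ≤ 21 * K + 8 * (K * T) + T := by
    rw [abs_le]; constructor <;> linarith
  by_cases hA : ∃ a, 0 < a ∧ a < ρ₀ ∧ D a ≠ 0
  · obtain ⟨a, ha0, ha1, ha2⟩ := hA
    have ha3 : 0 < D a := lt_of_le_of_ne (hnn a ha0.le) ha2.symm
    obtain ⟨rm, ⟨⟨hm1, hm2⟩, hm3⟩, hm4⟩ :=
      (hcomp a ρ₀ ha0).exists_isLeast ⟨ρ₀, ⟨ha1.le, le_rfl⟩, hD0⟩
    have hm3' : D rm = 0 := hm3
    have hmpos : ∀ ρ, 0 ≤ ρ → ρ < rm → 0 < D ρ := by
      intro ρ h0 hρ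
      rcases le_total ρ a with h | h
      · have h3 := hDc.le_max_of_mem_Icc (x := ρ) (y := ρ₀) (z := a) h0 hρ0.le ⟨h, ha1.le⟩
        rw [hD0, max_eq_left (hnn ρ h0)] at h3
        linarith
      · refine lt_of_le_of_ne (hnn ρ h0) fun h0 => ?_
        have := hm4 ⟨⟨h, by linarith⟩, h0.symm⟩
        linarith
    have hme : IsExt g rm := hext rm hm3'
      (ext_left D hDc hnn (c / 2) T rm (by positivity) (by linarith) hgr (by linarith) hm3' hmpos)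
    refine ⟨α, v, rm, rp, by linarith, hm2, hp1, hαa, by linarith, ?_, hgp, hline, hpl, hpe,
      Or.inl ⟨by linarith, by simp only [D] at hm3'; linarith, hme⟩⟩
    have := (hb rm (by linarith) (by linarith)).2
    linarith
  · push Not at hA
    refine ⟨α, v, 0, rp, le_rfl, hρ0.le, hp1, hαa, by linarith, by linarith [hb0.2], hgp, hline,
      hpl, hpe, Or.inr ⟨rfl, ?_⟩⟩
    have h1 : Tendsto (fun ρ : ℝ => α + v * ρ + C * ρ) (𝓝[>] 0) (𝓝 (α + v * 0 + C * 0)) :=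
      (Continuous.tendsto (by fun_prop) 0).mono_left nhdsWithin_le_nhds
    simp only [mul_zero, add_zero] at h1
    refine ge_of_tendsto h1 ?_
    filter_upwards [Ioo_mem_nhdsGT hρ0] with ρ hρ
    have h2 := hA ρ hρ.1 hρ.2
    have h3 := hlo ρ hρ.1.le
    have h4 : 0 ≤ c * ρ ^ 2 := by positivity
    simp only [D] at h2
    linarith

end Crest.Agent.R149
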