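import Crest.Agent.R149.Defs

/-! The real-variable part: a triple point of the site model forces a kink. -/

namespace Crest.Agent.R149

open MeasureTheory Crest.ProbabilityR.Continuum Filter Topology
open scoped ENNReal

theorem rk_cases (k : ℕ) (hk : 1 ≤ k) :
    (k : ℝ) = 1 ∨ (k : ℝ) = 2 ∨ (k : ℝ) = 3 ∨ (k : ℝ) = 4 ∨ (5 : ℝ) ≤ k := by
  rcases (by omega : k = 1 ∨ k = 2 ∨ k = 3 ∨ k = 4 ∨ 5 ≤ k) with h | h | h | h | h
  · left; exact_mod_cast h
  · right; left; exact_mod_cast h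
  · right; right; left; exact_mod_cast h
  · right; right; right; left; exact_mod_cast h
  · right; right; right; right; exact_mod_cast h

theorem rk_line12 {b : ℝ} (h1 : 994 / 1000 ≤ b) (h2 : b ≤ 1006 / 1000) :
    AdmLine b (43 * b) (43 * b) := by
  refine ⟨by linarith, fun k hk => ?_⟩
  rcases rk_cases k hk with h | h | h | h | h
  · rw [h]; constructor <;> linarith
  · rw [h]; constructor <;> linarith
  · rw [h]; constructor <;> linarith
  · rw [h]; constructor <;> linarith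
  · have e1 : 0 ≤ b * (((k : ℝ) - 1) * (k - 5)) :=
      mul_nonneg (by linarith) (mul_nonneg (by linarith) (by linarith))
    have e2 : 0 ≤ (b - 994 / 1000) * ((k : ℝ) - 5) := mul_nonneg (by linarith) (by linarith)
    have e3 : 0 ≤ (1006 / 1000 - b) * ((k : ℝ) - 5) := mul_nonneg (by linarith) (by linarith)
    constructor <;> linarith

theorem rk_line23 {b : ℝ} (h1 : 994 / 1000 ≤ b) (h2 : b ≤ 1006 / 1000) :
    AdmLine b (86 * b) (129 * b) := by
  refine ⟨by linarith, fun k hk => ?_⟩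
  rcases rk_cases k hk with h | h | h | h | h
  · rw [h]; constructor <;> linarith
  · rw [h]; constructor <;> linarith
  · rw [h]; constructor <;> linarith
  · rw [h]; constructor <;> linarith
  · have e1 : 0 ≤ b * (((k : ℝ) - 5) * (k - 5)) := mul_nonneg (by linarith) (mul_self_nonneg _)
    have e2 : 0 ≤ (b - 994 / 1000) * ((k : ℝ) - 5) := mul_nonneg (by linarith) (by linarith)
    have e3 : 0 ≤ (1006 / 1000 - b) * ((k : ℝ) - 5) := mul_nonneg (by linarith) (by linarith)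
    constructor <;> linarith

theorem rk_line34 {b : ℝ} (h1 : 994 / 1000 ≤ b) (h2 : b ≤ 1006 / 1000) :
    AdmLine b (150 - 63 * b) (450 - 318 * b) := by
  refine ⟨by linarith, fun k hk => ?_⟩
  rcases rk_cases k hk with h | h | h | h | h
  · rw [h]; constructor <;> linarith
  · rw [h]; constructor <;> linarith
  · rw [h]; constructor <;> linarith
  · rw [h]; constructor <;> linarith
  · have e1 : 0 ≤ b * (((k : ℝ) - 5) * (k - 5)) := mul_nonneg (by linarith) (mul_self_nonneg _)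
    have e2 : 0 ≤ (b - 994 / 1000) * ((k : ℝ) - 5) := mul_nonneg (by linarith) (by linarith)
    have e3 : 0 ≤ (1006 / 1000 - b) * ((k : ℝ) - 5) := mul_nonneg (by linarith) (by linarith)
    constructor <;> linarith

theorem rk_lineT {b τ : ℝ} (h1 : 994 / 1000 ≤ b) (hτ : 4 ≤ τ) :
    AdmLine b (11 * b * τ - 11 / 2 * b + 50) (11 / 2 * b * τ ^ 2 + 50) := by
  have hb : 0 ≤ b := by linarith
  refine ⟨by positivity, fun k hk => ?_⟩
  have e0 : 0 ≤ b * (τ - k) ^ 2 := by positivity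
  refine ⟨?_, by linarith⟩
  have key : ∀ d : ℝ, 0 ≤ d → d ≤ τ - k → 994 / 1000 * d ^ 2 ≤ b * (τ - k) ^ 2 := by
    intro d hd hd'
    gcongr
  rcases rk_cases k hk with h | h | h | h | h
  · rw [h] at e0 ⊢; linarith
  · have := key 2 (by norm_num) (by linarith)
    rw [h] at this ⊢; linarith
  · have := key 1 (by norm_num) (by linarith)
    rw [h] at this ⊢; linarith
  · rw [h] at e0 ⊢; linarith
  · have e1 : 0 ≤ (b * k - 4) * ((k : ℝ) - 1) :=
      mul_nonneg (by nlinarith) (by linarith)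
    linarith

/-- Lower bounds on the value at a pure phase, at any nearby inverse temperature. -/
theorem rk_slack {E η μ π b r : ℝ} (hE0 : 0 ≤ E) (hE : E ≤ 1 / 100000) (hη0 : 0 ≤ η)
    (hη : η ≤ 1 / 10000000) (hπ : π ≤ 160) (hr : r ≤ 5) :
    μ * r - π - b * r ^ 2 / 2 - 1 / 10000 ≤ μ * r - π * (1 + η) - b * r ^ 2 / 2 - E * (1 + r) := by
  have e1 : π * η ≤ 160 * η := by gcongr
  have e2 : E * (1 + r) ≤ E * 6 := by gcongr; linarith
  linarith

theorem rk_pure0 {G : ℝ → ℝ → ℝ} {E η β r μ π : ℝ} (h : PurePhase G E η β r) (hβ : 0 < β)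
    (hβ2 : β ≤ 2) (hl : AdmLine β μ π) :
    μ * r - π * (1 + η) - β * r ^ 2 / 2 - E * (1 + r) ≤ G β r := by
  have := h 1 β 0 μ π one_pos hβ hβ2 le_rfl zero_le_one (by ring) hl
  linarith

/-- Location of the two ends of the affine piece. -/
theorem rk_gap {G : ℝ → ℝ → ℝ} {E η β α v rm rp : ℝ} (hE0 : 0 ≤ E) (hE : E ≤ 1 / 100000)
    (hη0 : 0 ≤ η) (hη : η ≤ 1 / 10000000) (hβ1 : 997 / 1000 ≤ β) (hβ2 : β ≤ 1003 / 1000)
    (hU2 : α + v * 2 ≤ 41 * β + E) (hU3 : α + v * 3 ≤ 249 / 2 * β + E)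
    (hU4 : α + v * 4 ≤ 58 * β + 150 + E) (hm0 : 0 ≤ rm) (hm : rm ≤ 5 / 2) (hp : 5 / 2 ≤ rp)
    (hlp : α + v * rp = G β rp) (hpp : PurePhase G E η β rp)
    (hmm : (α + v * rm = G β rm ∧ PurePhase G E η β rm) ∨ (rm = 0 ∧ -E ≤ α)) :
    (α + v * rm = G β rm ∧ PurePhase G E η β rm) ∧ 1999 / 1000 ≤ rm ∧ rm ≤ 2001 / 1000 ∧
      2999 / 1000 ≤ rp ∧ rp ≤ 4001 / 1000 ∧ (rp ≤ 3001 / 1000 ∨ 3999 / 1000 ≤ rp) ∧
      (β = 997 / 1000 → rp ≤ 3001 / 1000) ∧ (β = 1003 / 1000 → 3999 / 1000 ≤ rp) := by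
  have hβ0 : 0 < β := by linarith
  have hl12 := rk_line12 (b := β) (by linarith) (by linarith)
  have hl23 := rk_line23 (b := β) (by linarith) (by linarith)
  have hl34 := rk_line34 (b := β) (by linarith) (by linarith)
  have lo : ∀ {r μ π : ℝ}, α + v * r = G β r → PurePhase G E η β r → r ≤ 5 → AdmLine β μ π →
      π ≤ 160 → μ * r - π - β * r ^ 2 / 2 - 1 / 10000 ≤ α + v * r := by
    intro r μ π h1 h2 h3 h4 h5
    rw [h1]
    exact (rk_slack hE0 hE hη0 hη h5 h3).trans (rk_pure0 h2 hβ0 (by linarith) h4)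
  have gap23 : ∀ {r : ℝ}, α + v * r = G β r → PurePhase G E η β r → 2001 / 1000 < r →
      r < 2999 / 1000 → False := by
    intro r h1 h2 h3 h4
    have e1 := lo h1 h2 (by linarith) hl23 (by linarith)
    have e2 := mul_le_mul_of_nonneg_left hU2 (show 0 ≤ 3 - r by linarith)
    have e3 := mul_le_mul_of_nonneg_left hU3 (show 0 ≤ r - 2 by linarith)
    have e4 : 999 / 1000000 ≤ (r - 2) * (3 - r) := by
      linarith only [mul_nonneg (sub_nonneg.2 h3.le) (sub_nonneg.2 h4.le)]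
    have e5 : 997 / 1000 * (999 / 1000000) ≤ β * ((r - 2) * (3 - r)) := by gcongr
    linarith
  have gap34 : ∀ {r : ℝ}, α + v * r = G β r → PurePhase G E η β r → 3001 / 1000 < r →
      r < 3999 / 1000 → False := by
    intro r h1 h2 h3 h4
    have e1 := lo h1 h2 (by linarith) hl34 (by linarith)
    have e2 := mul_le_mul_of_nonneg_left hU3 (show 0 ≤ 4 - r by linarith)
    have e3 := mul_le_mul_of_nonneg_left hU4 (show 0 ≤ r - 3 by linarith)
    have e4 : 999 / 1000000 ≤ (r - 3) * (4 - r) := by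
      linarith only [mul_nonneg (sub_nonneg.2 h3.le) (sub_nonneg.2 h4.le)]
    have e5 : 997 / 1000 * (999 / 1000000) ≤ β * ((r - 3) * (4 - r)) := by gcongr
    linarith
  have hp1 : 2999 / 1000 ≤ rp := by
    by_contra h
    exact gap23 hlp hpp (by linarith) (not_le.1 h)
  have hm1 : rm ≤ 2001 / 1000 := by
    rcases hmm with h | h
    · by_contra h'
      exact gap23 h.1 h.2 (not_le.1 h') (by linarith)
    · linarith [h.1]
  have hv1 : v ≤ 84 := by
    rcases hmm with h | h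
    · have e1 := lo h.1 h.2 (by linarith) hl12 (by linarith)
      by_contra hv
      have e2 : 84 * (4 - rm) ≤ v * (4 - rm) :=
        mul_le_mul_of_nonneg_right (not_le.1 hv).le (by linarith)
      have e3 : 0 ≤ (β - 997 / 1000) * rm := mul_nonneg (by linarith) hm0
      have e4 : β * rm ^ 2 ≤ 1003 / 1000 * (2001 / 1000) ^ 2 := by gcongr
      linarith
    · linarith [h.2]
  have hp2 : rp ≤ 4001 / 1000 := by
    by_contra h
    push Not at h
    have e1 := rk_pure0 hpp hβ0 (by linarith)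
      (rk_lineT (b := β) (τ := rp) (by linarith) (by linarith))
    rw [← hlp] at e1
    have e2 : v * (rp - 4) ≤ 84 * (rp - 4) := mul_le_mul_of_nonneg_right hv1 (by linarith)
    have e3 : (11 / 2 * β * rp ^ 2 + 50) * η ≤
        (11 / 2 * (1003 / 1000) * rp ^ 2 + 50) * (1 / 10000000) := by gcongr
    have e4 : E * (1 + rp) ≤ 1 / 100000 * (1 + rp) :=
      mul_le_mul_of_nonneg_right hE (by linarith)
    have e5 : 997 / 1000 * (rp - 4) ≤ β * (rp - 4) := mul_le_mul_of_nonneg_right hβ1 (by linarith)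
    have e6 : 997 / 1000 * (rp - 4) ^ 2 ≤ β * (rp - 4) ^ 2 := by gcongr
    have e7 := sq_nonneg (rp - 4)
    linarith
  have hv2 : 82 ≤ v := by
    have e1 := lo hlp hpp (by linarith) hl23 (by linarith)
    by_contra hv
    have e2 : v * (rp - 2) ≤ 82 * (rp - 2) :=
      mul_le_mul_of_nonneg_right (not_le.1 hv).le (by linarith)
    have e3 : 0 ≤ (β - 997 / 1000) * ((rp - 2) * (170 - rp)) :=
      mul_nonneg (by linarith) (mul_nonneg (by linarith) (by linarith))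
    have e4 : 0 ≤ (rp - 2999 / 1000) * (4001 / 1000 - rp) := mul_nonneg (by linarith) (by linarith)
    linarith
  have hmm' : α + v * rm = G β rm ∧ PurePhase G E η β rm := by
    rcases hmm with h | h
    · exact h
    · exfalso
      linarith [h.2]
  have hm2 : 1999 / 1000 ≤ rm := by
    by_contra h
    push Not at h
    have e1 := lo hmm'.1 hmm'.2 (by linarith) hl12 (by linarith)
    have e2 : 82 * (2 - rm) ≤ v * (2 - rm) := mul_le_mul_of_nonneg_right hv2 (by linarith)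
    have e3 : β * (2 - rm) ≤ 1003 / 1000 * (2 - rm) := mul_le_mul_of_nonneg_right hβ2 (by linarith)
    have e4 : 0 ≤ β * ((2 - rm) * (2 + rm)) :=
      mul_nonneg hβ0.le (mul_nonneg (by linarith) (by linarith))
    linarith
  have hor : rp ≤ 3001 / 1000 ∨ 3999 / 1000 ≤ rp := by
    by_contra h
    push Not at h
    exact gap34 hlp hpp h.1 h.2
  have hv3 : 0 ≤ (84 - v) * (rm - 1999 / 1000) := mul_nonneg (by linarith) (by linarith)
  have hv4 : 0 ≤ (v - 82) * (2001 / 1000 - rm) := mul_nonneg (by linarith) (by linarith)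
  have em := lo hmm'.1 hmm'.2 (by linarith) hl23 (by linarith)
  have hsm : rm ^ 2 ≤ 4 * rm - 4 + 1 / 1000000 := by
    linarith only [mul_nonneg (sub_nonneg.2 hm2) (sub_nonneg.2 hm1)]
  refine ⟨hmm', hm2, hm1, hp1, hp2, hor, fun hβ => ?_, fun hβ => ?_⟩
  · rcases hor with h | h
    · exact h
    · exfalso
      have e1 := lo hlp hpp (by linarith) hl34 (by linarith)
      have e2 : 0 ≤ (84 - v) * (rp - 3999 / 1000) := mul_nonneg (by linarith) (by linarith)
      have e3 : 0 ≤ (v - 82) * (4001 / 1000 - rp) := mul_nonneg (by linarith) (by linarith)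
      have e4 : rp ^ 2 ≤ 8 * rp - 16 + 1 / 1000000 := by
        linarith only [mul_nonneg (sub_nonneg.2 h) (sub_nonneg.2 hp2)]
      rw [hβ] at em e1 hU3
      linarith only [em, e1, hU3, e2, e3, e4, hv3, hv4, hsm, hE, hv1, hv2, h, hp2, hm1, hm2]
  · rcases hor with h | h
    · exfalso
      have e1 := lo hlp hpp (by linarith) hl23 (by linarith)
      have e2 : 0 ≤ (84 - v) * (rp - 2999 / 1000) := mul_nonneg (by linarith) (by linarith)
      have e3 : 0 ≤ (v - 82) * (3001 / 1000 - rp) := mul_nonneg (by linarith) (by linarith)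
      have e4 : rp ^ 2 ≤ 6 * rp - 9 + 1 / 1000000 := by
        linarith only [mul_nonneg (sub_nonneg.2 h) (sub_nonneg.2 hp1)]
      rw [hβ] at e1 hU2 hU4
      linarith only [e1, hU2, hU4, e2, e3, e4, hE, hv1, hv2, h, hp1]
    · exact h

/-- Combination of the two pure phases at an intermediate density. -/
theorem rk_mix {G : ℝ → ℝ → ℝ} {E η β α v rm rp ρ : ℝ} (hE0 : 0 ≤ E) (hE : E ≤ 1 / 100000)
    (hη0 : 0 ≤ η) (hη : η ≤ 1 / 10000000)
    (hconv : ∀ b, 0 < b → ConvexOn ℝ (Set.Ici 0) (G b))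
    (hm0 : 0 ≤ rm) (hm : rm ≤ ρ) (hp : ρ ≤ rp) (hmp : rm < rp)
    (hp5 : rp ≤ 5) (hlm : α + v * rm = G β rm) (hpm : PurePhase G E η β rm)
    (hlp : α + v * rp = G β rp) (hpp : PurePhase G E η β rp) :
    ∃ l : ℝ, 0 ≤ l ∧ l ≤ 1 ∧ ρ = l * rm + (1 - l) * rp ∧
      ∀ β' β'' θ μ₁ π₁ μ₂ π₂ : ℝ, 0 < β' → 0 < β'' → β'' ≤ 2 → 0 ≤ θ → θ ≤ 1 →
        β = θ * β' + (1 - θ) * β'' → AdmLine β'' μ₁ π₁ → AdmLine β'' μ₂ π₂ → π₁ ≤ 160 →
        π₂ ≤ 160 →
        θ * G β' ρ + (1 - θ) * (l * (μ₁ * rm - π₁) + (1 - l) * (μ₂ * rp - π₂) -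
          β'' * (ρ ^ 2 + (ρ - rm) * (rp - ρ)) / 2 - 1 / 10000) ≤ α + v * ρ := by
  have hd : 0 < rp - rm := by linarith
  have hl0 : 0 ≤ (rp - ρ) / (rp - rm) := div_nonneg (by linarith) hd.le
  have hl1 : (rp - ρ) / (rp - rm) ≤ 1 := by rw [div_le_one hd]; linarith
  have hρ : ρ = (rp - ρ) / (rp - rm) * rm + (1 - (rp - ρ) / (rp - rm)) * rp := by
    field_simp
    ring
  refine ⟨(rp - ρ) / (rp - rm), hl0, hl1, hρ, ?_⟩
  generalize (rp - ρ) / (rp - rm) = l at hl0 hl1 hρ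
  intro β' β'' θ μ₁ π₁ μ₂ π₂ h1 h2 h3 h4 h5 h6 h7 h8 h9 h10
  have e1 := hpm β' β'' θ μ₁ π₁ h1 h2 h3 h4 h5 h6 h7
  have e2 := hpp β' β'' θ μ₂ π₂ h1 h2 h3 h4 h5 h6 h8
  have e3 := mul_le_mul_of_nonneg_left
    (rk_slack (μ := μ₁) (b := β'') hE0 hE hη0 hη h9 (show rm ≤ 5 by linarith)) (sub_nonneg.2 h5)
  have e4 := mul_le_mul_of_nonneg_left
    (rk_slack (μ := μ₂) (b := β'') hE0 hE hη0 hη h10 hp5) (sub_nonneg.2 h5)
  have e5 := (hconv β' h1).2 (show rm ∈ Set.Ici 0 from hm0)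
    (show rp ∈ Set.Ici 0 from hm0.trans hmp.le) hl0 (sub_nonneg.2 hl1) (by ring)
  simp only [smul_eq_mul] at e5
  rw [← hρ] at e5
  have e6 := mul_le_mul_of_nonneg_left e5 h4
  have e7 := mul_le_mul_of_nonneg_left ((add_le_add_right e3 _).trans e1) hl0
  have e8 := mul_le_mul_of_nonneg_left ((add_le_add_right e4 _).trans e2) (sub_nonneg.2 hl1)
  rw [← hlm] at e7
  rw [← hlp] at e8
  have e9 : ρ ^ 2 + (ρ - rm) * (rp - ρ) = l * rm ^ 2 + (1 - l) * rp ^ 2 := by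
    rw [hρ]
    ring
  have e10 : α + v * ρ = l * (α + v * rm) + (1 - l) * (α + v * rp) := by
    rw [hρ]
    ring
  rw [e9, e10]
  linarith

/-- Abstract kink lemma. -/
theorem rk_kink (G : ℝ → ℝ → ℝ) (S : Set ℝ) (em ep : ℝ → ℝ) {b₁ b₂ : ℝ} (hb₁ : 0 < b₁)
    (hb : b₁ ≤ b₂) (hconc : ∀ r ∈ S, ConcaveOn ℝ (Set.Ioi 0) fun b => G b r)
    (hlt : ∀ r ∈ S, ep r < em r)
    (hLR : ∀ b, b₁ ≤ b → b ≤ b₂ →
      (∀ r ∈ S, ∀ b', 0 < b' → b' < b → G b' r ≤ G b r - (b - b') * em r) ∨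
      (∀ r ∈ S, ∀ b', b < b' → G b' r ≤ G b r + (b' - b) * ep r))
    (hL : ∀ r ∈ S, ∀ b', 0 < b' → b' < b₁ → G b' r ≤ G b₁ r - (b₁ - b') * em r)
    (hR : ∀ r ∈ S, ∀ b', b₂ < b' → G b' r ≤ G b₂ r + (b' - b₂) * ep r) :
    ∃ βc : ℝ, b₁ ≤ βc ∧ βc ≤ b₂ ∧ ∀ r ∈ S, ∃ Dl Dr : ℝ,
      HasDerivWithinAt (fun b => G b r) Dl (Set.Iio βc) βc ∧
      HasDerivWithinAt (fun b => G b r) Dr (Set.Ioi βc) βc ∧ Dr < Dl := by
  have hcont : ∀ r ∈ S, ∀ b, 0 < b → ContinuousAt (fun b => G b r) b := fun r hr b hb0 =>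
    ((hconc r hr).continuousOn isOpen_Ioi).continuousAt (Ioi_mem_nhds hb0)
  set SL : Set ℝ := {b | b ∈ Set.Icc b₁ b₂ ∧
    ∀ r ∈ S, ∀ b', 0 < b' → b' < b → G b' r ≤ G b r - (b - b') * em r} with hSL
  set SR : Set ℝ := {b | b ∈ Set.Icc b₁ b₂ ∧
    ∀ r ∈ S, ∀ b', b < b' → G b' r ≤ G b r + (b' - b) * ep r} with hSR
  have cL : IsClosed SL := by
    refine IsSeqClosed.isClosed fun x b hx hxb => ?_
    have hb' : b ∈ Set.Icc b₁ b₂ :=
      isClosed_Icc.mem_of_tendsto hxb (Eventually.of_forall fun n => (hx n).1)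
    refine ⟨hb', fun r hr b' h0 h1 => ?_⟩
    have t1 : Tendsto (fun n => G (x n) r - (x n - b') * em r) atTop
        (𝓝 (G b r - (b - b') * em r)) :=
      ((hcont r hr b (by linarith [hb'.1])).tendsto.comp hxb).sub
        ((hxb.sub_const b').mul_const _)
    refine ge_of_tendsto t1 ?_
    filter_upwards [hxb.eventually (lt_mem_nhds h1)] with n hn
    exact (hx n).2 r hr b' h0 hn
  have cR : IsClosed SR := by
    refine IsSeqClosed.isClosed fun x b hx hxb => ?_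
    have hb' : b ∈ Set.Icc b₁ b₂ :=
      isClosed_Icc.mem_of_tendsto hxb (Eventually.of_forall fun n => (hx n).1)
    refine ⟨hb', fun r hr b' h1 => ?_⟩
    have t1 : Tendsto (fun n => G (x n) r + (b' - x n) * ep r) atTop
        (𝓝 (G b r + (b' - b) * ep r)) :=
      ((hcont r hr b (by linarith [hb'.1])).tendsto.comp hxb).add
        ((hxb.const_sub b').mul_const _)
    refine ge_of_tendsto t1 ?_
    filter_upwards [hxb.eventually (gt_mem_nhds h1)] with n hn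
    exact (hx n).2 r hr b' hn
  obtain ⟨βc, hβc, hcL, hcR⟩ := isPreconnected_closed_iff.1 (isPreconnected_Icc (a := b₁) (b := b₂))
    SL SR cL cR (fun b hb' => (hLR b hb'.1 hb'.2).imp (fun h => ⟨hb', h⟩) fun h => ⟨hb', h⟩)
    ⟨b₁, ⟨le_rfl, hb⟩, ⟨le_rfl, hb⟩, hL⟩ ⟨b₂, ⟨hb, le_rfl⟩, ⟨hb, le_rfl⟩, hR⟩
  have hβ0 : 0 < βc := by linarith [hβc.1]
  refine ⟨βc, hβc.1, hβc.2, fun r hr => ?_⟩
  have hint : βc ∈ interior (Set.Ioi (0 : ℝ)) := by
    rw [interior_Ioi]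
    exact hβ0
  have d1 := ((hconc r hr).neg.differentiableWithinAt_Iio_of_mem_interior hint).neg
  have d2 := ((hconc r hr).neg.differentiableWithinAt_Ioi_of_mem_interior hint).neg
  rw [neg_neg] at d1 d2
  have h1 := d1.hasDerivWithinAt
  have h2 := d2.hasDerivWithinAt
  refine ⟨_, _, h1, h2, ?_⟩
  rw [hasDerivWithinAt_iff_tendsto_slope' (by simp)] at h1 h2
  have l1 : em r ≤ derivWithin (fun b => G b r) (Set.Iio βc) βc := by
    refine ge_of_tendsto h1 ?_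
    filter_upwards [self_mem_nhdsWithin, mem_nhdsWithin_of_mem_nhds (Ioi_mem_nhds hβ0)]
      with b hb1 hb2
    have := hcL.2 r hr b hb2 hb1
    have hb1' : b < βc := hb1
    rw [slope_def_field, le_div_iff_of_neg (by linarith)]
    linarith
  have l2 : derivWithin (fun b => G b r) (Set.Ioi βc) βc ≤ ep r := by
    refine le_of_tendsto h2 ?_
    filter_upwards [self_mem_nhdsWithin] with b hb1
    have := hcR.2 r hr b hb1
    have hb1' : βc < b := hb1
    rw [slope_def_field, div_le_iff₀ (by linarith)]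
    linarith
  linarith [hlt r hr]

theorem real_kink (G : ℝ → ℝ → ℝ) (E η : ℝ) (hE0 : 0 ≤ E) (hE : E ≤ 1 / 100000) (hη0 : 0 ≤ η)
    (hη : η ≤ 1 / 10000000)
    (hconc : ∀ r, 0 ≤ r → ConcaveOn ℝ (Set.Ioi 0) fun b => G b r)
    (hconv : ∀ b, 0 < b → ConvexOn ℝ (Set.Ici 0) (G b))
    (hU : ∀ β, 997 / 1000 ≤ β → β ≤ 1003 / 1000 →
      G β 2 ≤ 41 * β + E ∧ G β 3 ≤ 249 / 2 * β + E ∧ G β 4 ≤ 58 * β + 150 + E)
    (hP : ∀ β, 997 / 1000 ≤ β → β ≤ 1003 / 1000 → ∃ α v rm rp : ℝ, 0 ≤ rm ∧ rm ≤ 5 / 2 ∧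
      5 / 2 ≤ rp ∧ (∀ r, 0 ≤ r → α + v * r ≤ G β r) ∧ α + v * rp = G β rp ∧
      PurePhase G E η β rp ∧
      ((α + v * rm = G β rm ∧ PurePhase G E η β rm) ∨ (rm = 0 ∧ -E ≤ α))) :
    ∃ βc : ℝ, 997 / 1000 ≤ βc ∧ βc ≤ 1003 / 1000 ∧ ∀ r, 9 / 4 < r → r < 11 / 4 →
      ∃ Dl Dr : ℝ, HasDerivWithinAt (fun b => G b r) Dl (Set.Iio βc) βc ∧
        HasDerivWithinAt (fun b => G b r) Dr (Set.Ioi βc) βc ∧ Dr < Dl := by
  have key : ∀ β, 997 / 1000 ≤ β → β ≤ 1003 / 1000 → ∃ rp : ℝ,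
      (rp ≤ 3001 / 1000 ∨ 3999 / 1000 ≤ rp) ∧ (β = 997 / 1000 → rp ≤ 3001 / 1000) ∧
      (β = 1003 / 1000 → 3999 / 1000 ≤ rp) ∧
      (rp ≤ 3001 / 1000 → ∀ r ∈ Set.Ioo (9 / 4 : ℝ) (11 / 4), ∀ b', 0 < b' → b' < β →
        G b' r ≤ G β r - (β - b') * (36 + 167 / 2 * (r - 2))) ∧
      (3999 / 1000 ≤ rp → ∀ r ∈ Set.Ioo (9 / 4 : ℝ) (11 / 4), ∀ b', β < b' →
        G b' r ≤ G β r + (b' - β) * (46 + 17 / 2 * (r - 2))) := by
    intro β hβ1 hβ2
    obtain ⟨α, v, rm, rp, hm0, hm, hp, hline, hlp, hpp, hmm⟩ := hP β hβ1 hβ2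
    obtain ⟨u2, u3, u4⟩ := hU β hβ1 hβ2
    have hU2 := (hline 2 (by norm_num)).trans u2
    have hU3 := (hline 3 (by norm_num)).trans u3
    have hU4 := (hline 4 (by norm_num)).trans u4
    obtain ⟨⟨hlm, hpm⟩, hm1, hm2, hp1, hp2, hor, he1, he2⟩ :=
      rk_gap hE0 hE hη0 hη hβ1 hβ2 hU2 hU3 hU4 hm0 hm hp hlp hpp hmm
    refine ⟨rp, hor, he1, he2, fun hp3 ρ hρ b' hb0 hb1 => ?_, fun hp3 ρ hρ b' hb1 => ?_⟩
    · have hρ1 := hρ.1
      have hρ2 := hρ.2
      have hl := hline ρ (by linarith)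
      obtain ⟨l, hl0, hl1, hρl, hmix⟩ := rk_mix (ρ := ρ) hE0 hE hη0 hη hconv hm0 (by linarith)
        (by linarith) (by linarith) (by linarith) hlm hpm hlp hpp
      have hd : 0 < β - b' + 3 / 1000 := by linarith
      have hL := rk_line23 (b := β + 3 / 1000) (by linarith) (by linarith)
      obtain ⟨θ, hθ0, hθ1, hθ⟩ : ∃ θ : ℝ, 0 ≤ θ ∧ θ ≤ 1 ∧ θ * (β - b' + 3 / 1000) = 3 / 1000 :=
        ⟨3 / 1000 / (β - b' + 3 / 1000), by positivity, by rw [div_le_one hd]; linarith,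
          div_mul_cancel₀ _ hd.ne'⟩
      have e1 := hmix b' (β + 3 / 1000) θ _ _ _ _ hb0 (by linarith)
        (by linarith) hθ0 hθ1 (by linear_combination hθ) hL hL (by linarith) (by linarith)
      have e2 : l * (86 * (β + 3 / 1000) * rm - 129 * (β + 3 / 1000)) +
          (1 - l) * (86 * (β + 3 / 1000) * rp - 129 * (β + 3 / 1000)) =
          86 * (β + 3 / 1000) * ρ - 129 * (β + 3 / 1000) := by
        rw [hρl]
        ring
      rw [e2] at e1
      have e3 : (ρ - rm) * (rp - ρ) ≤ (ρ - 1999 / 1000) * (3001 / 1000 - ρ) := by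
        gcongr <;> linarith
      have e4 := mul_le_mul_of_nonneg_left e3 (show 0 ≤ β + 3 / 1000 by linarith)
      have e5 := mul_le_mul_of_nonneg_left hU2 (show 0 ≤ 3 - ρ by linarith)
      have e6 := mul_le_mul_of_nonneg_left hU3 (show 0 ≤ ρ - 2 by linarith)
      set Ψ := 86 * (β + 3 / 1000) * ρ - 129 * (β + 3 / 1000) -
        (β + 3 / 1000) * (ρ ^ 2 + (ρ - rm) * (rp - ρ)) / 2 - 1 / 10000 with hΨ
      have e7 : α + v * ρ + 3 / 1000 * (36 + 167 / 2 * (ρ - 2)) ≤ Ψ := by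
        rw [hΨ]
        linarith only [e4, e5, e6, hE, hβ2, hβ1]
      clear_value Ψ
      have e8 : 3 / 1000 * G b' ρ + (β - b') * Ψ ≤ (α + v * ρ) * (β - b' + 3 / 1000) := by
        have e9 := mul_le_mul_of_nonneg_right e1 hd.le
        have e10 : (θ * G b' ρ + (1 - θ) * Ψ) * (β - b' + 3 / 1000) =
            3 / 1000 * G b' ρ + (β - b') * Ψ := by
          linear_combination (G b' ρ - Ψ) * hθ
        rwa [e10] at e9
      have e11 := mul_le_mul_of_nonneg_left e7 (show 0 ≤ β - b' by linarith)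
      linarith only [e8, e11, hl]
    · have hρ1 := hρ.1
      have hρ2 := hρ.2
      have hl := hline ρ (by linarith)
      obtain ⟨l, hl0, hl1, hρl, hmix⟩ := rk_mix (ρ := ρ) hE0 hE hη0 hη hconv hm0 (by linarith)
        (by linarith) (by linarith) (by linarith) hlm hpm hlp hpp
      have hd : 0 < b' - β + 3 / 1000 := by linarith
      have hL := rk_line23 (b := β - 3 / 1000) (by linarith) (by linarith)
      have hL' := rk_line34 (b := β - 3 / 1000) (by linarith) (by linarith)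
      obtain ⟨θ, hθ0, hθ1, hθ⟩ : ∃ θ : ℝ, 0 ≤ θ ∧ θ ≤ 1 ∧ θ * (b' - β + 3 / 1000) = 3 / 1000 :=
        ⟨3 / 1000 / (b' - β + 3 / 1000), by positivity, by rw [div_le_one hd]; linarith,
          div_mul_cancel₀ _ hd.ne'⟩
      have e1 := hmix b' (β - 3 / 1000) θ _ _ _ _ (by linarith)
        (by linarith) (by linarith) hθ0 hθ1 (by linear_combination -hθ) hL hL' (by linarith)
        (by linarith)
      set b := β - 3 / 1000 with hb
      have hb1' : 994 / 1000 ≤ b := by linarith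
      have hb2' : b ≤ 1 := by linarith
      have f1 : -(1 / 1000) ≤ (75 - 149 / 2 * b) * (2 - rm) := by
        have := mul_nonneg (show 0 ≤ 75 - 149 / 2 * b by linarith) (sub_nonneg.2 hm2)
        linarith only [this, hb1']
      have f2 : -(1 / 1000) ≤ (75 - 149 / 2 * b) * (rp - 4) := by
        have := mul_nonneg (show 0 ≤ 75 - 149 / 2 * b by linarith) (sub_nonneg.2 hp3)
        linarith only [this, hb1']
      have e2 : 43 * b + (23 / 2 * b + 75) * (ρ - 2) - 1 / 1000 ≤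
          l * (86 * b * rm - 129 * b) + (1 - l) * ((150 - 63 * b) * rp - (450 - 318 * b)) := by
        have f3 := mul_le_mul_of_nonneg_left f1 hl0
        have f4 := mul_le_mul_of_nonneg_left f2 (sub_nonneg.2 hl1)
        rw [hρl]
        linarith only [f3, f4]
      have e3 : (ρ - rm) * (rp - ρ) ≤ (ρ - 1999 / 1000) * (4001 / 1000 - ρ) := by
        gcongr <;> linarith
      have e4 := mul_le_mul_of_nonneg_left e3 (show 0 ≤ b by linarith)
      have e5 := mul_le_mul_of_nonneg_left hU2 (show 0 ≤ 4 - ρ by linarith)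
      have e6 := mul_le_mul_of_nonneg_left hU4 (show 0 ≤ ρ - 2 by linarith)
      set Ψ := l * (86 * b * rm - 129 * b) + (1 - l) * ((150 - 63 * b) * rp - (450 - 318 * b)) -
        b * (ρ ^ 2 + (ρ - rm) * (rp - ρ)) / 2 - 1 / 10000 with hΨ
      have e7 : α + v * ρ - 3 / 1000 * (46 + 17 / 2 * (ρ - 2)) ≤ Ψ := by
        have hβ : β = b + 3 / 1000 := by linarith
        rw [hβ] at e5 e6
        rw [hΨ]
        linarith only [e2, e4, e5, e6, hE, hb2']
      clear_value Ψ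
      have e8 : 3 / 1000 * G b' ρ + (b' - β) * Ψ ≤ (α + v * ρ) * (b' - β + 3 / 1000) := by
        have e9 := mul_le_mul_of_nonneg_right e1 hd.le
        have e10 : (θ * G b' ρ + (1 - θ) * Ψ) * (b' - β + 3 / 1000) =
            3 / 1000 * G b' ρ + (b' - β) * Ψ := by
          linear_combination (G b' ρ - Ψ) * hθ
        rwa [e10] at e9
      have e11 := mul_le_mul_of_nonneg_left e7 (show 0 ≤ b' - β by linarith)
      linarith only [e8, e11, hl]
  obtain ⟨βc, h1, h2, h3⟩ := rk_kink G (Set.Ioo (9 / 4) (11 / 4))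
    (fun r => 36 + 167 / 2 * (r - 2)) (fun r => 46 + 17 / 2 * (r - 2))
    (b₁ := 997 / 1000) (b₂ := 1003 / 1000) (by norm_num) (by norm_num)
    (fun r hr => hconc r (by linarith [hr.1])) (fun r hr => by linarith [hr.1])
    (fun b hb1 hb2 => by
      obtain ⟨rp, hor, -, -, hL, hR⟩ := key b hb1 hb2
      exact hor.imp hL hR)
    (by
      obtain ⟨rp, -, he, -, hL, -⟩ := key (997 / 1000) le_rfl (by norm_num)
      exact hL (he rfl))
    (by
      obtain ⟨rp, -, -, he, -, hR⟩ := key (1003 / 1000) (by norm_num) le_rfl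
      exact hR (he rfl))
  exact ⟨βc, h1, h2, fun r hr1 hr2 => h3 r ⟨hr1, hr2⟩⟩

end Crest.Agent.R149
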