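import Crest.Agent.R149.Defs

/-! The thermodynamic limit from a tiling inequality: pure real analysis. -/

namespace Crest.Agent.R149

open MeasureTheory Crest.ProbabilityR.Continuum Filter Topology
open scoped ENNReal

/-- The tiling (superadditivity) inequality: blocks of side `L₀`, corridors of width `2`. -/
def Tile (F : ℝ → ℕ → ℝ) : Prop :=
  ∀ (L₀ : ℝ), 0 < L₀ → ∀ (M : ℕ) (L : ℝ), 0 < L → M * (L₀ + 2) ≤ L →
    ∀ (k : ℕ), k ≤ M ^ 3 → ∀ n : Fin k → ℕ, ∑ b, F L₀ (n b) ≤ F L (∑ b, n b)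

theorem thermoAbs_split (D : ℕ) : ∀ (k N : ℕ), N ≤ k * D →
    ∃ n : Fin k → ℕ, ∑ b, n b = N ∧ ∀ b, n b ≤ D := by
  intro k
  induction k with
  | zero => intro N hN; exact ⟨fun _ => 0, by simp at hN ⊢; omega, fun b => b.elim0⟩
  | succ k ih =>
    intro N hN
    obtain ⟨n, hn, hD⟩ := ih (N - D) (by rw [Nat.succ_mul] at hN; omega)
    refine ⟨Fin.cons (min N D) n, ?_, ?_⟩
    · rw [Fin.sum_univ_succ]; simp only [Fin.cons_zero, Fin.cons_succ, hn]; omega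
    · intro b
      refine Fin.cases ?_ (fun b => ?_) b
      · simp
      · simpa using hD b

theorem thermoAbs_unit (F : ℝ → ℕ → ℝ) (htile : Tile F) (c ρ : ℝ) (D : ℕ) (hc : 0 ≤ c)
    (hF : ∀ n, n ≤ D → -c ≤ F 1 n) (hρ : 0 ≤ ρ) (hD : 216 * ρ ≤ D) (L : ℝ) (hL : 3 ≤ L)
    (N : ℕ) (hN : (N : ℝ) ≤ ρ * L ^ 3) : -c * L ^ 3 ≤ F L N := by
  set M : ℕ := ⌊L / 3⌋₊ with hM
  have hM1 : (M : ℝ) ≤ L / 3 := Nat.floor_le (by positivity)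
  have hM2 : L / 3 < M + 1 := Nat.lt_floor_add_one _
  have hM3 : 1 ≤ M := by
    rw [hM]; exact Nat.le_floor (by push_cast; linarith)
  have hM4 : (1 : ℝ) ≤ M := by exact_mod_cast hM3
  have hM5 : L ≤ 6 * M := by linarith
  have hL3 : L ^ 3 ≤ (6 * M) ^ 3 := by gcongr
  have hNM : N ≤ M ^ 3 * D := by
    have : (N : ℝ) ≤ (M : ℝ) ^ 3 * D := by
      calc (N : ℝ) ≤ ρ * L ^ 3 := hN
        _ ≤ ρ * (6 * M) ^ 3 := by gcongr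
        _ = (M : ℝ) ^ 3 * (216 * ρ) := by ring
        _ ≤ (M : ℝ) ^ 3 * D := by gcongr
    exact_mod_cast this
  obtain ⟨n, hn, hnD⟩ := thermoAbs_split D (M ^ 3) N hNM
  have h := htile 1 one_pos M L (by linarith) (by linarith) (M ^ 3) le_rfl n
  rw [hn] at h
  have h2 : ∑ _b : Fin (M ^ 3), (-c) ≤ ∑ b, F 1 (n b) :=
    Finset.sum_le_sum fun b _ => hF _ (hnD b)
  simp only [Finset.sum_const, Finset.card_univ, Fintype.card_fin, nsmul_eq_mul] at h2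
  have h3 : ((M ^ 3 : ℕ) : ℝ) ≤ L ^ 3 := by
    push_cast
    have : (M : ℝ) ≤ L := by linarith
    gcongr
  nlinarith

theorem abstract_unit_bound (F : ℝ → ℕ → ℝ) (htile : Tile F) (c ρ : ℝ) (D : ℕ) (hc : 0 ≤ c)
    (hF : ∀ n, n ≤ D → -c ≤ F 1 n) (hρ : 0 ≤ ρ) (hD : 216 * ρ ≤ D) (L : ℝ) (hL : 3 ≤ L) :
    -c * L ^ 3 ≤ F L ⌊ρ * L ^ 3⌋₊ :=
  thermoAbs_unit F htile c ρ D hc hF hρ hD L hL _ (Nat.floor_le (by positivity))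

theorem thermoAbs_lower (F : ℝ → ℕ → ℝ) (htile : Tile F) (ρ : ℝ) (hρ : 0 ≤ ρ) :
    ∃ c : ℝ, 0 ≤ c ∧ ∀ L : ℝ, 3 ≤ L → ∀ N : ℕ, (N : ℝ) ≤ ρ * L ^ 3 → -c * L ^ 3 ≤ F L N := by
  refine ⟨∑ n ∈ Finset.range (⌈216 * ρ⌉₊ + 1), |F 1 n|, by positivity, fun L hL N hN => ?_⟩
  refine thermoAbs_unit F htile _ ρ ⌈216 * ρ⌉₊ (by positivity) (fun n hn => ?_) hρ
    (Nat.le_ceil _) L hL N hN
  have h1 : |F 1 n| ≤ ∑ n ∈ Finset.range (⌈216 * ρ⌉₊ + 1), |F 1 n| :=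
    Finset.single_le_sum (f := fun n => |F 1 n|) (fun _ _ => abs_nonneg _)
      (Finset.mem_range.2 (by omega))
  have := neg_abs_le (F 1 n)
  linarith

theorem thermoAbs_three (F : ℝ → ℕ → ℝ) (htile : Tile F) (L₀ : ℝ) (hL₀ : 0 < L₀) (M : ℕ) (L : ℝ)
    (hL : 0 < L) (hML : M * (L₀ + 2) ≤ L) (k₁ k₂ k₃ : ℕ) (hk : k₁ + k₂ + k₃ ≤ M ^ 3)
    (N₁ N₂ E D : ℕ) (hE : E ≤ k₃ * D) (C : ℝ) (hC : ∀ n, n ≤ D → -C ≤ F L₀ n) :
    k₁ * F L₀ N₁ + k₂ * F L₀ N₂ - k₃ * C ≤ F L (k₁ * N₁ + k₂ * N₂ + E) := by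
  obtain ⟨n, hn, hnD⟩ := thermoAbs_split D k₃ E hE
  have h := htile L₀ hL₀ M L hL hML (k₁ + k₂ + k₃) hk
    (Fin.append (Fin.append (fun _ => N₁) (fun _ => N₂)) n)
  simp only [Fin.sum_univ_add, Fin.append_left, Fin.append_right, Finset.sum_const,
    Finset.card_univ, Fintype.card_fin, nsmul_eq_mul, smul_eq_mul, hn] at h
  have h2 : ∑ _b : Fin k₃, (-C) ≤ ∑ b, F L₀ (n b) :=
    Finset.sum_le_sum fun b _ => hC _ (hnD b)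
  simp only [Finset.sum_const, Finset.card_univ, Fintype.card_fin, nsmul_eq_mul] at h2
  push_cast at h
  linarith

theorem thermoAbs_key (F : ℝ → ℕ → ℝ) (htile : Tile F) (ρ₁ ρ₂ lam ρ c : ℝ) (h₁ : 0 ≤ ρ₁)
    (h₂ : 0 ≤ ρ₂) (hl0 : 0 ≤ lam) (hl1 : lam ≤ 1) (hρ : ρ = lam * ρ₁ + (1 - lam) * ρ₂)
    (hc : ∀ L : ℝ, 3 ≤ L → ∀ N : ℕ, (N : ℝ) ≤ (12 * ρ + 2) * L ^ 3 → -c * L ^ 3 ≤ F L N)
    (L₀ : ℝ) (hL₀ : 3 ≤ L₀) (a : ℝ)
    (ha : a < ((1 - 1 / L₀) * (lam * F L₀ ⌊ρ₁ * L₀ ^ 3⌋₊ + (1 - lam) * F L₀ ⌊ρ₂ * L₀ ^ 3⌋₊)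
      - 1 / L₀ * (c * L₀ ^ 3)) * (1 / (L₀ + 2)) ^ 3) :
    ∀ᶠ L : ℝ in atTop, a ≤ F L ⌊ρ * L ^ 3⌋₊ / L ^ 3 := by
  have hρ0 : 0 ≤ ρ := by rw [hρ]; have : 0 ≤ 1 - lam := by linarith
                         positivity
  have hL0p : 0 < L₀ := by linarith
  set θ : ℝ := 1 / L₀ with hθ
  have hθ0 : 0 < θ := by positivity
  have hθ1 : θ ≤ 1 := by rw [hθ, div_le_one hL0p]; linarith
  set N₁ : ℕ := ⌊ρ₁ * L₀ ^ 3⌋₊ with hN₁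
  set N₂ : ℕ := ⌊ρ₂ * L₀ ^ 3⌋₊ with hN₂
  set D : ℕ := ⌊(12 * ρ + 2) * L₀ ^ 3⌋₊ with hD
  set s : ℝ := 1 / (L₀ + 2) with hs
  have hs0 : 0 < s := by positivity
  let M : ℝ → ℕ := fun L => ⌊s * L⌋₊
  let k₁ : ℝ → ℕ := fun L => ⌊(lam * (1 - θ)) * ((M L : ℝ) ^ 3)⌋₊
  let k₂ : ℝ → ℕ := fun L => ⌊((1 - lam) * (1 - θ)) * ((M L : ℝ) ^ 3)⌋₊
  have hp1 : 0 ≤ lam * (1 - θ) := mul_nonneg hl0 (by linarith)
  have hp2 : 0 ≤ (1 - lam) * (1 - θ) := mul_nonneg (by linarith) (by linarith)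
  have hMt : Tendsto (fun L => (M L : ℝ) / L) atTop (𝓝 s) := tendsto_nat_floor_mul_div_atTop hs0.le
  have hMtop : Tendsto (fun L => (M L : ℝ)) atTop atTop :=
    tendsto_natCast_atTop_atTop.comp
      (tendsto_nat_floor_atTop.comp (tendsto_id.const_mul_atTop hs0))
  have hM3top : Tendsto (fun L => (M L : ℝ) ^ 3) atTop atTop :=
    (tendsto_pow_atTop (by norm_num)).comp hMtop
  have hM3 : Tendsto (fun L => (M L : ℝ) ^ 3 / L ^ 3) atTop (𝓝 (s ^ 3)) := by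
    simpa only [div_pow] using hMt.pow 3
  have hk : ∀ p : ℝ, 0 ≤ p →
      Tendsto (fun L => (⌊p * ((M L : ℝ) ^ 3)⌋₊ : ℝ) / L ^ 3) atTop (𝓝 (p * s ^ 3)) := by
    intro p hp
    have h1 := ((tendsto_nat_floor_mul_div_atTop hp).comp hM3top).mul hM3
    refine h1.congr' ?_
    filter_upwards [hM3top.eventually_gt_atTop 0] with L hL
    simp only [Function.comp]
    rw [div_mul_div_cancel₀ hL.ne']
  have hk1 := hk _ hp1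
  have hk2 := hk _ hp2
  have hN : Tendsto (fun L : ℝ => (⌊ρ * L ^ 3⌋₊ : ℝ) / L ^ 3) atTop (𝓝 ρ) :=
    (tendsto_nat_floor_mul_div_atTop hρ0).comp (tendsto_pow_atTop (by norm_num))
  have hk3 := (hM3.sub hk1).sub hk2
  -- the lower bound converges
  have hA := ((hk1.mul_const (F L₀ N₁)).add (hk2.mul_const (F L₀ N₂))).sub
    (hk3.mul_const (c * L₀ ^ 3))
  have hA' : a < lam * (1 - θ) * s ^ 3 * F L₀ N₁ + (1 - lam) * (1 - θ) * s ^ 3 * F L₀ N₂ -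
      (s ^ 3 - lam * (1 - θ) * s ^ 3 - (1 - lam) * (1 - θ) * s ^ 3) * (c * L₀ ^ 3) := by
    refine ha.trans_eq ?_
    ring
  -- room for the remaining particles
  have hB := (((hk3.mul_const (D : ℝ)).add (hk1.mul_const (N₁ : ℝ))).add
    (hk2.mul_const (N₂ : ℝ))).sub hN
  have hN1l : ρ₁ * L₀ ^ 3 - 1 ≤ N₁ := by have := Nat.lt_floor_add_one (ρ₁ * L₀ ^ 3); linarith
  have hN2l : ρ₂ * L₀ ^ 3 - 1 ≤ N₂ := by have := Nat.lt_floor_add_one (ρ₂ * L₀ ^ 3); linarith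
  have hN1u : (N₁ : ℝ) ≤ ρ₁ * L₀ ^ 3 := Nat.floor_le (by positivity)
  have hN2u : (N₂ : ℝ) ≤ ρ₂ * L₀ ^ 3 := Nat.floor_le (by positivity)
  have hDl : (12 * ρ + 2) * L₀ ^ 3 - 1 ≤ D := by
    have := Nat.lt_floor_add_one ((12 * ρ + 2) * L₀ ^ 3); linarith
  have hDu : (D : ℝ) ≤ (12 * ρ + 2) * L₀ ^ 3 := Nat.floor_le (by positivity)
  have hB' : 0 < (s ^ 3 - lam * (1 - θ) * s ^ 3 - (1 - lam) * (1 - θ) * s ^ 3) * (D : ℝ) +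
      lam * (1 - θ) * s ^ 3 * N₁ + (1 - lam) * (1 - θ) * s ^ 3 * N₂ - ρ := by
    have e1 : (s ^ 3 - lam * (1 - θ) * s ^ 3 - (1 - lam) * (1 - θ) * s ^ 3) * (D : ℝ) +
        lam * (1 - θ) * s ^ 3 * N₁ + (1 - lam) * (1 - θ) * s ^ 3 * N₂ - ρ =
        s ^ 3 * (θ * D + (1 - θ) * (lam * N₁ + (1 - lam) * N₂) - ρ * (L₀ + 2) ^ 3) := by
      have : s * (L₀ + 2) = 1 := by rw [hs]; field_simp
      have h3 : s ^ 3 * (L₀ + 2) ^ 3 = 1 := by rw [← mul_pow, this, one_pow]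
      linear_combination (ρ) * h3
    rw [e1]
    refine mul_pos (by positivity) ?_
    have e2 : ρ * L₀ ^ 3 - 1 ≤ lam * N₁ + (1 - lam) * N₂ := by
      have a1 := mul_le_mul_of_nonneg_left hN1l hl0
      have a2 := mul_le_mul_of_nonneg_left hN2l (by linarith : 0 ≤ 1 - lam)
      rw [hρ]; nlinarith
    have e3 := mul_le_mul_of_nonneg_left e2 (by linarith : 0 ≤ 1 - θ)
    have e4 := mul_le_mul_of_nonneg_left hDl hθ0.le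
    have e5 : θ * L₀ ^ 3 = L₀ ^ 2 := by rw [hθ]; field_simp
    have e6 : θ * ((12 * ρ + 2) * L₀ ^ 3 - 1) = (12 * ρ + 2) * L₀ ^ 2 - θ := by
      rw [← e5]; ring
    have e7 : (1 - θ) * (ρ * L₀ ^ 3 - 1) = ρ * L₀ ^ 3 - ρ * L₀ ^ 2 - 1 + θ := by
      rw [← e5]; ring
    have e8 : 0 ≤ ρ * (5 * L₀ ^ 2 - 12 * L₀ - 8) := mul_nonneg hρ0 (by nlinarith)
    have e9 : 9 ≤ L₀ ^ 2 := by nlinarith
    nlinarith
  filter_upwards [hA.eventually (lt_mem_nhds hA'), hB.eventually (lt_mem_nhds hB'),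
    eventually_gt_atTop (0 : ℝ)] with L h1 h2 hL
  have hL3 : 0 < L ^ 3 := by positivity
  have hMle : (M L : ℝ) ≤ s * L := Nat.floor_le (by positivity)
  have hML : (M L : ℝ) * (L₀ + 2) ≤ L := by
    have : s * L * (L₀ + 2) = L := by rw [hs]; field_simp
    have h' := mul_le_mul_of_nonneg_right hMle (by linarith : 0 ≤ L₀ + 2)
    linarith
  have hk1u : (k₁ L : ℝ) ≤ (lam * (1 - θ)) * ((M L : ℝ) ^ 3) := Nat.floor_le (by positivity)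
  have hk2u : (k₂ L : ℝ) ≤ ((1 - lam) * (1 - θ)) * ((M L : ℝ) ^ 3) := Nat.floor_le (by positivity)
  have hM30 : 0 ≤ (M L : ℝ) ^ 3 := by positivity
  have hk12 : k₁ L + k₂ L ≤ M L ^ 3 := by
    have : ((k₁ L + k₂ L : ℕ) : ℝ) ≤ ((M L ^ 3 : ℕ) : ℝ) := by
      push_cast
      nlinarith
    exact_mod_cast this
  obtain ⟨k₃, hk₃⟩ := Nat.exists_eq_add_of_le hk12
  have hk₃r : (k₃ : ℝ) = (M L : ℝ) ^ 3 - k₁ L - k₂ L := by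
    have : ((M L ^ 3 : ℕ) : ℝ) = ((k₁ L + k₂ L + k₃ : ℕ) : ℝ) := by rw [hk₃]
    push_cast at this
    linarith
  have hsum : k₁ L * N₁ + k₂ L * N₂ ≤ ⌊ρ * L ^ 3⌋₊ := by
    refine Nat.le_floor ?_
    push_cast
    have b1 : (k₁ L : ℝ) * N₁ ≤ (lam * (1 - θ)) * ((M L : ℝ) ^ 3) * (ρ₁ * L₀ ^ 3) := by gcongr
    have b2 : (k₂ L : ℝ) * N₂ ≤ ((1 - lam) * (1 - θ)) * ((M L : ℝ) ^ 3) * (ρ₂ * L₀ ^ 3) := by
      gcongr
    have b3 : ((M L : ℝ) * L₀) ^ 3 ≤ L ^ 3 := by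
      have : (M L : ℝ) * L₀ ≤ L := by nlinarith [Nat.cast_nonneg (α := ℝ) (M L)]
      gcongr
    have b4 : (1 - θ) * ((M L : ℝ) * L₀) ^ 3 ≤ L ^ 3 := by
      have : 0 ≤ θ * ((M L : ℝ) * L₀) ^ 3 := by positivity
      nlinarith
    have b5 := mul_le_mul_of_nonneg_left b4 hρ0
    have b6 : (lam * (1 - θ)) * ((M L : ℝ) ^ 3) * (ρ₁ * L₀ ^ 3) +
        ((1 - lam) * (1 - θ)) * ((M L : ℝ) ^ 3) * (ρ₂ * L₀ ^ 3) =
        ρ * ((1 - θ) * ((M L : ℝ) * L₀) ^ 3) := by rw [hρ]; ring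
    linarith
  obtain ⟨E, hE⟩ := Nat.exists_eq_add_of_le hsum
  have hEr : (E : ℝ) = ⌊ρ * L ^ 3⌋₊ - k₁ L * N₁ - k₂ L * N₂ := by
    have : ((⌊ρ * L ^ 3⌋₊ : ℕ) : ℝ) = ((k₁ L * N₁ + k₂ L * N₂ + E : ℕ) : ℝ) := by rw [← hE]
    push_cast at this
    linarith
  have hED : E ≤ k₃ * D := by
    have : (E : ℝ) ≤ (k₃ : ℝ) * D := by
      have h2' := mul_pos h2 hL3
      have : (((M L : ℝ) ^ 3 / L ^ 3 - (k₁ L : ℝ) / L ^ 3 - (k₂ L : ℝ) / L ^ 3) * (D : ℝ) +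
          (k₁ L : ℝ) / L ^ 3 * N₁ + (k₂ L : ℝ) / L ^ 3 * N₂ - (⌊ρ * L ^ 3⌋₊ : ℝ) / L ^ 3) * L ^ 3 =
          (k₃ : ℝ) * D - E := by
        rw [hk₃r, hEr]; field_simp; ring
      have h3 : 0 < (k₃ : ℝ) * D - E := by rw [← this]; exact h2'
      linarith
    exact_mod_cast this
  have hmain := thermoAbs_three F htile L₀ hL0p (M L) L hL hML (k₁ L) (k₂ L) k₃ hk₃.ge N₁ N₂ E D
    hED (c * L₀ ^ 3) (fun n hn => by
      have := hc L₀ hL₀ n (le_trans (by exact_mod_cast hn) hDu)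
      linarith)
  rw [← hE] at hmain
  refine h1.le.trans ?_
  rw [le_div_iff₀ hL3]
  refine le_trans (le_of_eq ?_) hmain
  rw [hk₃r]
  change ((k₁ L : ℝ) / L ^ 3 * F L₀ N₁ + (k₂ L : ℝ) / L ^ 3 * F L₀ N₂ -
    ((M L : ℝ) ^ 3 / L ^ 3 - (k₁ L : ℝ) / L ^ 3 - (k₂ L : ℝ) / L ^ 3) * (c * L₀ ^ 3)) * L ^ 3 = _
  field_simp

theorem thermoAbs_aux_tendsto :
    Tendsto (fun L : ℝ => (L / (L + 2)) ^ 3) atTop (𝓝 1) := by
  have h1 : Tendsto (fun L : ℝ => 1 - 2 * (L + 2)⁻¹) atTop (𝓝 (1 - 2 * 0)) :=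
    tendsto_const_nhds.sub
      ((tendsto_inv_atTop_zero.comp (tendsto_atTop_add_const_right _ 2 tendsto_id)).const_mul 2)
  have h2 := h1.pow 3
  simp only [mul_zero, sub_zero, one_pow] at h2
  refine h2.congr' ?_
  filter_upwards [eventually_gt_atTop (0 : ℝ)] with L hL
  congr 1
  field_simp
  ring

theorem abstract_TL (F : ℝ → ℕ → ℝ) (B : ℝ)
    (hup : ∀ L, 0 < L → ∀ N : ℕ, F L N ≤ L ^ 3 + B * N) (htile : Tile F) :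
    ∃ g : ℝ → ℝ,
      (∀ ρ, 0 ≤ ρ → Tendsto (fun L : ℝ => -F L ⌊ρ * L ^ 3⌋₊ / L ^ 3) atTop (𝓝 (g ρ))) ∧
      ConvexOn ℝ (Set.Ici 0) g := by
  let f : ℝ → ℝ → ℝ := fun ρ L => F L ⌊ρ * L ^ 3⌋₊ / L ^ 3
  let S : ℝ → Set ℝ := fun ρ => {a | ∀ᶠ L : ℝ in atTop, a ≤ f ρ L}
  have hfu : ∀ ρ, 0 ≤ ρ → ∀ L, 0 < L → f ρ L ≤ 1 + |B| * ρ := by
    intro ρ hρ L hL
    have hL3 : 0 < L ^ 3 := by positivity
    have h1 := hup L hL ⌊ρ * L ^ 3⌋₊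
    have h2 : (⌊ρ * L ^ 3⌋₊ : ℝ) ≤ ρ * L ^ 3 := Nat.floor_le (by positivity)
    have h3 : B * (⌊ρ * L ^ 3⌋₊ : ℝ) ≤ |B| * (ρ * L ^ 3) :=
      (mul_le_mul_of_nonneg_right (le_abs_self B) (Nat.cast_nonneg _)).trans
        (mul_le_mul_of_nonneg_left h2 (abs_nonneg B))
    change F L ⌊ρ * L ^ 3⌋₊ / L ^ 3 ≤ _
    rw [div_le_iff₀ hL3]
    nlinarith
  have hfl : ∀ ρ, 0 ≤ ρ → ∃ c : ℝ, 0 ≤ c ∧ ∀ L, 3 ≤ L → -c ≤ f ρ L := by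
    intro ρ hρ
    obtain ⟨c, hc0, hc⟩ := thermoAbs_lower F htile ρ hρ
    refine ⟨c, hc0, fun L hL => ?_⟩
    have hL3 : 0 < L ^ 3 := by positivity
    change _ ≤ F L ⌊ρ * L ^ 3⌋₊ / L ^ 3
    rw [le_div_iff₀ hL3]
    exact hc L hL _ (Nat.floor_le (by positivity))
  have hSne : ∀ ρ, 0 ≤ ρ → (S ρ).Nonempty := by
    intro ρ hρ
    obtain ⟨c, -, hc⟩ := hfl ρ hρ
    exact ⟨-c, (eventually_ge_atTop 3).mono hc⟩
  have hSbd : ∀ ρ, 0 ≤ ρ → BddAbove (S ρ) := by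
    intro ρ hρ
    refine ⟨1 + |B| * ρ, fun a ha => ?_⟩
    obtain ⟨L, h1, h2⟩ := (Filter.Eventually.and ha (eventually_gt_atTop (0 : ℝ))).exists
    exact h1.trans (hfu ρ hρ L h2)
  -- the key inequality in terms of `f`
  have hkey : ∀ ρ₁ ρ₂ lam : ℝ, 0 ≤ ρ₁ → 0 ≤ ρ₂ → 0 ≤ lam → lam ≤ 1 →
      ∃ c : ℝ, ∀ L₀ : ℝ, 3 ≤ L₀ →
        ((1 - L₀⁻¹) * (lam * f ρ₁ L₀ + (1 - lam) * f ρ₂ L₀) - L₀⁻¹ * c) * (L₀ / (L₀ + 2)) ^ 3 ≤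
          sSup (S (lam * ρ₁ + (1 - lam) * ρ₂)) := by
    intro ρ₁ ρ₂ lam h₁ h₂ hl0 hl1
    have hρ0 : 0 ≤ lam * ρ₁ + (1 - lam) * ρ₂ := by
      have : 0 ≤ 1 - lam := by linarith
      positivity
    obtain ⟨c, -, hc⟩ := thermoAbs_lower F htile (12 * (lam * ρ₁ + (1 - lam) * ρ₂) + 2)
      (by positivity)
    refine ⟨c, fun L₀ hL₀ => le_of_forall_lt_imp_le_of_dense fun a ha => ?_⟩
    refine le_csSup (hSbd _ hρ0) ?_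
    refine thermoAbs_key F htile ρ₁ ρ₂ lam _ c h₁ h₂ hl0 hl1 rfl hc L₀ hL₀ a (ha.trans_eq ?_)
    have : L₀ ≠ 0 := by linarith
    have : L₀ + 2 ≠ 0 := by linarith
    simp only [f]
    field_simp
  have hlim : ∀ ρ, 0 ≤ ρ → Tendsto (f ρ) atTop (𝓝 (sSup (S ρ))) := by
    intro ρ hρ
    refine tendsto_order.2 ⟨fun a ha => ?_, fun b hb => ?_⟩
    · obtain ⟨a', ha', haa⟩ := exists_lt_of_lt_csSup (hSne ρ hρ) ha
      exact Filter.Eventually.mono ha' fun L hL => haa.trans_le hL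
    · obtain ⟨c, hc⟩ := hkey ρ ρ 1 hρ hρ zero_le_one le_rfl
      obtain ⟨c', hc'0, hc'⟩ := hfl ρ hρ
      simp only [one_mul, sub_self, zero_mul, add_zero] at hc
      set K : ℝ := 1 + |B| * ρ + c' with hK
      have h1 : Tendsto (fun L : ℝ => K * |1 - (1 - L⁻¹) * (L / (L + 2)) ^ 3| +
          L⁻¹ * c * (L / (L + 2)) ^ 3) atTop (𝓝 (K * |1 - (1 - 0) * 1| + 0 * c * 1)) :=
        (((tendsto_const_nhds.sub ((tendsto_const_nhds.sub tendsto_inv_atTop_zero).mul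
          thermoAbs_aux_tendsto)).abs).const_mul K).add
          ((tendsto_inv_atTop_zero.mul_const c).mul thermoAbs_aux_tendsto)
      simp only [sub_zero, mul_one, sub_self, abs_zero, mul_zero, zero_mul, add_zero] at h1
      filter_upwards [h1.eventually (gt_mem_nhds (sub_pos.2 hb)), eventually_ge_atTop 3]
        with L h2 hL
      have h3 := hc L hL
      have h4 : |f ρ L| ≤ K := by
        have u1 := hfu ρ hρ L (by linarith)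
        have u2 := hc' L hL
        have u3 : 0 ≤ |B| * ρ := by positivity
        rw [abs_le]; constructor <;> linarith
      have h5 : f ρ L * (1 - (1 - L⁻¹) * (L / (L + 2)) ^ 3) ≤
          K * |1 - (1 - L⁻¹) * (L / (L + 2)) ^ 3| := by
        refine (le_abs_self _).trans ?_
        rw [abs_mul]
        exact mul_le_mul_of_nonneg_right h4 (abs_nonneg _)
      nlinarith
  refine ⟨fun ρ => -sSup (S ρ), fun ρ hρ => ?_, convex_Ici 0, ?_⟩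
  · simpa only [f, neg_div] using (hlim ρ hρ).neg
  · intro ρ₁ h₁ ρ₂ h₂ a b ha hb hab
    obtain rfl : b = 1 - a := by linarith
    obtain ⟨c, hc⟩ := hkey ρ₁ ρ₂ a h₁ h₂ ha (by linarith)
    have h1 : Tendsto (fun L₀ : ℝ =>
        ((1 - L₀⁻¹) * (a * f ρ₁ L₀ + (1 - a) * f ρ₂ L₀) - L₀⁻¹ * c) * (L₀ / (L₀ + 2)) ^ 3) atTop
        (𝓝 (((1 - 0) * (a * sSup (S ρ₁) + (1 - a) * sSup (S ρ₂)) - 0 * c) * 1)) :=
      (((tendsto_const_nhds.sub tendsto_inv_atTop_zero).mul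
        (((hlim ρ₁ h₁).const_mul a).add ((hlim ρ₂ h₂).const_mul (1 - a)))).sub
        (tendsto_inv_atTop_zero.mul_const c)).mul thermoAbs_aux_tendsto
    have h2 := le_of_tendsto h1 ((eventually_ge_atTop 3).mono hc)
    simp only [smul_eq_mul]
    linarith

end Crest.Agent.R149
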