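import Crest.Agent.R149.Blocks
import Crest.Agent.R149.ThermoAbs

/-! The thermodynamic limit of an admissible potential and the rate calculus `UB`. -/

namespace Crest.Agent.R149

open MeasureTheory Crest.ProbabilityR.Continuum Filter Topology
open scoped ENNReal

theorem Z_tile {φ : ℝ → ℝ} (hφ : Adm φ) {β : ℝ} (hβ : 0 ≤ β) (L₀ : ℝ) (hL₀ : 0 < L₀) (M : ℕ)
    (L : ℝ) (hML : M * (L₀ + 2) ≤ L) (k : ℕ) (hk : k ≤ M ^ 3) (n : Fin k → ℕ) :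
    ∏ b, Z φ L₀ (n b) β ≤ Z φ L (∑ b, n b) β := by
  classical
  have hcard : Fintype.card (Fin k) ≤ Fintype.card (Fin 3 → Fin M) := by simpa using hk
  obtain ⟨g⟩ := Function.Embedding.nonempty_of_card_le hcard
  let v : Fin k → Pt := fun b => WithLp.toLp 2 fun j => (L₀ + 2) * ((g b j : ℕ) : ℝ)
  have hv : ∀ b j, v b j = (L₀ + 2) * ((g b j : ℕ) : ℝ) := fun _ _ => rfl
  have hfar : ∀ b b' (y y' : Pt), y - v b ∈ cube L₀ → y' - v b' ∈ cube L₀ → b ≠ b' →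
      2 ≤ dist y y' := by
    intro b b' y y' hy hy' hbb
    have hg : g b ≠ g b' := fun h => hbb (g.injective h)
    obtain ⟨j, hj⟩ := Function.ne_iff.1 hg
    have h1 := hy j
    have h2 := hy' j
    simp only [PiLp.sub_apply, hv] at h1 h2
    refine le_trans ?_ (abs_sub_le_dist y y' j)
    have hj' : (g b j : ℕ) ≠ (g b' j : ℕ) := fun h => hj (Fin.ext h)
    rcases lt_or_gt_of_ne hj' with h | h
    · have : ((g b j : ℕ) : ℝ) + 1 ≤ ((g b' j : ℕ) : ℝ) := by exact_mod_cast h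
      rw [le_abs]; right
      nlinarith [h1.2, h2.1]
    · have : ((g b' j : ℕ) : ℝ) + 1 ≤ ((g b j : ℕ) : ℝ) := by exact_mod_cast h
      rw [le_abs]; left
      nlinarith [h1.1, h2.2]
  have h := genLB (ι := Σ b : Fin k, Fin (n b)) (B := Fin k) hφ.meas hφ.meas β L₀ L v Sigma.fst 0
    (fun b y hy j => by
      have h1 := hy j
      simp only [PiLp.sub_apply, hv] at h1
      have h2 : ((g b j : ℕ) : ℝ) + 1 ≤ M := by exact_mod_cast (g b j).2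
      have h3 : (0 : ℝ) ≤ ((g b j : ℕ) : ℝ) := Nat.cast_nonneg _
      constructor
      · nlinarith [h1.1]
      · nlinarith [h1.2])
    (fun b b' y hy hy' => by
      by_contra hbb
      have := hfar b b' y y hy hy' hbb
      simp at this
      linarith)
    (fun x hx => by
      rw [en_split φ Sigma.fst x]
      have := cross_nonpos (φ := φ) Sigma.fst x fun i j hij =>
        hφ.neg _ (hfar _ _ _ _ (hx i) (hx j) hij)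
      nlinarith)
  have hcnt : ∀ b, cnt (Sigma.fst : (Σ b : Fin k, Fin (n b)) → Fin k) b = n b := by
    intro b
    rw [← card_fib]
    refine (Fintype.card_congr ?_).trans (Fintype.card_fin _)
    exact (Equiv.sigmaSubtype (β := fun b => Fin (n b)) b)
  simp only [hcnt, Real.exp_zero, ENNReal.ofReal_one, one_mul, Fintype.card_sigma,
    Fintype.card_fin] at h
  exact h

theorem tendsto_floor_div (ρ : ℝ) (hρ : 0 ≤ ρ) :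
    Tendsto (fun L : ℝ => (⌊ρ * L ^ 3⌋₊ : ℝ) / L ^ 3) atTop (𝓝 ρ) := by
  exact (tendsto_nat_floor_mul_div_atTop hρ).comp (tendsto_pow_atTop (by norm_num))

theorem thermo_tile {φ : ℝ → ℝ} (hφ : Adm φ) {β : ℝ} (hβ : 0 ≤ β) :
    Tile fun L N => Real.log (partitionFn φ L N β) := by
  intro L₀ hL₀ M L hL hML k hk n
  have h := Z_tile hφ hβ L₀ hL₀ M L hML k hk n
  simp only [partitionFn_eq hφ.meas]
  have hpos : ∀ b, 0 < (Z φ L₀ (n b) β).toReal := fun b =>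
    ENNReal.toReal_pos (Z_pos hφ.meas hL₀ _ _).ne' (Z_ne_top hφ hL₀.le _ hβ)
  rw [← Real.log_prod (fun b _ => (hpos b).ne')]
  refine Real.log_le_log (Finset.prod_pos fun b _ => hpos b) ?_
  rw [← ENNReal.toReal_prod]
  exact ENNReal.toReal_mono (Z_ne_top hφ hL.le _ hβ) h

theorem thermo_TL {φ : ℝ → ℝ} (hφ : Adm φ) {β : ℝ} (hβ : 0 ≤ β) :
    (∀ ρ, 0 ≤ ρ → Tendsto (fun L : ℝ => -Real.log (partitionFn φ L ⌊ρ * L ^ 3⌋₊ β) / L ^ 3) atTop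
      (𝓝 (fe φ β ρ))) ∧ ConvexOn ℝ (Set.Ici 0) (fe φ β) := by
  obtain ⟨B, hB⟩ := hφ.stab
  obtain ⟨g, hg, hconv⟩ := abstract_TL (fun L N => Real.log (partitionFn φ L N β)) (β * B)
    (fun L hL N => by
      have h := ZR_le_of_exponent φ hL.le N β (β * (B * N)) Set.univ fun x _ => by
        have := mul_le_mul_of_nonneg_left (hB N x) hβ
        linarith
      have hpos : 0 < (Z φ L N β).toReal :=
        ENNReal.toReal_pos (Z_pos hφ.meas hL _ _).ne' (Z_ne_top hφ hL.le _ hβ)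
      rw [partitionFn_eq hφ.meas, Real.log_le_iff_le_exp hpos]
      refine (ENNReal.toReal_le_of_le_ofReal (Real.exp_pos _).le h).trans_eq ?_
      congr 1
      ring)
    (thermo_tile hφ hβ)
  have hfe : ∀ ρ, 0 ≤ ρ → fe φ β ρ = g ρ := fun ρ hρ => (hg ρ hρ).limUnder_eq
  refine ⟨fun ρ hρ => ?_, hconv.congr fun ρ hρ => (hfe ρ hρ).symm⟩
  rw [hfe ρ hρ]
  exact hg ρ hρ

theorem thermo_Z_eq {φ : ℝ → ℝ} (hφ : Adm φ) {β : ℝ} (hβ : 0 ≤ β) {L : ℝ} (hL : 0 < L) (N : ℕ) :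
    Z φ L N β = ENNReal.ofReal (Real.exp (Real.log (partitionFn φ L N β))) := by
  have hpos : 0 < (Z φ L N β).toReal :=
    ENNReal.toReal_pos (Z_pos hφ.meas hL _ _).ne' (Z_ne_top hφ hL.le _ hβ)
  rw [partitionFn_eq hφ.meas, Real.exp_log hpos, ENNReal.ofReal_toReal (Z_ne_top hφ hL.le _ hβ)]

theorem fe_tendsto {φ : ℝ → ℝ} (hφ : Adm φ) {β : ℝ} (hβ : 0 ≤ β) {ρ : ℝ} (hρ : 0 ≤ ρ) :
    Tendsto (fun L : ℝ => -Real.log (partitionFn φ L ⌊ρ * L ^ 3⌋₊ β) / L ^ 3) atTop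
      (𝓝 (fe φ β ρ)) := by
  exact (thermo_TL hφ hβ).1 ρ hρ

theorem fe_convexOn {φ : ℝ → ℝ} (hφ : Adm φ) {β : ℝ} (hβ : 0 ≤ β) :
    ConvexOn ℝ (Set.Ici 0) (fe φ β) := by
  exact (thermo_TL hφ hβ).2

theorem fe_le_of_unit {φ : ℝ → ℝ} (hφ : Adm φ) {β : ℝ} (hβ : 0 ≤ β) {ρ c : ℝ} (hρ : 0 ≤ ρ)
    (hc : 0 ≤ c) (D : ℕ) (hD : 216 * ρ ≤ D)
    (hZ : ∀ n, n ≤ D → ENNReal.ofReal (Real.exp (-c)) ≤ Z φ 1 n β) : fe φ β ρ ≤ c := by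
  refine le_of_tendsto (fe_tendsto hφ hβ hρ) ?_
  filter_upwards [eventually_ge_atTop (3 : ℝ)] with L hL
  have h := abstract_unit_bound _ (thermo_tile hφ hβ) c ρ D hc (fun n hn => by
    have h1 := hZ n hn
    rw [thermo_Z_eq hφ hβ one_pos, ENNReal.ofReal_le_ofReal_iff (Real.exp_pos _).le,
      Real.exp_le_exp] at h1
    exact h1) hρ hD L hL
  have hL3 : 0 < L ^ 3 := by positivity
  rw [div_le_iff₀ hL3]
  linarith

theorem UB_univ_fe {φ : ℝ → ℝ} (hφ : Adm φ) {β : ℝ} (hβ : 0 ≤ β) {ρ : ℝ} (hρ : 0 ≤ ρ) :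
    UB φ β ρ (fun _ _ => Set.univ) (fe φ β ρ) := by
  intro γ' hγ'
  filter_upwards [(fe_tendsto hφ hβ hρ).eventually (lt_mem_nhds hγ'),
    eventually_gt_atTop (0 : ℝ)] with L h hL
  have hL3 : 0 < L ^ 3 := by positivity
  change Z φ L _ β ≤ _
  rw [thermo_Z_eq hφ hβ hL]
  refine ENNReal.ofReal_le_ofReal (Real.exp_le_exp.2 ?_)
  rw [lt_div_iff₀ hL3] at h
  linarith

theorem UB_mono {φ : ℝ → ℝ} {β ρ γ γ' : ℝ} {A A' : Ev} (h : UB φ β ρ A γ) (hγ : γ' ≤ γ)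
    (hA : ∀ᶠ L : ℝ in atTop, box (Fin ⌊ρ * L ^ 3⌋₊) L ∩ A' L ⌊ρ * L ^ 3⌋₊ ⊆ A L ⌊ρ * L ^ 3⌋₊) :
    UB φ β ρ A' γ' := by
  intro γ'' hγ''
  filter_upwards [h γ'' (hγ''.trans_le hγ), hA] with L h1 h2
  exact (ZR_mono φ L _ β h2).trans h1

theorem le_fe_of_cover {φ : ℝ → ℝ} (hφ : Adm φ) {β : ℝ} (hβ : 0 ≤ β) {ρ : ℝ} (hρ : 0 ≤ ρ)
    {κ : Type} (s : Finset κ) (A : κ → Ev) (γ : κ → ℝ) (hA : ∀ i ∈ s, UB φ β ρ (A i) (γ i))
    (hcov : ∀ᶠ L : ℝ in atTop, ∀ x ∈ box (Fin ⌊ρ * L ^ 3⌋₊) L, ∃ i ∈ s, x ∈ A i L ⌊ρ * L ^ 3⌋₊) :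
    ∃ i ∈ s, γ i ≤ fe φ β ρ := by
  by_contra hcon
  push Not at hcon
  obtain ⟨g', hg'1, hg'2⟩ : ∃ g', fe φ β ρ < g' ∧ ∀ i ∈ s, g' < γ i := by
    rcases s.eq_empty_or_nonempty with rfl | hs
    · exact ⟨fe φ β ρ + 1, by linarith, by simp⟩
    · obtain ⟨i, hi, hmin⟩ := s.exists_min_image γ hs
      obtain ⟨g', h1, h2⟩ := exists_between (hcon i hi)
      exact ⟨g', h1, fun j hj => h2.trans_le (hmin j hj)⟩
  obtain ⟨g'', h1, h2⟩ := exists_between hg'1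
  have hall : ∀ᶠ L : ℝ in atTop, ∀ i ∈ s, ZR φ L ⌊ρ * L ^ 3⌋₊ β (A i L ⌊ρ * L ^ 3⌋₊) ≤
      ENNReal.ofReal (Real.exp (-g' * L ^ 3)) :=
    (Filter.eventually_all_finset s).2 fun i hi => hA i hi g' (hg'2 i hi)
  have hbig : Tendsto (fun L : ℝ => Real.exp ((g' - g'') * L ^ 3)) atTop atTop :=
    Real.tendsto_exp_atTop.comp
      ((tendsto_pow_atTop (by norm_num : 3 ≠ 0)).const_mul_atTop (sub_pos.2 h2))
  obtain ⟨L, ⟨⟨⟨e1, e2⟩, e3⟩, e4⟩, hL⟩ := ((((hall.and hcov).and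
    ((fe_tendsto hφ hβ hρ).eventually (gt_mem_nhds h1))).and
    (hbig.eventually_gt_atTop (s.card : ℝ))).and (eventually_gt_atTop (0 : ℝ))).exists
  have hL3 : 0 < L ^ 3 := by positivity
  have f1 := ZR_cover φ L ⌊ρ * L ^ 3⌋₊ β s Set.univ (fun i => A i L ⌊ρ * L ^ 3⌋₊)
    fun x hx => e2 x hx.1
  have f2 : ∑ i ∈ s, ZR φ L ⌊ρ * L ^ 3⌋₊ β (A i L ⌊ρ * L ^ 3⌋₊) ≤
      ENNReal.ofReal (s.card * Real.exp (-g' * L ^ 3)) := by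
    refine (Finset.sum_le_card_nsmul s _ _ e1).trans_eq ?_
    rw [nsmul_eq_mul, ENNReal.ofReal_mul (Nat.cast_nonneg _), ENNReal.ofReal_natCast]
  have f3 : Z φ L ⌊ρ * L ^ 3⌋₊ β ≤ _ := f1.trans f2
  rw [thermo_Z_eq hφ hβ hL, ENNReal.ofReal_le_ofReal_iff (by positivity)] at f3
  rw [div_lt_iff₀ hL3] at e3
  have f4 : Real.exp (-g'' * L ^ 3) <
      Real.exp (Real.log (partitionFn φ L ⌊ρ * L ^ 3⌋₊ β)) := Real.exp_lt_exp.2 (by linarith)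
  have f5 : Real.exp (-g'' * L ^ 3) = Real.exp ((g' - g'') * L ^ 3) * Real.exp (-g' * L ^ 3) := by
    rw [← Real.exp_add]; congr 1; ring
  have f6 := mul_lt_mul_of_pos_right e4 (Real.exp_pos (-g' * L ^ 3))
  linarith

theorem le_fe_of_UB_univ {φ : ℝ → ℝ} (hφ : Adm φ) {β : ℝ} (hβ : 0 ≤ β) {ρ : ℝ} (hρ : 0 ≤ ρ)
    {γ : ℝ} (h : UB φ β ρ (fun _ _ => Set.univ) γ) : γ ≤ fe φ β ρ := by
  obtain ⟨i, -, hi⟩ := le_fe_of_cover hφ hβ hρ ({()} : Finset Unit) (fun _ _ _ => Set.univ)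
    (fun _ => γ) (fun _ _ => h) (Eventually.of_forall fun L x _ => ⟨(), by simp, trivial⟩)
  exact hi

theorem UB_holder {φ : ℝ → ℝ} (hφ : Measurable φ) {ρ β₁ β₂ γ₁ γ₂ θ : ℝ} {A : Ev} (h0 : 0 ≤ θ)
    (h1 : θ ≤ 1) (hA₁ : UB φ β₁ ρ A γ₁) (hA₂ : UB φ β₂ ρ A γ₂) :
    UB φ (θ * β₁ + (1 - θ) * β₂) ρ A (θ * γ₁ + (1 - θ) * γ₂) := by
  intro γ' hγ'
  set δ := θ * γ₁ + (1 - θ) * γ₂ - γ' with hδ
  have hδ0 : 0 < δ := by linarith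
  filter_upwards [hA₁ (γ₁ - δ) (by linarith), hA₂ (γ₂ - δ) (by linarith)] with L e1 e2
  refine (ZR_holder hφ L _ β₁ β₂ θ h0 h1 _).trans ?_
  have h1' : 0 ≤ 1 - θ := by linarith
  refine (mul_le_mul' (ENNReal.rpow_le_rpow e1 h0) (ENNReal.rpow_le_rpow e2 h1')).trans_eq ?_
  rw [ENNReal.ofReal_rpow_of_pos (Real.exp_pos _), ENNReal.ofReal_rpow_of_pos (Real.exp_pos _),
    ← ENNReal.ofReal_mul (by positivity), ← Real.exp_mul, ← Real.exp_mul, ← Real.exp_add]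
  congr 2
  rw [hδ]
  ring

theorem UB_of_pointwise {φ φ' : ℝ → ℝ} (hφ' : Measurable φ') {ρ β β' γ Γ : ℝ} {A : Ev}
    (hU : UB φ' β' ρ (fun _ _ => Set.univ) γ)
    (h : ∀ᶠ L : ℝ in atTop, ∀ x ∈ box (Fin ⌊ρ * L ^ 3⌋₊) L ∩ A L ⌊ρ * L ^ 3⌋₊,
      -β * en φ x ≤ -Γ * L ^ 3 - β' * en φ' x) :
    UB φ β ρ A (γ + Γ) := by
  intro γ' hγ'
  filter_upwards [hU (γ' - Γ) (by linarith), h] with L e1 e2
  refine (ZR_le_of_pointwise hφ' L _ β β' (-Γ * L ^ 3) _ e2).trans ?_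
  refine (mul_le_mul' le_rfl ((ZR_le_Z φ' L _ β' _).trans e1)).trans_eq ?_
  rw [← ENNReal.ofReal_mul (Real.exp_pos _).le, ← Real.exp_add]
  congr 2
  ring

theorem UB_of_exponent {φ : ℝ → ℝ} {ρ β Γ : ℝ} {A : Ev}
    (h : ∀ Γ' < Γ, ∀ᶠ L : ℝ in atTop, ∀ x ∈ box (Fin ⌊ρ * L ^ 3⌋₊) L ∩ A L ⌊ρ * L ^ 3⌋₊,
      -β * en φ x ≤ -Γ' * L ^ 3) :
    UB φ β ρ A (Γ - 1) := by
  intro γ' hγ'
  filter_upwards [h (γ' + 1) (by linarith), eventually_ge_atTop (0 : ℝ)] with L e1 hL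
  refine (ZR_le_of_exponent φ hL _ β _ _ e1).trans_eq ?_
  congr 2
  ring

theorem fe_concaveOn {φ : ℝ → ℝ} (hφ : Adm φ) {ρ : ℝ} (hρ : 0 ≤ ρ) :
    ConcaveOn ℝ (Set.Ioi 0) fun β => fe φ β ρ := by
  refine ⟨convex_Ioi 0, fun β₁ h₁ β₂ h₂ a b ha hb hab => ?_⟩
  obtain rfl : b = 1 - a := by linarith
  have h₁' : 0 ≤ β₁ := le_of_lt h₁
  have h₂' : 0 ≤ β₂ := le_of_lt h₂
  simp only [smul_eq_mul]
  exact le_fe_of_UB_univ hφ (by positivity) hρ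
    (UB_holder hφ.meas ha (by linarith) (UB_univ_fe hφ h₁' hρ) (UB_univ_fe hφ h₂' hρ))

end Crest.Agent.R149
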