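import Crest.Agent.R149.Packing
import Crest.Agent.R149.Thermo

/-! Upper bound on the partition function of the core potential (Caro-Wei bound and
an entropy bound for tightly bound particles). -/

namespace Crest.Agent.R149

open MeasureTheory Crest.ProbabilityR.Continuum Filter Topology
open scoped ENNReal

theorem card_perm_min {N : ℕ} (S : Finset (Fin N)) {i : Fin N} (hi : i ∈ S) :
    (Finset.univ.filter fun π : Equiv.Perm (Fin N) => ∀ j ∈ S, π i ≤ π j).card * S.card =
      N.factorial := by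
  have h1 : ∀ k ∈ S,
      (Finset.univ.filter fun π : Equiv.Perm (Fin N) => ∀ j ∈ S, π i ≤ π j).card =
      (Finset.univ.filter fun π : Equiv.Perm (Fin N) => ∀ j ∈ S, π k ≤ π j).card := by
    intro k hk
    have hsw : ∀ j ∈ S, Equiv.swap i k j ∈ S := by
      intro j hj
      rw [Equiv.swap_apply_def]
      split_ifs <;> assumption
    refine Finset.card_bij' (fun π _ => π * Equiv.swap i k) (fun π _ => π * Equiv.swap i k)
      ?_ ?_ ?_ ?_
    · intro π hπ
      simp only [Finset.mem_filter, Finset.mem_univ, true_and] at hπ ⊢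
      intro j hj
      simpa using hπ _ (hsw j hj)
    · intro π hπ
      simp only [Finset.mem_filter, Finset.mem_univ, true_and] at hπ ⊢
      intro j hj
      simpa using hπ _ (hsw j hj)
    · intro π _
      simp [mul_assoc]
    · intro π _
      simp [mul_assoc]
  have h2 : ∑ k ∈ S,
      (Finset.univ.filter fun π : Equiv.Perm (Fin N) => ∀ j ∈ S, π k ≤ π j).card =
      N.factorial := by
    simp_rw [Finset.card_filter]
    rw [Finset.sum_comm]
    have h3 : ∀ π : Equiv.Perm (Fin N),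
        (∑ k ∈ S, if ∀ j ∈ S, π k ≤ π j then 1 else 0) = 1 := by
      intro π
      obtain ⟨k, hk, hmin⟩ := Finset.exists_min_image S (fun j => π j) ⟨i, hi⟩
      rw [Finset.sum_eq_single k]
      · rw [if_pos hmin]
      · intro k' hk' hne
        rw [if_neg]
        intro h
        exact hne (π.injective (le_antisymm (h k hk) (hmin k' hk')))
      · intro h
        exact absurd hk h
    simp_rw [h3]
    simp [Fintype.card_perm]
  rw [← h2, mul_comm, ← smul_eq_mul, ← Finset.sum_const]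
  exact Finset.sum_congr rfl h1

theorem refLower_inv_card {N : ℕ} (S : Finset (Fin N)) {i : Fin N} (hi : i ∈ S) :
    (1 : ℝ) / (S.card : ℝ) = ∑ π : Equiv.Perm (Fin N),
      (1 / (N.factorial : ℝ)) * (if ∀ j ∈ S, π i ≤ π j then 1 else 0) := by
  have h := card_perm_min S hi
  have hS : (0 : ℝ) < S.card := by exact_mod_cast Finset.card_pos.2 ⟨i, hi⟩
  have hN : (0 : ℝ) < N.factorial := by exact_mod_cast Nat.factorial_pos N
  rw [← Finset.mul_sum, Finset.sum_boole]
  have h' : ((Finset.univ.filter fun π : Equiv.Perm (Fin N) => ∀ j ∈ S, π i ≤ π j).card : ℝ) *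
      S.card = N.factorial := by exact_mod_cast h
  field_simp
  linarith

theorem caroWei {d : ℝ} (hd : 0 < d) {L : ℝ} {N : ℕ} {x : Fin N → Pt} (hx : x ∈ box (Fin N) L) :
    ∑ i, (1 : ℝ) / ((Finset.univ.filter fun j => dist (x i) (x j) < d).card : ℝ) ≤
      sepNum d L := by
  classical
  have hself : ∀ i, i ∈ Finset.univ.filter fun j => dist (x i) (x j) < d := by
    intro i
    simp [hd]
  have hN : (0 : ℝ) < N.factorial := by exact_mod_cast Nat.factorial_pos N
  simp_rw [fun i => refLower_inv_card _ (hself i)]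
  rw [Finset.sum_comm]
  have h1 : ∀ π : Equiv.Perm (Fin N), (∑ i, (1 / (N.factorial : ℝ)) *
      (if ∀ j ∈ Finset.univ.filter fun j => dist (x i) (x j) < d, π i ≤ π j then 1 else 0)) ≤
      (1 / (N.factorial : ℝ)) * sepNum d L := by
    intro π
    rw [← Finset.mul_sum, Finset.sum_boole]
    gcongr
    set T := Finset.univ.filter fun i =>
      ∀ j ∈ Finset.univ.filter fun j => dist (x i) (x j) < d, π i ≤ π j with hT
    have hsep : ∀ i ∈ T, ∀ i' ∈ T, i ≠ i' → d ≤ dist (x i) (x i') := by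
      intro i hi i' hi' hne
      by_contra hlt
      push Not at hlt
      have a1 := (Finset.mem_filter.1 hi).2 i' (by simpa using hlt)
      have a2 := (Finset.mem_filter.1 hi').2 i (by simpa [dist_comm] using hlt)
      exact hne (π.injective (le_antisymm a1 a2))
    have hinj : Set.InjOn x T := by
      intro i hi i' hi' h
      by_contra hne
      have := hsep i hi i' hi' hne
      rw [h, dist_self] at this
      linarith
    rw [← Finset.card_image_of_injOn hinj]
    refine card_le_sepNum hd _ ?_ ?_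
    · intro y hy
      obtain ⟨i, _, rfl⟩ := Finset.mem_image.1 hy
      exact hx i (Set.mem_univ _)
    · intro y hy y' hy' hne
      obtain ⟨i, hi, rfl⟩ := Finset.mem_image.1 hy
      obtain ⟨i', hi', rfl⟩ := Finset.mem_image.1 hy'
      exact hsep i hi i' hi' fun h => hne (by rw [h])
  refine (Finset.sum_le_sum fun π _ => h1 π).trans (le_of_eq ?_)
  rw [Finset.sum_const, Finset.card_univ, Fintype.card_perm, Fintype.card_fin, nsmul_eq_mul]
  field_simp

/-- The weight used to bound the entropy of tightly bound particles. -/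
noncomputable def refLowerG (ε σ : ℝ) {N : ℕ} (y : Fin N → Pt) : ℝ≥0∞ :=
  ∏ i, (1 + ENNReal.ofReal (Real.exp σ) *
    ∑ j, if i < j ∧ dist (y i) (y j) < ε then 1 else 0)

theorem refLowerG_measurable (ε σ : ℝ) (N : ℕ) :
    Measurable fun y : Fin N → Pt => refLowerG ε σ y := by
  unfold refLowerG
  refine Finset.measurable_prod _ fun i _ => Measurable.const_add (Measurable.const_mul
    (Finset.measurable_sum _ fun j _ => ?_) _) _
  refine Measurable.ite ?_ measurable_const measurable_const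
  by_cases h : i < j
  · simp only [h, true_and]
    exact measurableSet_lt ((measurable_pi_apply i).dist (measurable_pi_apply j)) measurable_const
  · simp [h]

theorem refLowerG_cons (ε σ : ℝ) {N : ℕ} (z : Pt) (y : Fin N → Pt) :
    refLowerG ε σ (Fin.cons z y : Fin (N + 1) → Pt) =
      (1 + ENNReal.ofReal (Real.exp σ) * ∑ j, if dist z (y j) < ε then 1 else 0) *
        refLowerG ε σ y := by
  unfold refLowerG
  rw [Fin.prod_univ_succ]
  simp only [Fin.sum_univ_succ, Fin.cons_zero, Fin.cons_succ, lt_irrefl, false_and, if_false,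
    zero_add, Fin.succ_pos, true_and, Fin.not_lt_zero, Fin.succ_lt_succ_iff]

theorem refLower_lintegral_succ {N : ℕ} (L : ℝ) (F : (Fin (N + 1) → Pt) → ℝ≥0∞)
    (hF : Measurable F) :
    ∫⁻ x in box (Fin (N + 1)) L, F x =
      ∫⁻ y in box (Fin N) L, ∫⁻ z in cube L, F (Fin.cons z y) := by
  unfold box
  rw [volume_pi, volume_pi, Measure.restrict_pi_pi, Measure.restrict_pi_pi,
    ← ((measurePreserving_piFinSuccAbove
      (fun _ : Fin (N + 1) => (volume : Measure Pt).restrict (cube L)) 0).symm).lintegral_comp_emb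
      (MeasurableEquiv.measurableEmbedding _), lintegral_prod_symm']
  · refine lintegral_congr fun y => lintegral_congr fun z => ?_
    congr 1
    simp [MeasurableEquiv.piFinSuccAbove_symm_apply, Fin.insertNthEquiv]
  · exact hF.comp (MeasurableEquiv.measurable _)

theorem refLower_ball {ε σ : ℝ} (hε : 0 < ε) (h : ε ^ 3 * Real.exp σ ≤ 1) (L : ℝ) (w : Pt) :
    ENNReal.ofReal (Real.exp σ) * ∫⁻ z in cube L, (if dist z w < ε then 1 else 0 : ℝ≥0∞) ≤ 8 := by
  have h1 : ∫⁻ z in cube L, (if dist z w < ε then 1 else 0 : ℝ≥0∞) ≤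
      volume (Metric.ball w ε) := by
    refine (setLIntegral_le_lintegral _ _).trans (le_of_eq ?_)
    rw [← lintegral_indicator_one Metric.isOpen_ball.measurableSet]
    refine lintegral_congr fun z => ?_
    by_cases hz : dist z w < ε
    · rw [if_pos hz, Set.indicator_of_mem (Metric.mem_ball.2 hz), Pi.one_apply]
    · rw [if_neg hz, Set.indicator_of_notMem (fun h => hz (Metric.mem_ball.1 h))]
  refine (mul_le_mul_right h1 _).trans ?_
  rw [EuclideanSpace.volume_ball_fin_three, ← ENNReal.ofReal_pow hε.le,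
    ← ENNReal.ofReal_mul (by positivity), ← ENNReal.ofReal_mul (by positivity),
    show (8 : ℝ≥0∞) = ENNReal.ofReal 8 by simp]
  refine ENNReal.ofReal_le_ofReal ?_
  have h2 : Real.pi * 4 / 3 ≤ 8 := by linarith [Real.pi_le_four]
  calc Real.exp σ * (ε ^ 3 * (Real.pi * 4 / 3))
      = (ε ^ 3 * Real.exp σ) * (Real.pi * 4 / 3) := by ring
    _ ≤ 1 * 8 := by gcongr
    _ = 8 := by ring

theorem refLowerG_lintegral {ε σ L : ℝ} (hε : 0 < ε) (h : ε ^ 3 * Real.exp σ ≤ 1) (hL : 0 ≤ L)
    (N₀ : ℕ) : ∀ N : ℕ, N ≤ N₀ →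
      ∫⁻ y in box (Fin N) L, refLowerG ε σ y ≤ ENNReal.ofReal (L ^ 3 + 8 * N₀) ^ N := by
  intro N
  induction N with
  | zero =>
    intro _
    have h1 : box (Fin 0) L = Set.univ := by
      ext x
      simp [box]
    simp [h1, refLowerG, volume_pi]
  | succ N ih =>
    intro hN
    rw [refLower_lintegral_succ L _ (refLowerG_measurable ε σ _)]
    have hz : ∀ y : Fin N → Pt, ∫⁻ z in cube L, refLowerG ε σ (Fin.cons z y : Fin (N + 1) → Pt) ≤
        ENNReal.ofReal (L ^ 3 + 8 * N₀) * refLowerG ε σ y := by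
      intro y
      have hm : ∀ j, Measurable fun z : Pt => (if dist z (y j) < ε then 1 else 0 : ℝ≥0∞) := by
        intro j
        exact Measurable.ite (measurableSet_lt (measurable_id.dist measurable_const)
          measurable_const) measurable_const measurable_const
      have hms : Measurable fun z : Pt => ∑ j, (if dist z (y j) < ε then 1 else 0 : ℝ≥0∞) :=
        Finset.measurable_sum _ fun j _ => hm j
      simp_rw [refLowerG_cons]
      rw [lintegral_mul_const _ ((hms.const_mul _).const_add _),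
        lintegral_add_left measurable_const, lintegral_const_mul _ hms,
        lintegral_finsetSum _ fun j _ => hm j, Finset.mul_sum]
      gcongr
      have h8 : ∑ j : Fin N, ENNReal.ofReal (Real.exp σ) *
          ∫⁻ z in cube L, (if dist z (y j) < ε then 1 else 0 : ℝ≥0∞) ≤ ∑ _j : Fin N, 8 :=
        Finset.sum_le_sum fun j _ => refLower_ball hε h L (y j)
      rw [setLIntegral_const, volume_cube hL, one_mul,
        ENNReal.ofReal_add (by positivity) (by positivity)]
      gcongr
      refine h8.trans ?_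
      rw [Finset.sum_const, Finset.card_univ, Fintype.card_fin, nsmul_eq_mul,
        ENNReal.ofReal_mul (by norm_num), ENNReal.ofReal_natCast, mul_comm]
      have : (N : ℝ≥0∞) ≤ N₀ := by exact_mod_cast (by omega : N ≤ N₀)
      gcongr
      simp
    refine (lintegral_mono hz).trans ?_
    rw [lintegral_const_mul _ (refLowerG_measurable ε σ _), pow_succ' _ N]
    exact mul_le_mul_right (ih (by omega)) _

theorem refLower_pointwise {ε σ : ℝ} (hε : 0 < ε) (_hσ : 0 ≤ σ) {N : ℕ} (x : Fin N → Pt) :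
    ENNReal.ofReal (Real.exp (σ * ∑ i,
        (1 - (1 : ℝ) / ((Finset.univ.filter fun j => dist (x i) (x j) < ε).card : ℝ)))) ≤
      ∑ π : Equiv.Perm (Fin N), ENNReal.ofReal (1 / (N.factorial : ℝ)) *
        refLowerG ε σ (fun i => x ((π.trans Fin.revPerm).symm i)) := by
  have hself : ∀ i, i ∈ Finset.univ.filter fun j => dist (x i) (x j) < ε := by
    intro i
    simp [hε]
  have hN : (0 : ℝ) < N.factorial := by exact_mod_cast Nat.factorial_pos N
  have hw : ∑ _π : Equiv.Perm (Fin N), (1 / (N.factorial : ℝ)) = 1 := by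
    rw [Finset.sum_const, Finset.card_univ, Fintype.card_perm, Fintype.card_fin, nsmul_eq_mul]
    field_simp
  set a : Equiv.Perm (Fin N) → Fin N → ℝ := fun π i =>
    1 - if ∀ j ∈ Finset.univ.filter fun j => dist (x i) (x j) < ε, π i ≤ π j then 1 else 0
    with ha
  have h1 : σ * ∑ i,
      (1 - (1 : ℝ) / ((Finset.univ.filter fun j => dist (x i) (x j) < ε).card : ℝ)) =
      ∑ π : Equiv.Perm (Fin N), (1 / (N.factorial : ℝ)) • (σ * ∑ i, a π i) := by
    have h2 : ∀ i, (1 - (1 : ℝ) / ((Finset.univ.filter fun j => dist (x i) (x j) < ε).card : ℝ)) =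
        ∑ π : Equiv.Perm (Fin N), (1 / (N.factorial : ℝ)) * a π i := by
      intro i
      rw [refLower_inv_card _ (hself i)]
      simp only [ha, mul_sub, mul_one, Finset.sum_sub_distrib, hw]
    simp_rw [h2]
    rw [Finset.sum_comm, Finset.mul_sum]
    refine Finset.sum_congr rfl fun π _ => ?_
    rw [smul_eq_mul, ← Finset.mul_sum]
    ring
  have h3 := convexOn_exp.map_sum_le (t := Finset.univ)
    (w := fun _ : Equiv.Perm (Fin N) => 1 / (N.factorial : ℝ))
    (p := fun π => σ * ∑ i, a π i) (fun _ _ => by positivity) hw (fun _ _ => Set.mem_univ _)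
  rw [h1]
  refine (ENNReal.ofReal_le_ofReal h3).trans ?_
  rw [ENNReal.ofReal_sum_of_nonneg fun π _ => by rw [smul_eq_mul]; positivity]
  refine Finset.sum_le_sum fun π _ => ?_
  rw [smul_eq_mul, ENNReal.ofReal_mul (by positivity)]
  gcongr
  rw [Finset.mul_sum, Real.exp_sum, ENNReal.ofReal_prod_of_nonneg fun _ _ => (Real.exp_pos _).le]
  unfold refLowerG
  conv_rhs => rw [← Equiv.prod_comp (π.trans Fin.revPerm)]
  refine Finset.prod_le_prod' fun i _ => ?_
  simp only [Equiv.symm_apply_apply]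
  by_cases hc : ∀ j ∈ Finset.univ.filter fun j => dist (x i) (x j) < ε, π i ≤ π j
  · have : a π i = 0 := by simp only [ha]; rw [if_pos hc]; ring
    rw [this]
    simp
  · have : a π i = 1 := by simp only [ha]; rw [if_neg hc]; ring
    rw [this, mul_one]
    push Not at hc
    obtain ⟨j, hj, hlt⟩ := hc
    have hj' : dist (x i) (x j) < ε := (Finset.mem_filter.1 hj).2
    refine le_add_left ?_
    have h4 : (1 : ℝ≥0∞) ≤ ∑ j', if (π.trans Fin.revPerm) i < j' ∧
        dist (x i) (x ((π.trans Fin.revPerm).symm j')) < ε then 1 else 0 := by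
      refine le_trans (le_of_eq ?_) (Finset.single_le_sum (f := fun j' =>
        (if (π.trans Fin.revPerm) i < j' ∧
          dist (x i) (x ((π.trans Fin.revPerm).symm j')) < ε then 1 else 0 : ℝ≥0∞))
        (fun _ _ => zero_le) (Finset.mem_univ ((π.trans Fin.revPerm) j)))
      rw [if_pos]
      refine ⟨?_, by simpa using hj'⟩
      simpa using hlt
    calc ENNReal.ofReal (Real.exp σ) = ENNReal.ofReal (Real.exp σ) * 1 := (mul_one _).symm
      _ ≤ _ := by gcongr

theorem entropy_bound {ε σ L : ℝ} (hε : 0 < ε) (hσ : 0 ≤ σ) (h : ε ^ 3 * Real.exp σ ≤ 1)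
    (hL : 0 ≤ L) (N : ℕ) :
    (∫⁻ x in box (Fin N) L, ENNReal.ofReal (Real.exp (σ * ∑ i,
        (1 - (1 : ℝ) / ((Finset.univ.filter fun j => dist (x i) (x j) < ε).card : ℝ))))) /
      (N.factorial : ℝ≥0∞) ≤ ENNReal.ofReal (Real.exp (L ^ 3 + 8 * N)) := by
  have hN : (0 : ℝ) < N.factorial := by exact_mod_cast Nat.factorial_pos N
  have h1 : (∫⁻ x in box (Fin N) L, ENNReal.ofReal (Real.exp (σ * ∑ i,
        (1 - (1 : ℝ) / ((Finset.univ.filter fun j => dist (x i) (x j) < ε).card : ℝ))))) ≤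
      ENNReal.ofReal (L ^ 3 + 8 * N) ^ N := by
    refine (lintegral_mono fun x => refLower_pointwise hε hσ x).trans ?_
    have hm : ∀ π : Equiv.Perm (Fin N), Measurable fun x : Fin N → Pt =>
        refLowerG ε σ (fun i => x ((π.trans Fin.revPerm).symm i)) := fun π =>
      (refLowerG_measurable ε σ N).comp (measurable_pi_lambda _ fun i => measurable_pi_apply _)
    rw [lintegral_finsetSum _ fun π _ => (hm π).const_mul _]
    simp_rw [fun π => lintegral_const_mul (μ := volume.restrict (box (Fin N) L))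
      (ENNReal.ofReal (1 / (N.factorial : ℝ))) (hm π),
      lintegral_box_comp_equiv _ L (fun y : Fin N → Pt => refLowerG ε σ y)]
    rw [Finset.sum_const, Finset.card_univ, Fintype.card_perm, Fintype.card_fin, nsmul_eq_mul,
      ← mul_assoc, ← ENNReal.ofReal_natCast, ← ENNReal.ofReal_mul hN.le, mul_one_div_cancel hN.ne',
      ENNReal.ofReal_one, one_mul]
    exact refLowerG_lintegral hε h hL N N le_rfl
  have hL3 : 0 ≤ L ^ 3 + 8 * N := by positivity
  refine (ENNReal.div_le_div_right h1 _).trans ?_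
  rw [← ENNReal.ofReal_pow hL3, ← ENNReal.ofReal_natCast, ← ENNReal.ofReal_div_of_pos hN]
  exact ENNReal.ofReal_le_ofReal (Real.pow_div_factorial_le_exp _ hL3 N)

theorem refLower_particle {β μ π : ℝ} (hline : AdmLine β μ π) {k s : ℕ} (hs : 1 ≤ s)
    (hsk : s ≤ k) :
    μ - π * (1 / (k : ℝ)) ≤ β / 2 * (11 * ((s : ℝ) - 1) + 43 * ((k : ℝ) - s)) +
      50 * (1 - 1 / (s : ℝ)) := by
  have hk1 : 1 ≤ k := hs.trans hsk
  have hk : (0 : ℝ) < k := by exact_mod_cast hk1
  have hs' : (1 : ℝ) ≤ s := by exact_mod_cast hs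
  have hsk' : (s : ℝ) ≤ k := by exact_mod_cast hsk
  obtain ⟨h1, h2⟩ := hline.2 k hk1
  have h3 : μ * k - π ≤ β / 2 * (11 * ((s : ℝ) - 1) + 43 * ((k : ℝ) - s)) * k +
      50 * ((s : ℝ) - 1) := by
    rcases eq_or_lt_of_le hk1 with h | h
    · have hs1 : s = 1 := by omega
      subst h
      subst hs1
      simpa using h1
    · have hk2 : (0 : ℝ) < (k : ℝ) - 1 := by
        have : (1 : ℝ) < k := by exact_mod_cast h
        linarith
      refine le_of_mul_le_mul_left ?_ hk2
      have a1 := mul_le_mul_of_nonneg_left h1 (sub_nonneg.2 hsk')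
      have a2 := mul_le_mul_of_nonneg_left h2 (sub_nonneg.2 hs')
      nlinarith [a1, a2]
  have h4 : (s : ℝ) - 1 ≤ (1 - 1 / (s : ℝ)) * k := by
    have hs0 : (0 : ℝ) < s := by linarith
    have : (1 - 1 / (s : ℝ)) * s = s - 1 := by field_simp
    have h5 : 0 ≤ 1 - 1 / (s : ℝ) := by
      rw [sub_nonneg, div_le_one hs0]
      exact hs'
    nlinarith [mul_le_mul_of_nonneg_left hsk' h5]
  refine le_of_mul_le_mul_right ?_ hk
  have : (μ - π * (1 / (k : ℝ))) * k = μ * k - π := by field_simp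
  rw [this]
  nlinarith

theorem refLower_row {K ε d₂ : ℝ} {φ₀ : ℝ → ℝ} (hcore : IsCore K ε d₂ φ₀) (hε : 0 < ε)
    (hε1 : ε ≤ 1) {N : ℕ} (x : Fin N → Pt) (i : Fin N) :
    K * (11 * (((Finset.univ.filter fun j => dist (x i) (x j) < ε).card : ℝ) - 1) +
      43 * (((Finset.univ.filter fun j => dist (x i) (x j) < 9 / 5).card : ℝ) -
        ((Finset.univ.filter fun j => dist (x i) (x j) < ε).card : ℝ))) ≤
      ∑ j, if i = j then 0 else φ₀ (dist (x i) (x j)) := by
  have h1 : (∑ j, if dist (x i) (x j) < ε then (1 : ℝ) else 0) - 1 =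
      ∑ j, ((if dist (x i) (x j) < ε then (1 : ℝ) else 0) - if i = j then 1 else 0) := by
    rw [Finset.sum_sub_distrib]
    simp
  rw [← Finset.sum_boole, ← Finset.sum_boole, h1, ← Finset.sum_sub_distrib, Finset.mul_sum,
    Finset.mul_sum, ← Finset.sum_add_distrib, Finset.mul_sum]
  refine Finset.sum_le_sum fun j _ => ?_
  by_cases hij : i = j
  · subst hij
    simp [hε]
  · have hd : 0 ≤ dist (x i) (x j) := dist_nonneg
    by_cases h1 : dist (x i) (x j) < ε
    · have h2 : dist (x i) (x j) < 9 / 5 := by linarith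
      have := hcore.lo₁ _ hd h2
      simp only [hij, h1, h2, if_true, if_false]
      linarith
    · by_cases h2 : dist (x i) (x j) < 9 / 5
      · have := hcore.lo₂ _ (not_lt.1 h1) h2
        simp only [hij, h1, h2, if_true, if_false]
        linarith
      · have := hcore.nonneg (dist (x i) (x j))
        simp only [hij, h1, h2, if_false]
        linarith

theorem ref_lower {K ε d₂ : ℝ} {φ₀ : ℝ → ℝ} (hcore : IsCore K ε d₂ φ₀) (hK : 0 ≤ K) (hε : 0 < ε)
    (hε1 : ε ≤ 1) (hσ : ε ^ 3 * Real.exp (50 * K) ≤ 1) {β μ π : ℝ} (hβ : 0 ≤ β)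
    (hline : AdmLine β μ π) {L : ℝ} (hL : 0 ≤ L) (N : ℕ) :
    Z φ₀ L N β ≤ ENNReal.ofReal
      (Real.exp (-(K * μ * N) + K * π * sepNum (9 / 5) L + L ^ 3 + 8 * N)) := by
  have hpt : ∀ x ∈ box (Fin N) L, boltz φ₀ β x ≤
      ENNReal.ofReal (Real.exp (-(K * μ * N) + K * π * sepNum (9 / 5) L)) *
        ENNReal.ofReal (Real.exp (50 * K * ∑ i,
          (1 - (1 : ℝ) / ((Finset.univ.filter fun j => dist (x i) (x j) < ε).card : ℝ)))) := by
    intro x hx
    unfold boltz
    rw [← ENNReal.ofReal_mul (Real.exp_pos _).le, ← Real.exp_add]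
    refine ENNReal.ofReal_le_ofReal (Real.exp_le_exp.2 ?_)
    have hcw := caroWei (d := 9 / 5) (by norm_num) hx
    have hrow : ∀ i, -(β / 2 * ∑ j, if i = j then 0 else φ₀ (dist (x i) (x j))) ≤
        -(K * μ) + K * π *
          ((1 : ℝ) / ((Finset.univ.filter fun j => dist (x i) (x j) < 9 / 5).card : ℝ)) +
        50 * K * (1 - (1 : ℝ) / ((Finset.univ.filter fun j => dist (x i) (x j) < ε).card : ℝ)) := by
      intro i
      have hs : 1 ≤ (Finset.univ.filter fun j => dist (x i) (x j) < ε).card :=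
        Finset.card_pos.2 ⟨i, by simp [hε]⟩
      have hsk : (Finset.univ.filter fun j => dist (x i) (x j) < ε).card ≤
          (Finset.univ.filter fun j => dist (x i) (x j) < 9 / 5).card := by
        refine Finset.card_le_card fun j hj => ?_
        simp only [Finset.mem_filter, Finset.mem_univ, true_and] at hj ⊢
        linarith
      have a1 := mul_le_mul_of_nonneg_left (refLower_particle hline hs hsk) hK
      have a2 := mul_le_mul_of_nonneg_left (refLower_row hcore hε hε1 x i)
        (by positivity : 0 ≤ β / 2)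
      nlinarith [a1, a2]
    have hsum := Finset.sum_le_sum fun i (_ : i ∈ Finset.univ) => hrow i
    rw [Finset.sum_add_distrib, Finset.sum_add_distrib, Finset.sum_neg_distrib,
      ← Finset.mul_sum, ← Finset.mul_sum, ← Finset.mul_sum, Finset.sum_const, Finset.card_univ,
      Fintype.card_fin, nsmul_eq_mul] at hsum
    have hKπ : 0 ≤ K * π := mul_nonneg hK hline.1
    have a3 := mul_le_mul_of_nonneg_left hcw hKπ
    unfold en
    nlinarith [a3, hsum]
  unfold Z ZR
  rw [Set.inter_univ]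
  refine (ENNReal.div_le_div_right (setLIntegral_mono' (measurableSet_box L) hpt) _).trans ?_
  rw [lintegral_const_mul' _ _ ENNReal.ofReal_ne_top, mul_div_assoc,
    add_assoc (-(K * μ * N) + K * π * sepNum (9 / 5) L), Real.exp_add _ (L ^ 3 + 8 * N),
    ENNReal.ofReal_mul (Real.exp_pos _).le]
  gcongr
  exact entropy_bound hε (by positivity) hσ hL N

theorem ref_UB {K ε d₂ : ℝ} {φ₀ : ℝ → ℝ} (hcore : IsCore K ε d₂ φ₀) (hK : 0 ≤ K) (hε : 0 < ε)
    (hε1 : ε ≤ 1) (hσ : ε ^ 3 * Real.exp (50 * K) ≤ 1) {β μ π : ℝ} (hβ : 0 ≤ β)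
    (hline : AdmLine β μ π) {ρ : ℝ} (hρ : 0 ≤ ρ) {m : ℝ} (hm : 0 < m) :
    UB φ₀ β ρ (fun _ _ => Set.univ)
      (K * μ * ρ - K * π * (sepNum (9 / 5) m / m ^ 3) - 1 - 8 * ρ) := by
  intro γ' hγ'
  have hKπ : 0 ≤ K * π := mul_nonneg hK hline.1
  have hfl := tendsto_floor_div ρ hρ
  have hinv : Tendsto (fun L : ℝ => 1 / m + L⁻¹) atTop (𝓝 (1 / m + 0)) :=
    tendsto_inv_atTop_zero.const_add _
  have hlim : Tendsto (fun L : ℝ => -(K * μ * ((⌊ρ * L ^ 3⌋₊ : ℝ) / L ^ 3)) +
      K * π * ((1 / m + L⁻¹) ^ 3 * sepNum (9 / 5) m) + 1 + 8 * ((⌊ρ * L ^ 3⌋₊ : ℝ) / L ^ 3))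
      atTop (𝓝 (-(K * μ * ρ) + K * π * ((1 / m + 0) ^ 3 * sepNum (9 / 5) m) + 1 + 8 * ρ)) :=
    ((((hfl.const_mul _).neg).add (((hinv.pow 3).mul_const _).const_mul _)).add_const _).add
      (hfl.const_mul _)
  have hlt : -(K * μ * ρ) + K * π * ((1 / m + 0) ^ 3 * sepNum (9 / 5) m) + 1 + 8 * ρ < -γ' := by
    have : (1 / m + 0) ^ 3 * (sepNum (9 / 5) m : ℝ) = sepNum (9 / 5) m / m ^ 3 := by
      field_simp
      ring
    rw [this]
    linarith
  filter_upwards [hlim.eventually (gt_mem_nhds hlt), eventually_gt_atTop (0 : ℝ)] with L h1 hL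
  refine (ref_lower hcore hK hε hε1 hσ hβ hline hL.le _).trans
    (ENNReal.ofReal_le_ofReal (Real.exp_le_exp.2 ?_))
  have hL3 : 0 < L ^ 3 := by positivity
  have h2 := mul_le_mul_of_nonneg_left
    (sepNum_subadd (d := 9 / 5) (by norm_num) hm hL.le) hKπ
  have h3 := mul_le_mul_of_nonneg_right h1.le hL3.le
  have h4 : (-(K * μ * ((⌊ρ * L ^ 3⌋₊ : ℝ) / L ^ 3)) +
      K * π * ((1 / m + L⁻¹) ^ 3 * sepNum (9 / 5) m) + 1 + 8 * ((⌊ρ * L ^ 3⌋₊ : ℝ) / L ^ 3)) *
      L ^ 3 = -(K * μ * (⌊ρ * L ^ 3⌋₊ : ℝ)) + K * π * ((L / m + 1) ^ 3 * sepNum (9 / 5) m) +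
        L ^ 3 + 8 * (⌊ρ * L ^ 3⌋₊ : ℝ) := by
    field_simp
  rw [h4] at h3
  linarith

end Crest.Agent.R149
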