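import Crest.Agent.R149.Packing
import Crest.Agent.R149.Blocks

/-! Lower bounds on the partition function of the core potential: clusters on the sites of
an optimal packing. -/

namespace Crest.Agent.R149

open MeasureTheory Crest.ProbabilityR.Continuum Filter Topology
open scoped ENNReal

theorem refUpper_of_set {φ : ℝ → ℝ} (hφ : Measurable φ) {L β c V : ℝ} (hβ : 0 ≤ β) {k : ℕ}
    (A : Set (Fin k → Pt)) (hA : A ⊆ box (Fin k) L)
    (hc : ∀ x ∈ A, ∀ i j, i ≠ j → φ (dist (x i) (x j)) ≤ c)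
    (hV : ENNReal.ofReal V ≤ volume A) :
    ENNReal.ofReal (Real.exp (-(β * (c * (k * (k - 1)) / 2))) * (V / k.factorial)) ≤
      Z φ L k β := by
  have hk : (0 : ℝ) < k.factorial := by exact_mod_cast Nat.factorial_pos k
  have hen : ∀ x ∈ A, en φ x ≤ c * (k * (k - 1)) / 2 := by
    intro x hx
    unfold en
    gcongr
    have h1 : ∀ i : Fin k, (∑ j, if i = j then 0 else φ (dist (x i) (x j))) ≤ c * (k - 1) := by
      intro i
      have h2 : (∑ j : Fin k, (c - if i = j then c else 0)) = c * (k - 1) := by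
        rw [Finset.sum_sub_distrib]
        simp
        ring
      rw [← h2]
      refine Finset.sum_le_sum fun j _ => ?_
      split_ifs with h
      · simp
      · simpa using hc x hx i j h
    refine (Finset.sum_le_sum fun i _ => h1 i).trans (le_of_eq ?_)
    simp
    ring
  unfold Z ZR
  rw [Set.inter_univ, ← mul_div_assoc, ENNReal.ofReal_div_of_pos hk, ENNReal.ofReal_natCast,
    ENNReal.ofReal_mul (Real.exp_pos _).le]
  refine ENNReal.div_le_div_right ?_ _
  calc ENNReal.ofReal (Real.exp (-(β * (c * (k * (k - 1)) / 2)))) * ENNReal.ofReal V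
      ≤ ENNReal.ofReal (Real.exp (-(β * (c * (k * (k - 1)) / 2)))) * volume A := by gcongr
    _ = ∫⁻ _ in A, ENNReal.ofReal (Real.exp (-(β * (c * (k * (k - 1)) / 2)))) := by
        rw [setLIntegral_const]
    _ ≤ ∫⁻ x in A, boltz φ β x := by
        refine setLIntegral_mono (measurable_boltz hφ β) fun x hx => ?_
        refine ENNReal.ofReal_le_ofReal (Real.exp_le_exp.2 ?_)
        have := mul_le_mul_of_nonneg_left (hen x hx) hβ
        linarith
    _ ≤ _ := lintegral_mono_set hA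

/-- Sites on the first axis with spacing `2 s`. -/
noncomputable def refUpperW (s : ℝ) (l : ℕ) : Pt := EuclideanSpace.single 0 (2 * l * s)

theorem refUpper_sep {s : ℝ} {y y' z : Pt} {i j : ℕ} (hy : y - (z + refUpperW s i) ∈ cube s)
    (hy' : y' - (z + refUpperW s j) ∈ cube s) (hij : i ≠ j) : s ≤ dist y y' := by
  have h1 := hy 0
  have h2 := hy' 0
  simp only [refUpperW, PiLp.sub_apply, PiLp.add_apply, PiLp.single_apply,
    if_true] at h1 h2
  have hs : 0 ≤ s := h1.1.trans h1.2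
  refine le_trans ?_ (abs_sub_le_dist y y' 0)
  rcases lt_or_gt_of_ne hij with h | h
  · have : (i : ℝ) + 1 ≤ j := by exact_mod_cast h
    refine le_trans ?_ (neg_le_abs _)
    nlinarith [h1.1, h1.2, h2.1, h2.2]
  · have : (j : ℝ) + 1 ≤ i := by exact_mod_cast h
    refine le_trans ?_ (le_abs_self _)
    nlinarith [h1.1, h1.2, h2.1, h2.2]

theorem refUpper_near {s : ℝ} {y y' z : Pt} {i j : ℕ} (hy : y - (z + refUpperW s i) ∈ cube s)
    (hy' : y' - (z + refUpperW s j) ∈ cube s) (hi : i ≤ 3) (hj : j ≤ 3) :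
    dist y y' ≤ 10 * s := by
  have hs : 0 ≤ s := (hy 0).1.trans (hy 0).2
  have h1 := dist_le_of_mem_cube hy hy'
  have h2 : dist (refUpperW s i) (refUpperW s j) ≤ 6 * s := by
    unfold refUpperW
    rw [PiLp.dist_single_same, Real.dist_eq, abs_le]
    have hi' : (i : ℝ) ≤ 3 := by exact_mod_cast hi
    have hj' : (j : ℝ) ≤ 3 := by exact_mod_cast hj
    have hi0 : (0 : ℝ) ≤ i := Nat.cast_nonneg _
    have hj0 : (0 : ℝ) ≤ j := Nat.cast_nonneg _
    constructor <;> nlinarith
  have h3 := dist_add_add_le (y - (z + refUpperW s i)) (z + refUpperW s i)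
    (y' - (z + refUpperW s j)) (z + refUpperW s j)
  rw [sub_add_cancel, sub_add_cancel, dist_add_left] at h3
  linarith

theorem refUpper_mem {s t L : ℝ} {y z : Pt} {i : ℕ} (hy : y - (z + refUpperW s i) ∈ cube s)
    (hz : z ∈ cube t) (hL : t + (2 * i + 1) * s ≤ L) : y ∈ cube L := by
  have hs : 0 ≤ s := (hy 0).1.trans (hy 0).2
  have hi0 : (0 : ℝ) ≤ i := Nat.cast_nonneg _
  have his : 0 ≤ (i : ℝ) * s := by positivity
  intro k
  have h1 := hy k
  have h2 := hz k
  simp only [refUpperW, PiLp.sub_apply, PiLp.add_apply, PiLp.single_apply] at h1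
  split_ifs at h1 <;> constructor <;> nlinarith [h1.1, h1.2, h2.1, h2.2]

theorem refUpper_volume {s : ℝ} (hs : 0 ≤ s) {k : ℕ} (v : Fin k → Pt) :
    volume (inBlocks s v (fun i : Fin k => i)) = ENNReal.ofReal ((s ^ 3) ^ k) := by
  rw [inBlocks_eq_pi, volume_pi_pi]
  simp_rw [sub_eq_add_neg, measure_preimage_add_right, volume_cube hs]
  rw [Finset.prod_const, Finset.card_univ, Fintype.card_fin,
    ENNReal.ofReal_pow (by positivity) k]

theorem refUpper_loose {K ε d₂ η₀ β : ℝ} {φ₀ : ℝ → ℝ} (hcore : IsCore K ε d₂ φ₀) (h0 : 0 < η₀)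
    (hε : ε ≤ η₀) (hβ : 0 ≤ β) {k : ℕ} (hk : k ≤ 3) :
    ENNReal.ofReal (Real.exp (-(β * (43 * K * (k * (k - 1)) / 2))) *
      (((η₀ / 5) ^ 3) ^ k / k.factorial)) ≤ Z φ₀ η₀ k β := by
  refine refUpper_of_set hcore.meas hβ
    (inBlocks (η₀ / 5) (fun i : Fin k => 0 + refUpperW (η₀ / 5) i) (fun i : Fin k => i))
    (fun x hx i _ => ?_) (fun x hx i j hij => ?_)
    (refUpper_volume (by positivity) _).ge
  · refine refUpper_mem (t := 0) (hx i) (fun k => by simp) ?_
    have : ((i : ℕ) : ℝ) ≤ 2 := by exact_mod_cast (by omega : (i : ℕ) ≤ 2)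
    nlinarith
  · refine hcore.up₂ _ (le_trans ?_ (refUpper_sep (hx i) (hx j) (Fin.val_ne_of_ne hij)))
    linarith

theorem refUpper_tight {K ε d₂ η₀ β : ℝ} {φ₀ : ℝ → ℝ} (hcore : IsCore K ε d₂ φ₀)
    (hε0 : 0 < ε) (hε : ε ≤ η₀) (hβ : 0 ≤ β) :
    ENNReal.ofReal (Real.exp (-(β * (11 * K * ((4 : ℕ) * ((4 : ℕ) - 1)) / 2))) *
      (((ε / 20) ^ 3) ^ 3 * (η₀ / 2) ^ 3 / (4 : ℕ).factorial)) ≤ Z φ₀ η₀ 4 β := by
  have h0 : 0 < η₀ := hε0.trans_le hε
  set A : Set (Fin 4 → Pt) := {x | x 0 ∈ cube (η₀ / 2) ∧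
    ∀ l : Fin 3, x l.succ - (x 0 + refUpperW (ε / 20) (l.succ : Fin 4)) ∈ cube (ε / 20)} with hA
  have hall : ∀ x ∈ A, ∀ l : Fin 4, x l - (x 0 + refUpperW (ε / 20) l) ∈ cube (ε / 20) := by
    intro x hx l
    refine Fin.cases ?_ (fun l => hx.2 l) l
    intro k
    simp [refUpperW]
    positivity
  have hAm : MeasurableSet A := by
    have : A = (fun x : Fin 4 → Pt => x 0) ⁻¹' cube (η₀ / 2) ∩ ⋂ l : Fin 3,
        (fun x : Fin 4 → Pt => x l.succ - (x 0 + refUpperW (ε / 20) (l.succ : Fin 4))) ⁻¹'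
          cube (ε / 20) := by
      ext x
      simp only [hA, Set.mem_ofPred_eq, Set.mem_inter_iff, Set.mem_preimage, Set.mem_iInter]
    rw [this]
    refine ((measurable_pi_apply 0) (measurableSet_cube _)).inter
      (MeasurableSet.iInter fun l => ?_)
    have hm : Measurable fun x : Fin 4 → Pt =>
        x l.succ - (x 0 + refUpperW (ε / 20) (l.succ : Fin 4)) :=
      (measurable_pi_apply _).sub ((measurable_pi_apply 0).add_const _)
    exact hm (measurableSet_cube _)
  refine refUpper_of_set hcore.meas hβ A (fun x hx i _ => ?_) (fun x hx i j hij => ?_)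
    (le_of_eq ?_)
  · refine refUpper_mem (hall x hx i) hx.1 ?_
    have : ((i : ℕ) : ℝ) ≤ 3 := by exact_mod_cast (by omega : (i : ℕ) ≤ 3)
    nlinarith
  · refine hcore.up₁ _ (refUpper_sep (hall x hx i) (hall x hx j) (Fin.val_ne_of_ne hij)) ?_
    have := refUpper_near (hall x hx i) (hall x hx j) (by omega) (by omega)
    linarith
  · have hmp := (measurePreserving_piFinSuccAbove (fun _ : Fin 4 => (volume : Measure Pt)) 0).symm
    rw [volume_pi, ← hmp.measure_preimage hAm.nullMeasurableSet,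
      Measure.prod_apply (hmp.measurable hAm)]
    have h1 : ∀ z : Pt, (Measure.pi fun _ : Fin 3 => (volume : Measure Pt))
        (Prod.mk z ⁻¹' ((MeasurableEquiv.piFinSuccAbove (fun _ : Fin 4 => Pt) 0).symm ⁻¹' A)) =
        (cube (η₀ / 2)).indicator (fun _ => ENNReal.ofReal (((ε / 20) ^ 3) ^ 3)) z := by
      intro z
      have h2 : ∀ y : Fin 3 → Pt,
          (MeasurableEquiv.piFinSuccAbove (fun _ : Fin 4 => Pt) 0).symm (z, y) = Fin.cons z y := by
        intro y
        simp [MeasurableEquiv.piFinSuccAbove_symm_apply, Fin.insertNthEquiv]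
      by_cases hz : z ∈ cube (η₀ / 2)
      · rw [Set.indicator_of_mem hz, ← refUpper_volume (by positivity)
          (fun l : Fin 3 => z + refUpperW (ε / 20) (l.succ : Fin 4)), volume_pi]
        congr 1
        ext y
        simp only [Set.mem_preimage, h2, hA, Set.mem_ofPred_eq, Fin.cons_zero, Fin.cons_succ, hz,
          true_and, inBlocks]
      · rw [Set.indicator_of_notMem hz]
        convert measure_empty
        · ext y
          simp only [Set.mem_preimage, h2, hA, Set.mem_ofPred_eq, Fin.cons_zero, hz, false_and,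
            Set.mem_empty_iff_false]
        · infer_instance
    simp_rw [h1]
    rw [lintegral_indicator (measurableSet_cube _), setLIntegral_const,
      volume_cube (by positivity), ENNReal.ofReal_mul (by positivity)]

theorem small_cluster {η₀ : ℝ} (h0 : 0 < η₀) (h1 : η₀ ≤ 1) :
    ∃ C : ℝ, 0 ≤ C ∧ ∀ (K ε d₂ : ℝ) (φ₀ : ℝ → ℝ) (β : ℝ), IsCore K ε d₂ φ₀ → 0 ≤ K → 0 < ε →
      ε ≤ η₀ → 1 ≤ ε ^ 3 * Real.exp (50 * K) → 0 ≤ β →
      ENNReal.ofReal (Real.exp (-(43 * β * K + C))) ≤ Z φ₀ η₀ 2 β ∧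
      ENNReal.ofReal (Real.exp (-(129 * β * K + C))) ≤ Z φ₀ η₀ 3 β ∧
      ENNReal.ofReal (Real.exp (-(66 * β * K + 150 * K + C))) ≤ Z φ₀ η₀ 4 β := by
  set c : ℝ := η₀ ^ 9 / (20 ^ 9 * 192) with hc
  have hc0 : 0 < c := by positivity
  have h96 : η₀ ^ 9 ≤ η₀ ^ 6 := pow_le_pow_of_le_one h0.le h1 (by norm_num)
  have h93 : η₀ ^ 9 ≤ η₀ ^ 3 := pow_le_pow_of_le_one h0.le h1 (by norm_num)
  have h90 : η₀ ^ 9 ≤ 1 := pow_le_one₀ h0.le h1
  have h9 : 0 < η₀ ^ 9 := by positivity
  have hc1 : c ≤ 1 := by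
    rw [hc, div_le_one (by norm_num)]
    linarith
  have hexp : ∀ a : ℝ, Real.exp (-(a + -Real.log c)) = Real.exp (-a) * c := by
    intro a
    rw [neg_add, neg_neg, Real.exp_add, Real.exp_log hc0]
  refine ⟨-Real.log c, neg_nonneg.2 (Real.log_nonpos hc0.le hc1), ?_⟩
  intro K ε d₂ φ₀ β hcore hK hε0 hε hσ hβ
  refine ⟨?_, ?_, ?_⟩
  · refine le_trans (ENNReal.ofReal_le_ofReal ?_) (refUpper_loose hcore h0 hε hβ (k := 2)
      (by norm_num))
    rw [hexp]
    refine mul_le_mul (le_of_eq ?_) ?_ hc0.le (Real.exp_pos _).le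
    · congr 1
      push_cast
      ring
    · rw [hc]
      simp only [Nat.factorial]
      push_cast
      nlinarith
  · refine le_trans (ENNReal.ofReal_le_ofReal ?_) (refUpper_loose hcore h0 hε hβ (k := 3)
      (by norm_num))
    rw [hexp]
    refine mul_le_mul (le_of_eq ?_) ?_ hc0.le (Real.exp_pos _).le
    · congr 1
      push_cast
      ring
    · rw [hc]
      simp only [Nat.factorial]
      push_cast
      nlinarith
  · refine le_trans (ENNReal.ofReal_le_ofReal ?_) (refUpper_tight hcore hε0 hε hβ)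
    rw [hexp, neg_add, Real.exp_add, mul_assoc]
    refine mul_le_mul (le_of_eq ?_) ?_ (by positivity) (Real.exp_pos _).le
    · congr 1
      push_cast
      ring
    · have h2 : Real.exp (-(150 * K)) ≤ ε ^ 9 := by
        have h3 : 1 ≤ (ε ^ 3 * Real.exp (50 * K)) ^ 3 := one_le_pow₀ hσ
        rw [mul_pow, ← Real.exp_nat_mul] at h3
        rw [Real.exp_neg, inv_le_iff_one_le_mul₀ (Real.exp_pos _)]
        rw [← pow_mul, show ((3 : ℕ) : ℝ) * (50 * K) = 150 * K by push_cast; ring] at h3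
        exact h3
      have h4 : c ≤ η₀ ^ 3 / (20 ^ 9 * 192) := by
        rw [hc]
        gcongr
      refine (mul_le_mul h2 h4 hc0.le (by positivity)).trans (le_of_eq ?_)
      simp only [Nat.factorial]
      push_cast
      ring

theorem ref_upper {η m : ℝ} (hη : 0 < η) (hη1 : η ≤ 1) (hm : 0 ≤ m) {φ₀ : ℝ → ℝ}
    (hφ₀ : Measurable φ₀) (hneg : ∀ r, 9 / 5 + η / 2 ≤ r → φ₀ r ≤ 0) {β : ℝ} (hβ : 0 ≤ β)
    (k : ℕ) :
    Z φ₀ (η / 2) k β ^ sepNum (9 / 5) m ≤
      Z φ₀ ((1 + η) * m + 1) (k * sepNum (9 / 5) m) β := by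
  classical
  obtain ⟨X, hX, hXc, hXs⟩ := exists_sep_config (d := 9 / 5) (by norm_num) m
  have hfar : ∀ (b b' : X) (y y' : Pt), y - (1 + η) • (b : Pt) ∈ cube (η / 2) →
      y' - (1 + η) • (b' : Pt) ∈ cube (η / 2) → b ≠ b' → 9 / 5 + η / 2 ≤ dist y y' := by
    intro b b' y y' hy hy' hne
    have h1 := dist_le_of_mem_cube hy hy'
    have h2 := hXs b b.2 b' b'.2 fun h => hne (Subtype.ext h)
    have h3 : dist ((1 + η) • (b : Pt)) ((1 + η) • (b' : Pt)) = (1 + η) * dist (b : Pt) b' := by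
      rw [dist_smul₀, Real.norm_eq_abs, abs_of_pos (by linarith)]
    have h4 := dist_sub_sub_le y (y - (1 + η) • (b : Pt)) y' (y' - (1 + η) • (b' : Pt))
    rw [sub_sub_cancel, sub_sub_cancel, h3] at h4
    nlinarith
  have h := genLB hφ₀ hφ₀ β (η / 2) ((1 + η) * m + 1) (ι := X × Fin k) (B := X)
    (fun b => (1 + η) • (b : Pt)) Prod.fst 0 (fun b y hy => ?_) (fun b b' y hy hy' => ?_)
    (fun x hx => ?_)
  · have hcnt : ∀ b : X, cnt (Prod.fst : X × Fin k → X) b = k := by
      intro b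
      unfold cnt
      rw [Finset.card_filter, Fintype.sum_prod_type_right]
      simp only [Finset.sum_ite_eq', Finset.mem_univ, if_true]
      simp
    simp only [hcnt, Real.exp_zero, ENNReal.ofReal_one, one_mul, Finset.prod_const,
      Finset.card_univ, Fintype.card_coe, Fintype.card_prod, Fintype.card_fin, hX] at h
    rwa [mul_comm k]
  · intro j
    have h1 := hy j
    have h2 := hXc b b.2 j
    simp only [PiLp.sub_apply, PiLp.smul_apply, smul_eq_mul] at h1
    constructor <;> nlinarith [h1.1, h1.2, h2.1, h2.2]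
  · by_contra hne
    have := hfar b b' y y hy hy' hne
    rw [dist_self] at this
    linarith
  · rw [en_split φ₀ (Prod.fst : X × Fin k → X) x]
    have := cross_nonpos (φ := φ₀) (Prod.fst : X × Fin k → X) x fun i j hij =>
      hneg _ (hfar _ _ _ _ (hx i) (hx j) hij)
    nlinarith

end Crest.Agent.R149
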