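import Crest.Agent.R149.Kernel

/-! The attractive tail: a sum of Kac kernels on doubly exponential scales. -/

namespace Crest.Agent.R149

open MeasureTheory Crest.ProbabilityR.Continuum Filter Topology
open scoped ENNReal

theorem tail_summable {c l : ℕ → ℝ} (hc0 : ∀ i, 0 ≤ c i) (hc : ∀ i, c i ≤ (1 / 2) ^ i) (r : ℝ) :
    Summable fun i => c i * ramp (r / l i) :=
  Summable.of_nonneg_of_le (fun i => mul_nonneg (hc0 i) (ramp_nonneg _))
    (fun i => (mul_le_of_le_one_right (hc0 i) (ramp_le_one _)).trans (hc i))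
    summable_geometric_two

theorem tail_scales (c l : ℕ → ℝ) (m Λ : ℝ) (hm : 1 ≤ m) (hΛ : 8 * m ≤ Λ) (hl : ∀ i, Λ ≤ l i)
    (hc0 : ∀ i, 0 ≤ c i) (hc : ∀ i, c i * l i ^ 3 ≤ (1 / 2) ^ i) :
    ∃ Ap : ℝ, c 0 * l 0 ^ 3 / 128 ≤ Ap * m ^ 3 ∧ Ap * m ^ 3 ≤ 54 ∧
      (∀ F : Finset Site, ∑ z ∈ F, ∑' i, c i * ramp (m * (‖emb z‖ - 2) / l i) ≤ Ap) ∧
      ∀ m' : ℝ, m ≤ m' → ∀ σ : ℝ, 0 < σ → ∃ F : Finset Site, (0 : Site) ∉ F ∧
        Ap - (54 * (m' - m) / m + 326 * m' / Λ + σ) / m ^ 3 ≤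
          ∑ z ∈ F, ∑' i, c i * ramp (m' * (‖emb z‖ + 2) / l i) := by
  classical
  have hm0 : 0 < m := by linarith
  have hm3 : 0 < m ^ 3 := by positivity
  have hl1 : ∀ i, 1 ≤ l i := fun i => by linarith [hl i]
  have hl0 : ∀ i, 0 < l i := fun i => by linarith [hl1 i]
  have hc1 : ∀ i, c i ≤ (1 / 2) ^ i := fun i =>
    (le_mul_of_one_le_right (hc0 i) (one_le_pow₀ (hl1 i))).trans (hc i)
  choose S hS1 hS2 hS3 hS4 using fun i => kernel_single (l := l i) hm (hΛ.trans (hl i))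
  have hS0 : ∀ i, 0 ≤ S i := fun i => le_trans (by have := hl0 i; positivity) (hS1 i)
  have hb : ∀ i, c i * S i ≤ 27 / m ^ 3 * (1 / 2) ^ i := by
    intro i
    calc c i * S i ≤ c i * (27 * (l i / m) ^ 3) := mul_le_mul_of_nonneg_left (hS2 i) (hc0 i)
      _ = 27 / m ^ 3 * (c i * l i ^ 3) := by field_simp
      _ ≤ 27 / m ^ 3 * (1 / 2) ^ i := mul_le_mul_of_nonneg_left (hc i) (by positivity)
  have hsum : Summable fun i => c i * S i :=
    Summable.of_nonneg_of_le (fun i => mul_nonneg (hc0 i) (hS0 i)) hb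
      (summable_geometric_two.mul_left _)
  refine ⟨∑' i, c i * S i, ?_, ?_, fun F => ?_, fun m' hm' σ hσ => ?_⟩
  · have h1 : c 0 * S 0 ≤ ∑' i, c i * S i :=
      hsum.le_tsum 0 fun i _ => mul_nonneg (hc0 i) (hS0 i)
    have h2 : c 0 * ((l 0 / m) ^ 3 / 128) ≤ c 0 * S 0 := mul_le_mul_of_nonneg_left (hS1 0) (hc0 0)
    have h3 : c 0 * l 0 ^ 3 / 128 = c 0 * ((l 0 / m) ^ 3 / 128) * m ^ 3 := by field_simp
    rw [h3]
    exact mul_le_mul_of_nonneg_right (h2.trans h1) hm3.le
  · have h1 := hsum.tsum_le_tsum hb (summable_geometric_two.mul_left _)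
    rw [tsum_mul_left, tsum_geometric_two] at h1
    have h2 := mul_le_mul_of_nonneg_right h1 hm3.le
    refine h2.trans_eq ?_
    field_simp
    norm_num
  · rw [← Summable.tsum_finsetSum fun z _ => tail_summable hc0 hc1 _]
    refine Summable.tsum_le_tsum (fun i => ?_)
      (summable_sum fun z _ => tail_summable hc0 hc1 _) hsum
    rw [← Finset.mul_sum]
    exact mul_le_mul_of_nonneg_left (hS3 i F) (hc0 i)
  · choose F hF0 hF using fun i => hS4 i m' hm'
    obtain ⟨I, hI⟩ : ∃ I : ℕ, ∑' i, c i * S i - σ / m ^ 3 < ∑ i ∈ Finset.range I, c i * S i :=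
      (hsum.hasSum.tendsto_sum_nat.eventually
        (lt_mem_nhds (sub_lt_self _ (by positivity)))).exists
    refine ⟨(Finset.range I).biUnion F, by simp [hF0], ?_⟩
    set δ : ℝ := 27 * (m' - m) / m + 163 * m' / Λ with hδ
    have hΛ0 : 0 < Λ := by linarith
    have hm'0 : 0 < m' := by linarith
    have hδ0 : 0 ≤ δ := by
      have : 0 ≤ m' - m := by linarith
      positivity
    have h1 : ∀ i ∈ Finset.range I, c i * S i - δ / m ^ 3 * (1 / 2) ^ i ≤
        ∑ z ∈ (Finset.range I).biUnion F, c i * ramp (m' * (‖emb z‖ + 2) / l i) := by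
      intro i hi
      rw [← Finset.mul_sum]
      have h2 : ∑ z ∈ F i, ramp (m' * (‖emb z‖ + 2) / l i) ≤
          ∑ z ∈ (Finset.range I).biUnion F, ramp (m' * (‖emb z‖ + 2) / l i) :=
        Finset.sum_le_sum_of_subset_of_nonneg (Finset.subset_biUnion_of_mem F hi)
          fun _ _ _ => ramp_nonneg _
      have h3 := mul_le_mul_of_nonneg_left ((hF i).trans h2) (hc0 i)
      refine le_trans ?_ h3
      have h4 : 27 * (m' - m) / m + 163 * m' / l i ≤ δ := by
        have : 163 * m' / l i ≤ 163 * m' / Λ := by gcongr; exact hl i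
        linarith
      have h5 : c i * ((l i / m) ^ 3 * (27 * (m' - m) / m + 163 * m' / l i)) ≤
          δ / m ^ 3 * (1 / 2) ^ i := by
        have := hl0 i
        calc c i * ((l i / m) ^ 3 * (27 * (m' - m) / m + 163 * m' / l i))
            ≤ c i * ((l i / m) ^ 3 * δ) :=
              mul_le_mul_of_nonneg_left (mul_le_mul_of_nonneg_left h4 (by positivity)) (hc0 i)
          _ = δ / m ^ 3 * (c i * l i ^ 3) := by field_simp
          _ ≤ δ / m ^ 3 * (1 / 2) ^ i := mul_le_mul_of_nonneg_left (hc i) (by positivity)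
      linarith
    have h2 := Finset.sum_le_sum h1
    rw [Finset.sum_sub_distrib, ← Finset.mul_sum, Finset.sum_comm] at h2
    have h3 : ∑ i ∈ Finset.range I, ((1 : ℝ) / 2) ^ i ≤ 2 := sum_geometric_two_le I
    have h4 : δ / m ^ 3 * ∑ i ∈ Finset.range I, ((1 : ℝ) / 2) ^ i ≤ δ / m ^ 3 * 2 :=
      mul_le_mul_of_nonneg_left h3 (by positivity)
    have h5 : ∑ z ∈ (Finset.range I).biUnion F, ∑ i ∈ Finset.range I,
        c i * ramp (m' * (‖emb z‖ + 2) / l i) ≤
        ∑ z ∈ (Finset.range I).biUnion F, ∑' i, c i * ramp (m' * (‖emb z‖ + 2) / l i) :=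
      Finset.sum_le_sum fun z _ => (tail_summable hc0 hc1 _).sum_le_tsum _
        fun i _ => mul_nonneg (hc0 i) (ramp_nonneg _)
    have e : (54 * (m' - m) / m + 326 * m' / Λ + σ) / m ^ 3 = δ / m ^ 3 * 2 + σ / m ^ 3 := by
      rw [hδ]; ring
    rw [e]
    linarith

theorem exists_tail (ξ : ℝ) (hξ : 0 < ξ) (M₀ : ℕ) :
    ∃ (w : ℝ → ℝ) (D : Levels w), Continuous w ∧ (∀ r, 0 ≤ w r) ∧ (∃ C : ℝ, ∀ r, w r ≤ C) ∧
      (∃ C : ℝ, ∀ r : ℝ, 1 ≤ r → w r ≤ C * r ^ (-(3 + 1 / 32 : ℝ))) ∧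
      (∃ a : ℝ, 0 < a ∧ ∀ r, r ≤ 4 → a ≤ w r) ∧
      M₀ ≤ D.m 0 ∧ 1 / 128 ≤ D.Ap 0 * (D.m 0 : ℝ) ^ 3 ∧ D.Ap 0 * (D.m 0 : ℝ) ^ 3 ≤ 54 ∧
      (∀ J, ∑ j ∈ Finset.range J, D.e j / (D.γ j * ((D.m j : ℝ) * D.t j) ^ 3) ≤ ξ) ∧
      (∀ η : ℝ, 0 ≤ η → η ≤ 1 → ∃ F : Finset Site, (0 : Site) ∉ F ∧
        D.Ap 0 - (54 * η + ξ) / (D.m 0 : ℝ) ^ 3 ≤
          ∑ z ∈ F, w (((1 + η) * D.m 0 + 3) * (‖emb z‖ + 2))) := by
  obtain ⟨n, hn1, hnM, hnξ⟩ : ∃ n : ℕ, 1 ≤ n ∧ M₀ ≤ 2 ^ n ∧ 256000 / ξ ≤ (2 : ℝ) ^ n := by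
    refine ⟨M₀ + ⌈256000 / ξ⌉₊ + 1, by omega, ?_, ?_⟩
    · exact le_trans (by omega) (Nat.lt_two_pow_self).le
    · refine (Nat.le_ceil _).trans ?_
      have : ⌈256000 / ξ⌉₊ ≤ 2 ^ (M₀ + ⌈256000 / ξ⌉₊ + 1) :=
        le_trans (by omega) (Nat.lt_two_pow_self).le
      exact_mod_cast this
  let N : ℕ → ℕ := fun i => n * 2 ^ i
  have hN1 : ∀ i, n + i ≤ N i := by
    intro i
    have : i + 1 ≤ 2 ^ i := Nat.lt_two_pow_self
    have h2 : n * (i + 1) ≤ n * 2 ^ i := Nat.mul_le_mul_left n this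
    have h3 : i ≤ n * i := Nat.le_mul_of_pos_left i hn1
    simp only [N]
    nlinarith
  have hNs : ∀ i, N (i + 1) = 2 * N i := fun i => by simp only [N]; ring
  have hNm : ∀ i j, i ≤ j → N i ≤ N j := fun i j h =>
    Nat.mul_le_mul_left n (Nat.pow_le_pow_right (by norm_num) h)
  let y : ℕ → ℝ := fun i => 2 ^ N i
  have hy0 : y 0 = 2 ^ n := by simp [y, N]
  have hypos : ∀ i, 0 < y i := fun i => by positivity
  have hy2 : ∀ i, 2 ≤ y i := fun i => by
    have : (2 : ℝ) ^ 1 ≤ 2 ^ N i := pow_le_pow_right₀ (by norm_num) (by have := hN1 i; omega)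
    simpa using this
  have hy1 : ∀ i, 1 ≤ y i := fun i => by linarith [hy2 i]
  have hyi : ∀ i, y 0 * 2 ^ i ≤ y i := fun i => by
    rw [hy0, ← pow_add]
    exact pow_le_pow_right₀ (by norm_num) (hN1 i)
  have hyi' : ∀ i, 2 ^ i ≤ y i := fun i =>
    le_trans (le_mul_of_one_le_left (by positivity) (hy1 0)) (hyi i)
  have hys : ∀ i, y (i + 1) = y i ^ 2 := fun i => by
    simp only [y, hNs]; rw [← pow_mul, mul_comm]
  have hym : ∀ i j, i ≤ j → y i ≤ y j := fun i j h =>
    pow_le_pow_right₀ (by norm_num) (hNm i j h)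
  let l : ℕ → ℝ := fun i => y i ^ 32
  let c : ℕ → ℝ := fun i => (y 0 / y i) ^ 2 / l i ^ 3
  have hlpos : ∀ i, 0 < l i := fun i => pow_pos (hypos i) _
  have hl1 : ∀ i, 1 ≤ l i := fun i => one_le_pow₀ (hy1 i)
  have hc0 : ∀ i, 0 < c i := fun i => by
    have := hypos i; have := hypos 0; have := hlpos i; positivity
  have hcl : ∀ i, c i * l i ^ 3 = (y 0 / y i) ^ 2 := fun i => by
    have := hlpos i
    simp only [c]; field_simp
  have ha : ∀ i, c i * l i ^ 3 ≤ (1 / 2) ^ i := by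
    intro i
    rw [hcl]
    have h1 : y 0 / y i ≤ (1 / 2) ^ i := by
      rw [div_le_iff₀ (hypos i), one_div, inv_pow, ← div_eq_inv_mul, le_div_iff₀ (by positivity)]
      exact hyi i
    have h2 : 0 ≤ y 0 / y i := (div_pos (hypos 0) (hypos i)).le
    have h3 : ((1 : ℝ) / 2) ^ i ≤ 1 := pow_le_one₀ (by norm_num) (by norm_num)
    nlinarith
  have hak : ∀ k i, c (i + k) * l (i + k) ^ 3 ≤ (1 / 2) ^ i := fun k i =>
    (ha _).trans (pow_le_pow_of_le_one (by norm_num) (by norm_num) (by omega))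
  have hc1 : ∀ k i, c (i + k) ≤ (1 / 2) ^ i := fun k i =>
    (le_mul_of_one_le_right (hc0 _).le (one_le_pow₀ (hl1 _))).trans (hak k i)
  have hc1' : ∀ i, c i ≤ (1 / 2) ^ i := hc1 0
  have hsm : ∀ k r, Summable fun i => c (i + k) * ramp (r / l (i + k)) := fun k r =>
    tail_summable (c := fun i => c (i + k)) (l := fun i => l (i + k)) (fun i => (hc0 _).le)
      (hc1 k) r
  have hsm0 : ∀ r, Summable fun i => c i * ramp (r / l i) := hsm 0
  have hnn : ∀ i r, 0 ≤ c i * ramp (r / l i) := fun i r => mul_nonneg (hc0 i).le (ramp_nonneg _)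
  let m : ℕ → ℕ := fun j => 2 ^ (12 * N j)
  let t : ℕ → ℕ := fun j => 2 ^ (20 * N j - 2)
  have hm : ∀ j, (m j : ℝ) = y j ^ 12 := fun j => by
    simp only [m, y]; push_cast; rw [← pow_mul, mul_comm]
  have hmt : ∀ j, (m j : ℝ) * t j = l j / 4 := fun j => by
    have h1 := hN1 j
    have : 12 * N j + (20 * N j - 2) + 2 = N j * 32 := by omega
    simp only [m, t, l, y]; push_cast
    rw [← pow_add, ← pow_mul, ← this, pow_add _ _ 2]
    field_simp
    norm_num
  have hΛ : ∀ j i, y j ^ 16 ≤ l (i + (j - 1)) := by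
    intro j i
    have h1 : y j ≤ y (i + (j - 1) + 1) := hym _ _ (by omega)
    rw [hys] at h1
    calc y j ^ 16 ≤ (y (i + (j - 1)) ^ 2) ^ 16 := pow_le_pow_left₀ (hypos j).le h1 _
      _ = l (i + (j - 1)) := by simp only [l]; ring
  have hy4 : ∀ j, 16 ≤ y j ^ 4 := fun j => by
    calc (16 : ℝ) = 2 ^ 4 := by norm_num
      _ ≤ y j ^ 4 := pow_le_pow_left₀ (by norm_num) (hy2 j) _
  choose Ap hAp1 hAp2 hAp3 hAp4 using fun j : ℕ =>
    tail_scales (fun i => c (i + (j - 1))) (fun i => l (i + (j - 1))) (m j) (y j ^ 16)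
      (by rw [hm]; exact one_le_pow₀ (hy1 j))
      (by
        rw [hm]
        have h1 := hy4 j
        have h2 : 0 < y j ^ 12 := pow_pos (hypos j) _
        have : y j ^ 16 = y j ^ 4 * y j ^ 12 := by ring
        nlinarith)
      (hΛ j) (fun i => (hc0 _).le) (hak (j - 1))
  have hγ : ∀ j (r : ℝ), r ≤ 2 * ((m j : ℝ) * t j) →
      c j / 2 ≤ ∑' i, c (i + (j - 1)) * ramp (r / l (i + (j - 1))) := by
    intro j r hr
    have h1 := (hsm (j - 1) r).le_tsum (j - (j - 1)) fun i _ => hnn _ r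
    have e : j - (j - 1) + (j - 1) = j := by omega
    rw [e] at h1
    refine le_trans ?_ h1
    have h2 : 1 / 2 ≤ ramp (r / l j) := by
      refine half_le_ramp ?_
      rw [div_le_iff₀ (hlpos j)]
      rw [hmt] at hr
      linarith
    have := mul_le_mul_of_nonneg_left h2 (hc0 j).le
    linarith
  let w : ℝ → ℝ := fun r => ∑' i, c i * ramp (r / l i)
  let D : Levels w :=
    { m := m
      t := t
      ws := fun j r => ∑ i ∈ Finset.range (j - 1), c i * ramp (r / l i)
      wl := fun j r => ∑' i, c (i + (j - 1)) * ramp (r / l (i + (j - 1)))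
      Ap := Ap
      γ := fun j => c j / 2
      e := fun j => 1000 / y j ^ 3
      lam := fun j => y j ^ 8
      m_pos := fun j => by positivity
      t_pos := fun j => by positivity
      dvd₁ := fun j => pow_dvd_pow 2 (by rw [hNs]; omega)
      dvd₂ := fun j => by
        simp only [m, t]
        rw [← pow_add]
        exact pow_dvd_pow 2 (by rw [hNs]; have := hN1 j; omega)
      split := fun j r => ((hsm0 r).sum_add_tsum_nat_add (j - 1)).symm
      wl_zero := fun r => rfl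
      ws_meas := fun j => Continuous.measurable
        (continuous_finsetSum _ fun i _ =>
          continuous_const.mul (continuous_ramp.comp (continuous_id.div_const _)))
      ws_nonneg := fun j r => Finset.sum_nonneg fun i _ => hnn i r
      ws_zero := fun j r hr => Finset.sum_eq_zero fun i hi => by
        have hi' := Finset.mem_range.1 hi
        have h1 : y (i + 1 + 1) ≤ y j := hym _ _ (by omega)
        rw [hys, hys] at h1
        have h2 : l i ≤ y j ^ 8 := by
          calc l i = ((y i ^ 2) ^ 2) ^ 8 := by simp only [l]; ring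
            _ ≤ y j ^ 8 := pow_le_pow_left₀ (by positivity) h1 _
        rw [ramp_eq_zero, mul_zero]
        rw [le_div_iff₀ (hlpos i)]
        linarith
      lam_nonneg := fun j => (pow_pos (hypos j) _).le
      wl_nonneg := fun j r => tsum_nonneg fun i => hnn _ r
      wl_anti := fun j r r' hr => Summable.tsum_le_tsum
        (fun i => mul_le_mul_of_nonneg_left
          (ramp_antitone (div_le_div_of_nonneg_right hr (hlpos _).le)) (hc0 _).le)
        (hsm _ r') (hsm _ r)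
      row := hAp3
      low := fun j => by
        have hyj := hypos j
        obtain ⟨F, hF0, hF⟩ := hAp4 j (m j + 2) (by linarith) (1 / y j ^ 3) (by positivity)
        refine ⟨F, hF0, le_trans ?_ hF⟩
        have hm3 : (0 : ℝ) < (m j : ℝ) ^ 3 := by positivity
        refine sub_le_sub_left (div_le_div_of_nonneg_right ?_ hm3.le) _
        rw [hm]
        have h1 := hy1 j
        have h2 : y j ^ 3 ≤ y j ^ 12 := pow_le_pow_right₀ h1 (by norm_num)
        have h3 : y j ^ 15 ≤ y j ^ 16 := pow_le_pow_right₀ h1 (by norm_num)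
        have h4 : 54 * (y j ^ 12 + 2 - y j ^ 12) / y j ^ 12 ≤ 108 / y j ^ 3 := by
          rw [div_le_div_iff₀ (by positivity) (by positivity)]
          nlinarith
        have h5 : 326 * (y j ^ 12 + 2) / y j ^ 16 ≤ 891 / y j ^ 3 := by
          rw [div_le_div_iff₀ (by positivity) (by positivity)]
          have e1 : y j ^ 12 * y j ^ 3 = y j ^ 15 := by ring
          have e2 : 2 * y j ^ 3 ≤ y j ^ 4 := by
            have : y j ^ 4 = y j * y j ^ 3 := by ring
            rw [this]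
            exact mul_le_mul_of_nonneg_right (hy2 j) (by positivity)
          have e3 : y j ^ 4 ≤ y j ^ 16 := pow_le_pow_right₀ h1 (by norm_num)
          have e4 : 0 < y j ^ 16 := by positivity
          nlinarith
        have e : 1000 / y j ^ 3 = 108 / y j ^ 3 + 891 / y j ^ 3 + 1 / y j ^ 3 := by ring
        rw [e]
        linarith
      γ_pos := fun j => half_pos (hc0 j)
      γ_le := fun j r hr => hγ j r (by exact_mod_cast hr)
      lam_le := fun j => by
        have hyj := hypos j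
        rw [hm, div_le_div_iff₀ (by positivity) (by positivity)]
        have h1 := hyi' j
        have h2 : 1 ≤ y j ^ 8 := one_le_pow₀ (hy1 j)
        have h3 : 2 ^ j * (y j ^ 8 + 1) ≤ y j * (2 * y j ^ 8) := by
          gcongr
          linarith
        have h4 := mul_le_mul_of_nonneg_right h3 (pow_pos hyj 3).le
        have e : y j * (2 * y j ^ 8) * y j ^ 3 = 2 * y j ^ 12 := by ring
        have h5 : 0 < y j ^ 12 := by positivity
        linarith
      e_tendsto := by
        have h1 : Tendsto y atTop atTop :=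
          tendsto_atTop_mono hyi' (tendsto_pow_atTop_atTop_of_one_lt (by norm_num))
        exact tendsto_const_nhds.div_atTop ((tendsto_pow_atTop (by norm_num)).comp h1) }
  have hξy : 256000 ≤ ξ * y 0 := by
    rw [hy0]
    rw [div_le_iff₀ hξ] at hnξ
    linarith
  refine ⟨w, D, ?_, fun r => tsum_nonneg fun i => hnn i r, ⟨2, fun r => ?_⟩,
    ⟨2 * y 0 ^ 2, fun r hr => ?_⟩, ⟨c 0 / 2, half_pos (hc0 0), fun r hr => ?_⟩, ?_, ?_, hAp2 0,
    fun J => ?_, fun η hη0 hη1 => ?_⟩
  · refine continuous_tsum (fun i =>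
      continuous_const.mul (continuous_ramp.comp (continuous_id.div_const _)))
      summable_geometric_two fun i r => ?_
    rw [Real.norm_of_nonneg (hnn i r)]
    exact (mul_le_of_le_one_right (hc0 i).le (ramp_le_one _)).trans (hc1' i)
  · rw [← tsum_geometric_two]
    exact (hsm0 r).tsum_le_tsum
      (fun i => (mul_le_of_le_one_right (hc0 i).le (ramp_le_one _)).trans (hc1' i))
      summable_geometric_two
  · have hr0 : 0 < r := by linarith
    have hrp : 0 < r ^ (-(3 + 1 / 32 : ℝ)) := Real.rpow_pos_of_pos hr0 _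
    have h1 : ∀ i, c i * ramp (r / l i) ≤ y 0 ^ 2 * r ^ (-(3 + 1 / 32 : ℝ)) * (1 / 2) ^ i := by
      intro i
      rcases le_total (l i) r with h | h
      · rw [ramp_eq_zero (by rw [le_div_iff₀ (hlpos i)]; linarith), mul_zero]
        positivity
      · refine (mul_le_of_le_one_right (hc0 i).le (ramp_le_one _)).trans ?_
        have h2 : l i ^ (-(3 + 1 / 32 : ℝ)) ≤ r ^ (-(3 + 1 / 32 : ℝ)) :=
          Real.rpow_le_rpow_of_nonpos hr0 h (by norm_num)
        have h3 : l i ^ (-(3 + 1 / 32 : ℝ)) = (y i ^ 97)⁻¹ := by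
          simp only [l]
          rw [← Real.rpow_natCast, ← Real.rpow_mul (hypos i).le, ← Real.rpow_natCast,
            ← Real.rpow_neg (hypos i).le]
          norm_num
        have h4 : (y i)⁻¹ ≤ (1 / 2) ^ i := by
          rw [one_div, inv_pow]
          exact inv_anti₀ (by positivity) (hyi' i)
        have h5 : c i = y 0 ^ 2 * (y i ^ 97)⁻¹ * (y i)⁻¹ := by
          have := hypos i
          simp only [c, l]
          field_simp
        rw [h5, ← h3]
        have := hypos i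
        gcongr
    have h2 := (hsm0 r).tsum_le_tsum h1 (summable_geometric_two.mul_left _)
    rw [tsum_mul_left, tsum_geometric_two] at h2
    change ∑' i, c i * ramp (r / l i) ≤ _
    linarith
  · refine hγ 0 r ?_
    rw [hmt]
    have h1 : y 0 ^ 4 ≤ y 0 ^ 32 := pow_le_pow_right₀ (hy1 0) (by norm_num)
    have h2 := hy4 0
    simp only [l]
    linarith
  · change M₀ ≤ 2 ^ (12 * N 0)
    exact hnM.trans (Nat.pow_le_pow_right (by norm_num) (by have := hN1 0; omega))
  · have h1 := hAp1 0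
    simp only [zero_tsub, add_zero] at h1
    rw [hcl, div_self (hypos 0).ne'] at h1
    simpa using h1
  · have h1 : ∀ j ∈ Finset.range J,
        D.e j / (D.γ j * ((D.m j : ℝ) * D.t j) ^ 3) ≤ ξ / 2 * (1 / 2) ^ j := by
      intro j _
      change 1000 / y j ^ 3 / (c j / 2 * ((m j : ℝ) * t j) ^ 3) ≤ _
      have hyj := hypos j
      have hy0' := hypos 0
      have e : c j / 2 * ((m j : ℝ) * t j) ^ 3 = (y 0 / y j) ^ 2 / 128 := by
        rw [hmt, ← hcl]; ring
      have e2 : 1000 / y j ^ 3 / ((y 0 / y j) ^ 2 / 128) = 128000 / y 0 ^ 2 * (y j)⁻¹ := by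
        field_simp
        norm_num
      rw [e, e2]
      have h4 : (y j)⁻¹ ≤ (1 / 2) ^ j := by
        rw [one_div, inv_pow]
        exact inv_anti₀ (by positivity) (hyi' j)
      have h5 : 128000 / y 0 ^ 2 ≤ ξ / 2 := by
        rw [div_le_iff₀ (by positivity)]
        have := hy1 0
        nlinarith
      gcongr
    refine (Finset.sum_le_sum h1).trans ?_
    rw [← Finset.mul_sum]
    have := mul_le_mul_of_nonneg_left (sum_geometric_two_le J) (half_pos hξ).le
    linarith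
  · have hm0 : (1 : ℝ) ≤ m 0 := by rw [hm]; exact one_le_pow₀ (hy1 0)
    obtain ⟨F, hF0, hF⟩ := hAp4 0 ((1 + η) * m 0 + 3) (by nlinarith) (ξ / 2) (half_pos hξ)
    refine ⟨F, hF0, le_trans ?_ hF⟩
    have hm3 : (0 : ℝ) < (m 0 : ℝ) ^ 3 := by positivity
    refine sub_le_sub_left (div_le_div_of_nonneg_right ?_ hm3.le) _
    have hy0' := hypos 0
    have h1 := hy1 0
    have e1 : 54 * ((1 + η) * (m 0 : ℝ) + 3 - m 0) / m 0 = 54 * η + 162 / m 0 := by
      field_simp
      ring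
    have h2 : 162 / (m 0 : ℝ) ≤ 162 / y 0 := by
      rw [hm]
      have : y 0 ^ 1 ≤ y 0 ^ 12 := pow_le_pow_right₀ h1 (by norm_num)
      gcongr
      simpa using this
    have h3 : 326 * ((1 + η) * (m 0 : ℝ) + 3) / y 0 ^ 16 ≤ 1630 / y 0 := by
      rw [div_le_div_iff₀ (by positivity) hy0']
      have e2 : (m 0 : ℝ) * y 0 ≤ y 0 ^ 16 := by
        rw [hm, ← pow_succ]
        exact pow_le_pow_right₀ h1 (by norm_num)
      have e3 : (1 + η) * (m 0 : ℝ) + 3 ≤ 5 * m 0 := by nlinarith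
      have e4 := mul_le_mul_of_nonneg_right e3 hy0'.le
      nlinarith
    have h4 : 162 / y 0 + 1630 / y 0 ≤ ξ / 2 := by
      rw [← add_div, div_le_iff₀ hy0']
      linarith
    rw [e1]
    linarith

end Crest.Agent.R149
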