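import Crest.Agent.R149.MS
import Crest.Agent.R149.RefLower
import Crest.Agent.R149.RefUpper
import Crest.Agent.R149.Tail
import Crest.Agent.R149.Ext
import Crest.Agent.R149.RealKink

/-! The core theorem: any two-step core can be completed by an attractive tail to a potential
whose free energy has a kink in the inverse temperature on an interval of densities. -/

namespace Crest.Agent.R149

open MeasureTheory Crest.ProbabilityR.Continuum Filter Topology
open scoped ENNReal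

theorem Levels.e_nonneg {w : ℝ → ℝ} (D : Levels w) (j : ℕ) : 0 ≤ D.e j := by
  refine le_trans ?_ (D.lam_le j)
  have := D.lam_nonneg j
  positivity

/-- Multiplying the tail by a constant `κ ≥ 1`. -/
noncomputable def Levels.smul {w : ℝ → ℝ} (D : Levels w) (κ : ℝ) (hκ : 1 ≤ κ) :
    Levels fun r => κ * w r where
  m := D.m
  t := D.t
  ws j r := κ * D.ws j r
  wl j r := κ * D.wl j r
  Ap j := κ * D.Ap j
  γ j := κ * D.γ j
  e j := κ * D.e j
  lam := D.lam
  m_pos := D.m_pos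
  t_pos := D.t_pos
  dvd₁ := D.dvd₁
  dvd₂ := D.dvd₂
  split j r := by rw [D.split j r]; ring
  wl_zero r := by rw [D.wl_zero]
  ws_meas j := (D.ws_meas j).const_mul κ
  ws_nonneg j r := mul_nonneg (by linarith) (D.ws_nonneg j r)
  ws_zero j r h := by rw [D.ws_zero j r h, mul_zero]
  lam_nonneg := D.lam_nonneg
  wl_nonneg j r := mul_nonneg (by linarith) (D.wl_nonneg j r)
  wl_anti j := fun a b h => mul_le_mul_of_nonneg_left (D.wl_anti j h) (by linarith)
  row j F := by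
    rw [← Finset.mul_sum]
    exact mul_le_mul_of_nonneg_left (D.row j F) (by linarith)
  low j := by
    obtain ⟨F, hF, h⟩ := D.low j
    refine ⟨F, hF, ?_⟩
    rw [← Finset.mul_sum, mul_div_assoc, ← mul_sub]
    exact mul_le_mul_of_nonneg_left h (by linarith)
  γ_pos j := mul_pos (by linarith) (D.γ_pos j)
  γ_le j r h := mul_le_mul_of_nonneg_left (D.γ_le j r h) (by linarith)
  lam_le j := (D.lam_le j).trans (le_mul_of_one_le_left (D.e_nonneg j) hκ)
  e_tendsto := by simpa using D.e_tendsto.const_mul κ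

theorem core_upper {η : ℝ} {φ₀ w : ℝ → ℝ} (hadm : Adm fun r => φ₀ r - w r)
    (hφ₀ : Measurable φ₀) (hη : 0 < η) (hη1 : η ≤ 2 / 5)
    (hneg : ∀ r, 9 / 5 + η / 2 ≤ r → φ₀ r ≤ 0) (hw0 : ∀ r, 0 ≤ w r) (hanti : Antitone w)
    {m : ℝ} (hm : 0 ≤ m) (F : Finset Site) (hF : (0 : Site) ∉ F) {S : ℝ}
    (hS : S ≤ ∑ z ∈ F, w (((1 + η) * m + 3) * (‖emb z‖ + 2))) (k : ℕ) {h β : ℝ} (hβ : 0 ≤ β)
    (hsmall : ENNReal.ofReal (Real.exp (-h)) ≤ Z φ₀ (η / 2) k β) :
    ((1 + η) * m + 3) ^ 3 *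
        fe (fun r => φ₀ r - w r) β (k * (sepNum (9 / 5) m / ((1 + η) * m + 3) ^ 3)) ≤
      sepNum (9 / 5) m * h - β / 2 * S * ((k : ℝ) * sepNum (9 / 5) m) ^ 2 := by
  have hm' : 2 < (1 + η) * m + 3 := by nlinarith
  have h1 := cp_bound hadm hφ₀ (fun r hr => hneg r (by linarith)) hw0 hanti (fun _ => rfl) hm' F hF
    (k * sepNum (9 / 5) m) hβ
  have h2 := ref_upper hη (by linarith) hm hφ₀ hneg hβ k
  have h3 : (1 + η) * m + 3 - 2 = (1 + η) * m + 1 := by ring
  rw [h3] at h1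
  have h4 : ENNReal.ofReal (Real.exp (-h)) ^ sepNum (9 / 5) m ≤ _ :=
    (pow_le_pow_left' hsmall _).trans (h2.trans h1)
  rw [← ENNReal.ofReal_pow (Real.exp_pos _).le, ENNReal.ofReal_le_ofReal_iff (Real.exp_pos _).le,
    ← Real.exp_nat_mul, Real.exp_le_exp] at h4
  push_cast at h4
  rw [mul_div_assoc] at h4
  have h5 : β / 2 * S * ((k : ℝ) * sepNum (9 / 5) m) ^ 2 ≤
      β / 2 * (∑ z ∈ F, w (((1 + η) * m + 3) * (‖emb z‖ + 2))) *
        ((k : ℝ) * sepNum (9 / 5) m) ^ 2 := by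
    gcongr
  linarith

theorem core_pure {K ε d₂ : ℝ} {φ₀ w : ℝ → ℝ} (hcore : IsCore K ε d₂ φ₀) (hK : 0 < K) (hε : 0 < ε)
    (hε1 : ε ≤ 1) (hσ : ε ^ 3 * Real.exp (50 * K) ≤ 1) (hadm : Adm fun r => φ₀ r - w r)
    {m u η E ξ β r : ℝ} (hm : 0 < m) (hu : 1 / 9 ≤ u) (hP : sepNum (9 / 5) m / m ^ 3 ≤ u * (1 + η))
    (hKE : 9 / K + 162 * ξ ≤ E) (hξ : 0 ≤ ξ) (hr : 0 ≤ r)
    (hms : ∀ γ', UB (fun r => φ₀ r - w r) β (u * r)
      (fun L _ => {x | en w x ≤ K / u / 2 * ((u * r) ^ 2 + 2 * ξ) * L ^ 3}) γ' →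
        γ' ≤ fe (fun r => φ₀ r - w r) β (u * r)) :
    PurePhase (fun β r => fe (fun r => φ₀ r - w r) β (u * r) / (K * u)) E η β r := by
  intro β' β'' θ μ π hβ' hβ'' hβ''2 hθ0 hθ1 hβ hline
  have hu0 : 0 < u := by linarith
  have hur : 0 ≤ u * r := by positivity
  have h1 : UB (fun r => φ₀ r - w r) β' (u * r)
      (fun L _ => {x | en w x ≤ K / u / 2 * ((u * r) ^ 2 + 2 * ξ) * L ^ 3})
      (fe (fun r => φ₀ r - w r) β' (u * r)) :=
    UB_mono (UB_univ_fe hadm hβ'.le hur) le_rfl (Eventually.of_forall fun _ => Set.subset_univ _)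
  have h2 : UB (fun r => φ₀ r - w r) β'' (u * r)
      (fun L _ => {x | en w x ≤ K / u / 2 * ((u * r) ^ 2 + 2 * ξ) * L ^ 3})
      (K * μ * (u * r) - K * π * (sepNum (9 / 5) m / m ^ 3) - 1 - 8 * (u * r) +
        -(β'' * (K / u / 2 * ((u * r) ^ 2 + 2 * ξ)))) := by
    refine UB_of_pointwise hcore.meas (ref_UB hcore hK.le hε hε1 hσ hβ''.le hline hur hm)
      (Eventually.of_forall fun L x hx => ?_)
    have h3 : en w x ≤ K / u / 2 * ((u * r) ^ 2 + 2 * ξ) * L ^ 3 := hx.2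
    rw [en_sub (φ := fun r => φ₀ r - w r) (ψ := φ₀) (χ := w) (fun _ => rfl)]
    have := mul_le_mul_of_nonneg_left h3 hβ''.le
    linarith
  have h3 := UB_holder hadm.meas hθ0 hθ1 h1 h2
  rw [← hβ] at h3
  have h4 := hms _ h3
  have hKu : 0 < K * u := by positivity
  have hπ : 0 ≤ π := hline.1
  have h5 : (μ * r - π * (1 + η) - β'' * r ^ 2 / 2 - E * (1 + r)) * (K * u) ≤
      K * μ * (u * r) - K * π * (sepNum (9 / 5) m / m ^ 3) - 1 - 8 * (u * r) +
        -(β'' * (K / u / 2 * ((u * r) ^ 2 + 2 * ξ))) := by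
    have e1 : K * π * (sepNum (9 / 5) m / m ^ 3) ≤ K * π * (u * (1 + η)) := by gcongr
    have e2 : β'' * (K / u / 2 * ((u * r) ^ 2 + 2 * ξ)) =
        β'' * r ^ 2 / 2 * (K * u) + β'' * ξ * (K / u) := by
      field_simp
    have e3 : K / u ≤ 81 * (K * u) := by
      rw [div_le_iff₀ hu0]
      have : 1 ≤ 81 * (u * u) := by nlinarith
      nlinarith
    have e4 : β'' * ξ * (K / u) ≤ 2 * ξ * (81 * (K * u)) := by gcongr
    have e5 : 9 / K * (K * u) = 9 * u := by field_simp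
    have e6 : (9 / K + 162 * ξ) * (K * u) ≤ E * (K * u) := by gcongr
    have e7 : 9 / K ≤ E := by linarith
    have e8 : 9 / K * (K * u) * r ≤ E * (K * u) * r := by gcongr
    rw [e5] at e8
    rw [add_mul, e5] at e6
    nlinarith
  show θ * (fe (fun r => φ₀ r - w r) β' (u * r) / (K * u)) + _ ≤
    fe (fun r => φ₀ r - w r) β (u * r) / (K * u)
  rw [le_div_iff₀ hKu, add_mul, mul_assoc θ, div_mul_cancel₀ _ hKu.ne', mul_assoc (1 - θ)]
  have h6 := mul_le_mul_of_nonneg_left h5 (show 0 ≤ 1 - θ by linarith)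
  linarith

theorem core_unit {φ₀ : ℝ → ℝ} (hφ₀ : Measurable φ₀) (D : ℕ) :
    ∃ c : ℝ, 0 ≤ c ∧ ∀ n, n ≤ D → ENNReal.ofReal (Real.exp (-c)) ≤ Z φ₀ 1 n 2 := by
  have h1 : ∀ n : ℕ, ∃ c : ℝ, 0 ≤ c ∧ ENNReal.ofReal (Real.exp (-c)) ≤ Z φ₀ 1 n 2 := by
    intro n
    have hpos := Z_pos hφ₀ one_pos n 2
    have ht : Tendsto (fun c : ℝ => ENNReal.ofReal (Real.exp (-c))) atTop (𝓝 0) := by
      have := ENNReal.tendsto_ofReal Real.tendsto_exp_neg_atTop_nhds_zero
      simpa using this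
    obtain ⟨c, hc⟩ := ((ht.eventually (gt_mem_nhds hpos)).and (eventually_ge_atTop 0)).exists
    exact ⟨c, hc.2, hc.1.le⟩
  choose c hc0 hc using h1
  refine ⟨∑ n ∈ Finset.range (D + 1), c n, Finset.sum_nonneg fun n _ => hc0 n, fun n hn => ?_⟩
  refine le_trans (ENNReal.ofReal_le_ofReal (Real.exp_le_exp.2 (neg_le_neg ?_))) (hc n)
  exact Finset.single_le_sum (fun n _ => hc0 n) (Finset.mem_range.2 (by omega))

theorem core : ∃ K ε d₂ : ℝ, 0 < K ∧ 0 < ε ∧ ε ≤ 1 ∧ 9 / 5 < d₂ ∧ d₂ ≤ 2 ∧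
    ∀ φ₀ : ℝ → ℝ, IsCore K ε d₂ φ₀ → ∃ w : ℝ → ℝ, Continuous w ∧ (∀ r, 0 ≤ w r) ∧
      (∃ C : ℝ, ∀ r, w r ≤ C) ∧
      (∃ C : ℝ, ∀ r : ℝ, 1 ≤ r → w r ≤ C * r ^ (-(3 + 1 / 32 : ℝ))) ∧
      (∃ a : ℝ, 0 < a ∧ ∀ r, r ≤ 4 → a ≤ w r) ∧ (Adm fun r => φ₀ r - w r) ∧
      ∃ ρ₁ ρ₂ βc : ℝ, 0 < ρ₁ ∧ ρ₁ < ρ₂ ∧ 997 / 1000 ≤ βc ∧ βc ≤ 1003 / 1000 ∧
        ∀ ρ, ρ₁ < ρ → ρ < ρ₂ → ∃ Dl Dr : ℝ,
          HasDerivWithinAt (fun β => fe (fun r => φ₀ r - w r) β ρ) Dl (Set.Iio βc) βc ∧
          HasDerivWithinAt (fun β => fe (fun r => φ₀ r - w r) β ρ) Dr (Set.Ioi βc) βc ∧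
          Dr < Dl := by
  -- absolute constants
  set η : ℝ := 1 / 10 ^ 11 with hηdef
  have hη0 : 0 < η := by positivity
  have hη1 : η ≤ 1 / 10 ^ 11 := le_rfl
  clear_value η
  obtain ⟨C, hC0, hC⟩ := small_cluster (η₀ := η / 2) (by positivity) (by linarith)
  obtain ⟨K, hK1, hK2, hK3⟩ : ∃ K : ℝ, 2000000 ≤ K ∧ 200000 * C ≤ K ∧ 1 / η ≤ K :=
    ⟨max 2000000 (max (200000 * C) (1 / η)), le_max_left _ _,
      (le_max_left _ _).trans (le_max_right _ _), (le_max_right _ _).trans (le_max_right _ _)⟩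
  have hK : 0 < K := by linarith
  set ε : ℝ := Real.exp (-(50 * K / 3)) with hεdef
  have hε0 : 0 < ε := Real.exp_pos _
  have hεσ : ε ^ 3 * Real.exp (50 * K) = 1 := by
    rw [hεdef, ← Real.exp_nat_mul, ← Real.exp_add]
    push_cast
    rw [show (3 : ℝ) * -(50 * K / 3) + 50 * K = 0 by ring, Real.exp_zero]
  have hεη : ε ≤ η / 2 := by
    have h1 : 50 * K / 3 + 1 ≤ Real.exp (50 * K / 3) := Real.add_one_le_exp _
    have h2 : 1 ≤ K * η := by rwa [div_le_iff₀ hη0] at hK3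
    rw [hεdef, Real.exp_neg, inv_le_comm₀ (Real.exp_pos _) (by positivity)]
    refine le_trans ?_ h1
    rw [inv_le_comm₀ (by positivity) (by positivity), inv_le_iff_one_le_mul₀ (by positivity)]
    nlinarith
  clear_value ε
  refine ⟨K, ε, 9 / 5 + η / 2, hK, hε0, by linarith, by linarith, by linarith, fun φ₀ hcore => ?_⟩
  have hneg2 : ∀ r, 2 ≤ r → φ₀ r ≤ 0 := fun r hr => hcore.up₃ r (by linarith)
  -- constants depending on the core
  obtain ⟨c, hc0, hc⟩ := core_unit hcore.meas 1080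
  obtain ⟨C₁, hC₁, hext⟩ := ext_points (K / 2) (max (11 * K) c) (by positivity)
  obtain ⟨C₂, hC₂, hms⟩ := multiscale (11 * K) (2 * K) C₁ (by positivity) (by positivity) hC₁
  set ξ : ℝ := 1 / 10 ^ 9 with hξdef
  have hξ0 : 0 < ξ := by positivity
  have hξ1 : ξ ≤ 1 / 10 ^ 9 := le_rfl
  clear_value ξ
  obtain ⟨w, D, hwc, hw0, ⟨Cw, hCw⟩, ⟨Cd, hCd⟩, ⟨a, ha0, ha⟩, hM, hA1, hA2, hsum, hdil⟩ :=
    exists_tail (min ξ (ξ / C₂)) (by positivity) ⌈3 / η⌉₊
  set m : ℝ := ((D.m 0 : ℕ) : ℝ) with hmdef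
  have hm0 : 0 < m := by
    rw [hmdef]
    exact_mod_cast D.m_pos 0
  have hmη : 3 ≤ η * m := by
    have : 3 / η ≤ m := (Nat.le_ceil _).trans (by rw [hmdef]; exact_mod_cast hM)
    rw [div_le_iff₀ hη0] at this
    linarith
  set P : ℝ := ((sepNum (9 / 5) m : ℕ) : ℝ) with hPdef
  set m' : ℝ := (1 + η) * m + 3 with hm'def
  have hm'1 : m + 1 ≤ m' := by nlinarith
  have hm'2 : m' ≤ (1 + 2 * η) * m := by nlinarith
  have hm'0 : 0 < m' := by linarith
  have hm'3 : m' ^ 3 ≤ (1 + 1 / 10000000) * m ^ 3 := by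
    calc m' ^ 3 ≤ ((1 + 2 * η) * m) ^ 3 := by gcongr
      _ = (1 + 2 * η) ^ 3 * m ^ 3 := by ring
      _ ≤ (1 + 2 * (1 / 10 ^ 11)) ^ 3 * m ^ 3 := by gcongr
      _ ≤ _ := by gcongr; norm_num
  have hP1 : (m / 2) ^ 3 ≤ P := le_sepNum hm0.le
  have hP2 : P ≤ (m + 1) ^ 3 := sepNum_le_cube hm0.le
  have hm3 : 0 < m ^ 3 := by positivity
  have hP0 : 0 < P := lt_of_lt_of_le (by positivity) hP1
  set u : ℝ := P / m' ^ 3 with hudef
  have hu1 : u ≤ 1 := by
    rw [hudef, div_le_one (by positivity)]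
    exact hP2.trans (by gcongr)
  have hu9 : 1 / 9 ≤ u := by
    rw [hudef, le_div_iff₀ (by positivity)]
    nlinarith
  have hu0 : 0 < u := by linarith
  set A : ℝ := D.Ap 0 * m ^ 3 with hAdef
  have hA0 : 0 < A := by linarith
  set κ : ℝ := K / (u * A) with hκdef
  have hκ1 : 1 ≤ κ := by
    rw [hκdef, le_div_iff₀ (by positivity)]
    nlinarith
  have hκA : (D.smul κ hκ1).Ap 0 * ((D.smul κ hκ1).m 0 : ℝ) ^ 3 = K / u := by
    show κ * D.Ap 0 * m ^ 3 = K / u
    rw [mul_assoc, ← hAdef, hκdef]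
    field_simp
  have hKu : K / u ≤ 9 * K := by
    rw [div_le_iff₀ hu0]
    nlinarith
  have hac : (D.smul κ hκ1).Ap 0 * ((D.smul κ hκ1).m 0 : ℝ) ^ 3 + 2 * K ≤ 11 * K := by
    rw [hκA]
    linarith
  have hwm : Measurable fun r => κ * w r := hwc.measurable.const_mul κ
  have hadm : Adm fun r => φ₀ r - κ * w r :=
    adm_of_levels (D.smul κ hκ1) (by positivity) hcore.meas hwm hcore.nonneg hcore.lo₁ hneg2 hac
  have hκ0 : 0 < κ := by linarith
  have hwanti : Antitone fun r => κ * w r := by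
    intro s t hst
    have := D.wl_anti 0 hst
    rw [D.wl_zero, D.wl_zero] at this
    exact mul_le_mul_of_nonneg_left this hκ0.le
  have hKu0 : 0 < K * u := by positivity
  -- the real-variable theorem
  obtain ⟨βc, hβc1, hβc2, hkink⟩ := real_kink
    (fun β r => fe (fun r => φ₀ r - κ * w r) β (u * r) / (K * u)) (1 / 100000) (1 / 10000000)
    (by norm_num) le_rfl (by norm_num) le_rfl
    (fun r hr => by
      have := (fe_concaveOn hadm (mul_nonneg hu0.le hr)).smul (inv_nonneg.2 hKu0.le)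
      simpa [div_eq_inv_mul] using this)
    (fun b hb => by
      have h1 := (fe_convexOn hadm hb.le).smul (inv_nonneg.2 hKu0.le)
      refine ⟨convex_Ici 0, fun x hx y hy s t hs ht hst => ?_⟩
      have h2 := h1.2 (show u * x ∈ Set.Ici 0 from mul_nonneg hu0.le hx)
        (show u * y ∈ Set.Ici 0 from mul_nonneg hu0.le hy) hs ht hst
      simp only [smul_eq_mul] at h2 ⊢
      rw [show u * (s * x + t * y) = s * (u * x) + t * (u * y) by ring]
      simpa [div_eq_inv_mul] using h2)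
    (fun β hβ1 hβ2 => by
      have hβ0 : 0 ≤ β := by linarith
      obtain ⟨F, hF, hFS⟩ := hdil η hη0.le (by linarith)
      obtain ⟨h2, h3, h4⟩ := hC K ε _ φ₀ β hcore hK.le hε0 hεη hεσ.ge hβ0
      have hS : κ * (D.Ap 0 - (54 * η + ξ) / m ^ 3) ≤
          ∑ z ∈ F, κ * w (((1 + η) * m + 3) * (‖emb z‖ + 2)) := by
        rw [← Finset.mul_sum]
        refine mul_le_mul_of_nonneg_left (le_trans ?_ hFS) hκ0.le
        have : min ξ (ξ / C₂) ≤ ξ := min_le_left _ _
        gcongr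
      -- normalised lattice sum
      have hS1 : (1 - 128 * (54 * η + ξ)) * K ≤ P * (κ * (D.Ap 0 - (54 * η + ξ) / m ^ 3)) := by
        have e1 : P * (κ * (D.Ap 0 - (54 * η + ξ) / m ^ 3)) =
            K * (m' ^ 3 / m ^ 3) * (1 - (54 * η + ξ) / A) := by
          rw [hκdef, hudef]
          have : D.Ap 0 = A / m ^ 3 := by rw [hAdef]; field_simp
          rw [this]
          field_simp
        have e2 : (54 * η + ξ) / A ≤ 128 * (54 * η + ξ) := by
          rw [div_le_iff₀ hA0]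
          have : 0 ≤ 54 * η + ξ := by positivity
          nlinarith
        have e3 : 1 ≤ m' ^ 3 / m ^ 3 := by
          rw [le_div_iff₀ hm3, one_mul]
          gcongr
          linarith
        have e4 : 0 ≤ 1 - 128 * (54 * η + ξ) := by linarith
        rw [e1]
        calc (1 - 128 * (54 * η + ξ)) * K = K * 1 * (1 - 128 * (54 * η + ξ)) := by ring
          _ ≤ _ := by gcongr
      have key : ∀ (k : ℕ) (h : ℝ), k ≤ 4 →
          ENNReal.ofReal (Real.exp (-(h * K + C))) ≤ Z φ₀ (η / 2) k β →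
          fe (fun r => φ₀ r - κ * w r) β (u * k) / (K * u) ≤
            h - β * (k : ℝ) ^ 2 / 2 + 1 / 100000 := by
        intro k h hk hZ
        have h5 := core_upper hadm hcore.meas hη0 (by linarith) hcore.up₃
          (fun r => mul_nonneg hκ0.le (hw0 r)) hwanti hm0.le F hF hS k hβ0 hZ
        rw [← hPdef, ← hm'def, ← hudef, mul_comm (k : ℝ) u] at h5
        have hk' : (k : ℝ) ^ 2 ≤ 16 := by
          have : (k : ℝ) ≤ 4 := by exact_mod_cast hk
          calc (k : ℝ) ^ 2 ≤ 4 ^ 2 := by gcongr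
            _ = 16 := by norm_num
        have e1 : β / 2 * (k : ℝ) ^ 2 * P * ((1 - 128 * (54 * η + ξ)) * K) ≤
            β / 2 * (κ * (D.Ap 0 - (54 * η + ξ) / m ^ 3)) * (k * P) ^ 2 := by
          calc _ ≤ β / 2 * (k : ℝ) ^ 2 * P * (P * (κ * (D.Ap 0 - (54 * η + ξ) / m ^ 3))) := by
                gcongr
            _ = _ := by ring
        have e2 : β * (k : ℝ) ^ 2 * (64 * (54 * η + ξ)) ≤ 1 / 200000 := by
          calc β * (k : ℝ) ^ 2 * (64 * (54 * η + ξ))
              ≤ (1003 / 1000) * 16 * (64 * (54 * (1 / 10 ^ 11) + 1 / 10 ^ 9)) := by gcongr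
            _ ≤ 1 / 200000 := by norm_num
        have e3 : m' ^ 3 * (K * u) = K * P := by
          rw [hudef]
          field_simp
        rw [div_le_iff₀ hKu0, ← mul_le_mul_iff_right₀ (show 0 < m' ^ 3 by positivity),
          mul_left_comm, e3]
        have e4 : P * C ≤ 1 / 200000 * (K * P) := by
          have := mul_le_mul_of_nonneg_left hK2 hP0.le
          linarith only [this]
        have e5 : β * (k : ℝ) ^ 2 * (64 * (54 * η + ξ)) * (K * P) ≤ 1 / 200000 * (K * P) := by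
          gcongr
        linarith only [h5, e1, e4, e5]
      have k2 := key 2 (43 * β) (by norm_num) h2
      have k3 := key 3 (129 * β) (by norm_num) h3
      have k4 := key 4 (66 * β + 150) (by norm_num) (by rwa [add_mul])
      push_cast at k2 k3 k4
      refine ⟨?_, ?_, ?_⟩ <;> linarith)
    (fun β hβ1 hβ2 => by
      have hβ0 : 0 ≤ β := by linarith
      obtain ⟨α, v, rm, rp, h1, h2, h3, h4, h5, h6, h7, h8, h9, h10, h11⟩ :=
        hext (fe (fun r => φ₀ r - κ * w r) β) (u * (5 / 2)) (fe_convexOn hadm hβ0)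
          (fun ρ hρ => by
            have e1 := fe_ge_quad (D.smul κ hκ1) (by positivity) hcore.meas hwm hcore.nonneg
              hcore.lo₁ hneg2 hac hβ0 hρ
            have e2 : K / 2 * ρ ^ 2 ≤ β * (2 * K) / 2 * ρ ^ 2 := by
              gcongr
              nlinarith
            have e3 : β * (11 * K) / 2 * ρ ≤ max (11 * K) c * ρ := by
              gcongr
              refine le_trans ?_ (le_max_left _ _)
              nlinarith
            linarith)
          (fun ρ hρ hρ5 => by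
            refine le_trans (fe_le_of_unit hadm hβ0 hρ hc0 1080 (by push_cast; linarith)
              fun n hn => (hc n hn).trans ?_) (le_max_right _ _)
            have := ZR_le_of_pointwise hadm.meas 1 n 2 β 0 Set.univ (φ := φ₀) fun x _ => by
              rw [en_sub (φ := fun r => φ₀ r - κ * w r) (ψ := φ₀) (χ := fun r => κ * w r)
                (fun _ => rfl)]
              have e1 := en_nonneg (fun r _ => hcore.nonneg r) x
              have e2 := en_nonneg (fun r _ => mul_nonneg hκ0.le (hw0 r)) x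
              nlinarith
            simpa [Z] using this)
          (by linarith) (by linarith)
      have hpure : ∀ r, 0 < r → r ≤ C₁ → fe (fun r => φ₀ r - κ * w r) β r ≤ C₁ →
          α + v * r = fe (fun r => φ₀ r - κ * w r) β r →
          IsExt (fe (fun r => φ₀ r - κ * w r) β) r →
          PurePhase (fun β r => fe (fun r => φ₀ r - κ * w r) β (u * r) / (K * u))
            (1 / 100000) (1 / 10000000) β (r / u) := by
        intro r hr hrC hfe hl he
        refine core_pure hcore hK hε0 (by linarith) hεσ.le hadm hm0 hu9 ?_ (ξ := ξ) ?_ hξ0.le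
          (by positivity) ?_
        · rw [← hPdef, hudef, div_le_iff₀ hm3, div_mul_eq_mul_div, div_mul_eq_mul_div,
            le_div_iff₀ (by positivity)]
          nlinarith
        · have : 9 / K ≤ 9 / 2000000 := by gcongr
          linarith
        · have e1 : u * (r / u) = r := by field_simp
          rw [e1, ← hκA]
          refine hms φ₀ _ (D.smul κ hκ1) β r α v ξ hcore.meas hwm hcore.nonneg hcore.lo₁ hneg2 hac
            (by linarith) (by linarith) hr hrC h4 hfe h8 hl he hξ0 fun J => ?_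
          have e2 : ∑ j ∈ Finset.range J, (D.smul κ hκ1).e j / ((D.smul κ hκ1).γ j *
              (((D.smul κ hκ1).m j : ℝ) * (D.smul κ hκ1).t j) ^ 3) =
              ∑ j ∈ Finset.range J, D.e j / (D.γ j * ((D.m j : ℝ) * D.t j) ^ 3) := by
            refine Finset.sum_congr rfl fun j _ => ?_
            show κ * D.e j / (κ * D.γ j * ((D.m j : ℝ) * D.t j) ^ 3) = _
            rw [mul_assoc, mul_div_mul_left _ _ hκ0.ne']
          rw [e2]
          calc C₂ * _ ≤ C₂ * (ξ / C₂) := by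
                gcongr
                exact (hsum J).trans (min_le_right _ _)
            _ = ξ := by field_simp
      have hline : ∀ r, α / (K * u) + v / K * r = (α + v * (u * r)) / (K * u) := by
        intro r
        field_simp
      have hdiv : ∀ r, u * (r / u) = r := fun r => by field_simp
      refine ⟨α / (K * u), v / K, rm / u, rp / u, by positivity, ?_, ?_, fun r hr => ?_, ?_,
        hpure rp (by linarith) h5 h7 h9 h10, ?_⟩
      · rw [div_le_iff₀ hu0]
        linarith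
      · rw [le_div_iff₀ hu0]
        linarith
      · rw [hline]
        exact div_le_div_of_nonneg_right (h8 _ (by positivity)) hKu0.le
      · rw [hline, hdiv, h9]
      · rcases h11 with ⟨h12, h13, h14⟩ | ⟨h12, h13⟩
        · refine Or.inl ⟨?_, hpure rm h12 (by linarith) h6 h13 h14⟩
          rw [hline, hdiv, h13]
        · refine Or.inr ⟨by rw [h12, zero_div], ?_⟩
          rw [le_div_iff₀ hKu0]
          nlinarith)
  refine ⟨fun r => κ * w r, continuous_const.mul hwc, fun r => mul_nonneg hκ0.le (hw0 r),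
    ⟨κ * Cw, fun r => mul_le_mul_of_nonneg_left (hCw r) hκ0.le⟩,
    ⟨κ * Cd, fun r hr => by
      rw [mul_assoc]
      exact mul_le_mul_of_nonneg_left (hCd r hr) hκ0.le⟩,
    ⟨κ * a, by positivity, fun r hr => mul_le_mul_of_nonneg_left (ha r hr) hκ0.le⟩, hadm,
    u * (9 / 4), u * (11 / 4), βc, by positivity, by linarith, hβc1, hβc2, fun ρ hρ1 hρ2 => ?_⟩
  obtain ⟨Dl, Dr, hl, hr, hlt⟩ := hkink (ρ / u) (by rw [lt_div_iff₀ hu0]; linarith)
    (by rw [div_lt_iff₀ hu0]; linarith)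
  have e1 : u * (ρ / u) = ρ := by field_simp
  simp only [e1] at hl hr
  refine ⟨Dl * (K * u), Dr * (K * u), ?_, ?_, by gcongr⟩
  · simpa only [div_mul_cancel₀ _ hKu0.ne'] using hl.mul_const (K * u)
  · simpa only [div_mul_cancel₀ _ hKu0.ne'] using hr.mul_const (K * u)

end Crest.Agent.R149
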