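import Mathlib
import Crest.Prelude.Def_PairPotential
import Crest.Prelude.Def_UnitPacking

/-!
Row 149 (S0209, S0210): shared definitions for the construction of a radial pair potential whose
canonical free energy has a kink in the inverse temperature.
-/

namespace Crest.Agent.R149

open MeasureTheory Crest.ProbabilityR.Continuum Filter Topology
open scoped ENNReal

/-- Integer lattice sites. -/
abbrev Site : Type := Fin 3 → ℤ

/-- A lattice site as a point of space. -/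
noncomputable def emb (z : Site) : Pt := WithLp.toLp 2 fun k => (z k : ℝ)

/-- Pair energy of a configuration indexed by any finite type. -/
noncomputable def en (φ : ℝ → ℝ) {ι : Type} [Fintype ι] [DecidableEq ι] (x : ι → Pt) : ℝ :=
  (∑ i, ∑ j, if i = j then 0 else φ (dist (x i) (x j))) / 2

/-- The part of the pair energy between particles with different labels. -/
noncomputable def cross (φ : ℝ → ℝ) {ι B : Type} [Fintype ι] [DecidableEq B] (c : ι → B)
    (x : ι → Pt) : ℝ :=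
  (∑ i, ∑ j, if c i = c j then 0 else φ (dist (x i) (x j))) / 2

/-- The number of ordered pairs (diagonal included) with equal labels, as a real number. -/
noncomputable def pc {ι B : Type} [Fintype ι] [DecidableEq B] (c : ι → B) : ℝ :=
  ∑ i, ∑ j, if c i = c j then (1 : ℝ) else 0

/-- The number of particles with label `b`. -/
def cnt {ι B : Type} [Fintype ι] [DecidableEq B] (c : ι → B) (b : B) : ℕ :=
  (Finset.univ.filter fun i => c i = b).card

/-- The sub-configuration of the particles with label `b`. -/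
def fib {ι B : Type} (c : ι → B) (b : B) (x : ι → Pt) : {i // c i = b} → Pt := fun i => x i.1

/-- Configurations with every particle in the cube of side `L`. -/
def box (ι : Type) (L : ℝ) : Set (ι → Pt) := Set.pi Set.univ fun _ => cube L

/-- Configurations with particle `i` in the translate by `v (c i)` of the cube of side `m`. -/
def inBlocks {ι B : Type} (m : ℝ) (v : B → Pt) (c : ι → B) : Set (ι → Pt) :=
  {x | ∀ i, x i - v (c i) ∈ cube m}

/-- The Boltzmann weight. -/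
noncomputable def boltz (φ : ℝ → ℝ) (β : ℝ) {ι : Type} [Fintype ι] [DecidableEq ι]
    (x : ι → Pt) : ℝ≥0∞ :=
  ENNReal.ofReal (Real.exp (-β * en φ x))

/-- The partition function restricted to an arbitrary set of configurations. -/
noncomputable def ZR (φ : ℝ → ℝ) (L : ℝ) (N : ℕ) (β : ℝ) (A : Set (Fin N → Pt)) : ℝ≥0∞ :=
  (∫⁻ x in box (Fin N) L ∩ A, boltz φ β x) / (N.factorial : ℝ≥0∞)

/-- The partition function, valued in the extended non-negative reals. -/
noncomputable def Z (φ : ℝ → ℝ) (L : ℝ) (N : ℕ) (β : ℝ) : ℝ≥0∞ := ZR φ L N β Set.univ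

/-- The unit cell containing a point. -/
noncomputable def cell (y : Pt) : Site := fun k => ⌊y k⌋

/-- The block of side `m`, for the grid with offset `s`, containing a unit cell. -/
def blk (m : ℕ) (s u : Site) : Site := fun k => (u k + s k) / (m : ℤ)

/-- Block labels of the particles of a configuration. -/
noncomputable def bl (m : ℕ) (s : Site) {ι : Type} (x : ι → Pt) : ι → Site :=
  fun i => blk m s (cell (x i))

/-- Pair count for the unit cells. -/
noncomputable def pcu {ι : Type} [Fintype ι] (x : ι → Pt) : ℝ := pc fun i => cell (x i)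

/-- The offsets `[0, T)^3`. -/
noncomputable def offsets (T : ℕ) : Finset Site :=
  Fintype.piFinset fun _ => Finset.Ico (0 : ℤ) (T : ℤ)

/-- Admissible potentials: measurable, stable, non-positive from distance `2` on. -/
structure Adm (φ : ℝ → ℝ) : Prop where
  meas : Measurable φ
  stab : ∃ B : ℝ, ∀ (N : ℕ) (x : Fin N → Pt), -B * N ≤ en φ x
  neg : ∀ r, 2 ≤ r → φ r ≤ 0

/-- `β` times the free energy per volume (a junk value if the limit does not exist). -/
noncomputable def fe (φ : ℝ → ℝ) (β ρ : ℝ) : ℝ :=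
  limUnder atTop fun L : ℝ => -Real.log (partitionFn φ L ⌊ρ * L ^ 3⌋₊ β) / L ^ 3

/-- A family of events, one for each box side and particle number. -/
abbrev Ev : Type := ℝ → (N : ℕ) → Set (Fin N → Pt)

/-- The restricted partition function at density `ρ` decays at rate at least `γ`. -/
def UB (φ : ℝ → ℝ) (β ρ : ℝ) (A : Ev) (γ : ℝ) : Prop :=
  ∀ γ' : ℝ, γ' < γ → ∀ᶠ L : ℝ in atTop,
    ZR φ L ⌊ρ * L ^ 3⌋₊ β (A L ⌊ρ * L ^ 3⌋₊) ≤ ENNReal.ofReal (Real.exp (-γ' * L ^ 3))

/-- Cardinalities of `d`-separated finite subsets of the cube of side `L`. -/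
def sepSet (d L : ℝ) : Set ℕ :=
  {n | ∃ X : Finset Pt, X.card = n ∧ (∀ x ∈ X, x ∈ cube L) ∧
    ∀ x ∈ X, ∀ y ∈ X, x ≠ y → d ≤ dist x y}

/-- The largest cardinality of a `d`-separated finite subset of the cube of side `L`. -/
noncomputable def sepNum (d L : ℝ) : ℕ := sSup (sepSet d L)

/-- The short-range part of the potential: a two-step core. -/
structure IsCore (K ε d₂ : ℝ) (φ₀ : ℝ → ℝ) : Prop where
  meas : Measurable φ₀
  nonneg : ∀ r, 0 ≤ φ₀ r
  lo₁ : ∀ r, 0 ≤ r → r < 9 / 5 → 11 * K ≤ φ₀ r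
  lo₂ : ∀ r, ε ≤ r → r < 9 / 5 → 43 * K ≤ φ₀ r
  up₁ : ∀ r, ε / 20 ≤ r → r ≤ ε / 2 → φ₀ r ≤ 11 * K
  up₂ : ∀ r, ε / 20 ≤ r → φ₀ r ≤ 43 * K
  up₃ : ∀ r, d₂ ≤ r → φ₀ r ≤ 0

/-- The line `k ↦ μ k - π` lies below both branches of the site energy. -/
def AdmLine (β μ π : ℝ) : Prop :=
  0 ≤ π ∧ ∀ k : ℕ, 1 ≤ k →
    μ * k - π ≤ 43 * β * ((k : ℝ) * (k - 1) / 2) ∧
    μ * k - π ≤ 11 * β * ((k : ℝ) * (k - 1) / 2) + 50 * (k - 1)

/-- Quantitative form of "`r` is an extreme point of the graph of `g` on `[0, ∞)`". -/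
def IsExt (g : ℝ → ℝ) (r : ℝ) : Prop :=
  ∀ ε : ℝ, 0 < ε → ∃ κ : ℝ, 0 < κ ∧ ∃ v : ℝ, ∀ ρ : ℝ, 0 ≤ ρ →
    g r + v * (ρ - r) + κ * ((ρ - r) ^ 2 - ε) ≤ g ρ

/-- Multi-scale data for the attractive tail `w`. At level `j` space is cut into blocks of side
`m j`; `ws j` is the part of the tail of range much shorter than a block, `wl j` the part of range
much longer than a block. -/
structure Levels (w : ℝ → ℝ) where
  m : ℕ → ℕ
  t : ℕ → ℕ
  ws : ℕ → ℝ → ℝ
  wl : ℕ → ℝ → ℝ
  Ap : ℕ → ℝ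
  γ : ℕ → ℝ
  e : ℕ → ℝ
  lam : ℕ → ℝ
  m_pos : ∀ j, 0 < m j
  t_pos : ∀ j, 0 < t j
  dvd₁ : ∀ j, m j ∣ m (j + 1)
  dvd₂ : ∀ j, m (j + 1) ∣ m j * t j
  split : ∀ j r, w r = ws j r + wl j r
  wl_zero : ∀ r, wl 0 r = w r
  ws_meas : ∀ j, Measurable (ws j)
  ws_nonneg : ∀ j r, 0 ≤ ws j r
  ws_zero : ∀ j r, lam j ≤ r → ws j r = 0
  lam_nonneg : ∀ j, 0 ≤ lam j
  wl_nonneg : ∀ j r, 0 ≤ wl j r
  wl_anti : ∀ j, Antitone (wl j)
  row : ∀ j (F : Finset Site), ∑ z ∈ F, wl j (m j * (‖emb z‖ - 2)) ≤ Ap j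
  low : ∀ j, ∃ F : Finset Site, (0 : Site) ∉ F ∧
    Ap j - e j / (m j : ℝ) ^ 3 ≤ ∑ z ∈ F, wl j ((m j + 2) * (‖emb z‖ + 2))
  γ_pos : ∀ j, 0 < γ j
  γ_le : ∀ j r, r ≤ 2 * (m j * t j) → γ j ≤ wl j r
  lam_le : ∀ j, 2 ^ j * (lam j + 1) / m j ≤ e j
  e_tendsto : Tendsto e atTop (𝓝 0)

/-- The clamped ramp `1` on `(-∞, 0]`, `1 - r` on `[0, 1]`, `0` on `[1, ∞)`. -/
noncomputable def ramp (r : ℝ) : ℝ := max 0 (min 1 (1 - r))

/-- The hypothesis on a pure phase at (normalised) density `r` used by the real-variable part. -/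
def PurePhase (G : ℝ → ℝ → ℝ) (E η β r : ℝ) : Prop :=
  ∀ β' β'' θ μ π : ℝ, 0 < β' → 0 < β'' → β'' ≤ 2 → 0 ≤ θ → θ ≤ 1 →
    β = θ * β' + (1 - θ) * β'' → AdmLine β'' μ π →
    θ * G β' r + (1 - θ) * (μ * r - π * (1 + η) - β'' * r ^ 2 / 2 - E * (1 + r)) ≤ G β r

end Crest.Agent.R149
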