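import Crest.Agent.R149.Basic

/-! Lattice sums of one Kac kernel. -/

namespace Crest.Agent.R149

open MeasureTheory Crest.ProbabilityR.Continuum Filter Topology
open scoped ENNReal

theorem ramp_nonneg (r : ℝ) : 0 ≤ ramp r := by
  exact le_max_left _ _

theorem ramp_le_one (r : ℝ) : ramp r ≤ 1 := by
  exact max_le zero_le_one (min_le_left _ _)

theorem ramp_antitone : Antitone ramp := by
  intro a b h
  exact max_le_max le_rfl (min_le_min le_rfl (by linarith))

theorem ramp_eq_zero {r : ℝ} (h : 1 ≤ r) : ramp r = 0 := by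
  exact max_eq_left ((min_le_right _ _).trans (by linarith))

theorem ramp_eq_one {r : ℝ} (h : r ≤ 0) : ramp r = 1 := by
  unfold ramp
  rw [min_eq_left (by linarith), max_eq_right zero_le_one]

theorem half_le_ramp {r : ℝ} (h : r ≤ 1 / 2) : 1 / 2 ≤ ramp r := by
  exact le_max_of_le_right (le_min (by norm_num) (by linarith))

theorem continuous_ramp : Continuous ramp := by
  unfold ramp
  fun_prop

theorem ramp_sub_le {a b : ℝ} (h : a ≤ b) : ramp a - ramp b ≤ b - a := by
  unfold ramp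
  simp only [max_def, min_def]
  split_ifs <;> linarith

theorem kernel_abs_le_norm (z : Site) (k : Fin 3) : |(z k : ℝ)| ≤ ‖emb z‖ := by
  have := PiLp.norm_apply_le (emb z) k
  simpa [emb] using this

theorem kernel_norm_le (z : Site) (a : ℝ) (ha : 0 ≤ a) (h : ∀ k, |(z k : ℝ)| ≤ a) :
    ‖emb z‖ ≤ 2 * a := by
  rw [EuclideanSpace.norm_eq]
  refine Real.sqrt_le_iff.2 ⟨by positivity, ?_⟩
  have h2 : ∀ k, ‖emb z k‖ ^ 2 ≤ a ^ 2 := by
    intro k
    have : ‖emb z k‖ = |(z k : ℝ)| := by simp [emb]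
    rw [this]
    exact pow_le_pow_left₀ (abs_nonneg _) (h k) 2
  rw [Fin.sum_univ_three]
  nlinarith [h2 0, h2 1, h2 2, sq_nonneg a]

theorem kernel_single {l m : ℝ} (hm : 1 ≤ m) (hl : 8 * m ≤ l) :
    ∃ S : ℝ, (l / m) ^ 3 / 128 ≤ S ∧ S ≤ 27 * (l / m) ^ 3 ∧
      (∀ F : Finset Site, ∑ z ∈ F, ramp (m * (‖emb z‖ - 2) / l) ≤ S) ∧
      ∀ m' : ℝ, m ≤ m' → ∃ F : Finset Site, (0 : Site) ∉ F ∧
        S - (l / m) ^ 3 * (27 * (m' - m) / m + 163 * m' / l) ≤
          ∑ z ∈ F, ramp (m' * (‖emb z‖ + 2) / l) := by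
  classical
  have hm0 : 0 < m := by linarith
  have hl0 : 0 < l := by linarith
  set q : ℝ := l / m with hq
  have hq8 : 8 ≤ q := by rw [hq, le_div_iff₀ hm0]; exact hl
  have hlq : l = q * m := by rw [hq]; field_simp
  set R : ℕ := ⌈q⌉₊ + 1 with hR
  have hR1 : q + 1 ≤ R := by rw [hR]; push_cast; linarith [Nat.le_ceil q]
  have hR2 : (R : ℝ) ≤ q + 2 := by
    rw [hR]; push_cast; linarith [Nat.ceil_lt_add_one (show 0 ≤ q by linarith)]
  set W : Finset Site := Fintype.piFinset fun _ => Finset.Icc (-(R : ℤ)) R with hW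
  let a : Site → ℝ := fun z => ramp (m * (‖emb z‖ - 2) / l)
  have ha0 : ∀ z, q + 2 ≤ ‖emb z‖ → a z = 0 := by
    intro z hz
    refine ramp_eq_zero ?_
    rw [le_div_iff₀ hl0, hlq]
    nlinarith
  have hWout : ∀ z, z ∉ W → a z = 0 := by
    intro z hz
    rw [hW, Fintype.mem_piFinset] at hz
    push Not at hz
    obtain ⟨k, hk⟩ := hz
    rw [Finset.mem_Icc] at hk
    have h1 : (R : ℤ) + 1 ≤ |z k| := by
      rcases abs_cases (z k) with h | h <;> omega
    have h2 : (R : ℝ) + 1 ≤ |(z k : ℝ)| := by exact_mod_cast h1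
    exact ha0 z (by linarith [kernel_abs_le_norm z k])
  have hcard : (W.card : ℝ) ≤ 27 * q ^ 3 := by
    have h1 : W.card = (2 * R + 1) ^ 3 := by
      rw [hW, Fintype.card_piFinset]
      simp only [Int.card_Icc, Finset.prod_const, Finset.card_univ, Fintype.card_fin]
      congr 1
      omega
    rw [h1]
    push_cast
    have : 2 * (R : ℝ) + 1 ≤ 3 * q := by linarith
    calc (2 * (R : ℝ) + 1) ^ 3 ≤ (3 * q) ^ 3 := by gcongr
      _ = 27 * q ^ 3 := by ring
  have hrow : ∀ F : Finset Site, ∑ z ∈ F, a z ≤ ∑ z ∈ W, a z := by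
    intro F
    calc ∑ z ∈ F, a z ≤ ∑ z ∈ F ∪ W, a z :=
          Finset.sum_le_sum_of_subset_of_nonneg Finset.subset_union_left
            fun _ _ _ => ramp_nonneg _
      _ = ∑ z ∈ W, a z :=
          (Finset.sum_subset Finset.subset_union_right fun z _ hz => hWout z hz).symm
  refine ⟨∑ z ∈ W, a z, ?_, ?_, hrow, fun m' hm' => ⟨W.erase 0, Finset.notMem_erase _ _, ?_⟩⟩
  · set t : ℕ := ⌈q / 4⌉₊ with ht
    have ht1 : q / 4 ≤ t := Nat.le_ceil _
    have ht2 : (t : ℝ) < q / 4 + 1 := Nat.ceil_lt_add_one (by linarith)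
    refine le_trans ?_ (hrow (offsets t))
    have h1 : ∀ z ∈ offsets t, 1 / 2 ≤ a z := by
      intro z hz
      rw [offsets, Fintype.mem_piFinset] at hz
      have h2 : ‖emb z‖ ≤ 2 * (q / 4) := by
        refine kernel_norm_le z _ (by linarith) fun k => ?_
        have := Finset.mem_Ico.1 (hz k)
        have h3 : (0 : ℝ) ≤ z k := by exact_mod_cast this.1
        have h4 : (z k : ℝ) + 1 ≤ t := by exact_mod_cast this.2
        rw [abs_of_nonneg h3]
        linarith
      refine half_le_ramp ?_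
      rw [div_le_iff₀ hl0, hlq]
      nlinarith
    have h2 := Finset.card_nsmul_le_sum _ _ _ h1
    have h3 : (offsets t).card = t ^ 3 := by simp [offsets, Fintype.card_piFinset]
    rw [h3, nsmul_eq_mul] at h2
    push_cast at h2
    have h4 : (q / 4) ^ 3 ≤ (t : ℝ) ^ 3 := by gcongr
    nlinarith
  · refine le_trans ?_ hcard
    have := Finset.sum_le_card_nsmul W a 1 fun z _ => ramp_le_one _
    simpa using this
  · have h0W : (0 : Site) ∈ W := by
      rw [hW, Fintype.mem_piFinset]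
      intro k
      simp
    rw [← Finset.add_sum_erase W a h0W]
    have hδ0 : 0 ≤ (m' - m) / m + 6 * m' / l := by
      have : 0 ≤ m' - m := by linarith
      have : 0 < m' := by linarith
      positivity
    have h1 : ∀ z ∈ W.erase 0, a z ≤ ramp (m' * (‖emb z‖ + 2) / l) + ((m' - m) / m + 6 * m' / l) := by
      intro z _
      rcases le_total (q + 2) ‖emb z‖ with h | h
      · rw [ha0 z h]
        linarith [ramp_nonneg (m' * (‖emb z‖ + 2) / l)]
      · have hn := norm_nonneg (emb z)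
        have h2 := ramp_sub_le (a := m * (‖emb z‖ - 2) / l) (b := m' * (‖emb z‖ + 2) / l)
          (div_le_div_of_nonneg_right (by nlinarith) hl0.le)
        have h3 : m' * (‖emb z‖ + 2) / l - m * (‖emb z‖ - 2) / l ≤ (m' - m) / m + 6 * m' / l := by
          have e : (m' - m) / m = (m' - m) * q / l := by rw [hq]; field_simp
          rw [e, ← sub_div, ← add_div]
          gcongr
          nlinarith
        simp only [a]
        linarith
    have h2 := Finset.sum_le_sum h1
    rw [Finset.sum_add_distrib, Finset.sum_const, nsmul_eq_mul] at h2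
    have h3 : ((W.erase 0).card : ℝ) ≤ 27 * q ^ 3 :=
      le_trans (by exact_mod_cast Finset.card_erase_le) hcard
    have h4 := mul_le_mul_of_nonneg_right h3 hδ0
    have h5 : a 0 ≤ 1 := ramp_le_one _
    have h6 : 1 ≤ q ^ 3 * (m' / l) := by
      have e : q ^ 3 * (m / l) = q ^ 2 := by rw [hlq]; field_simp
      have : q ^ 3 * (m / l) ≤ q ^ 3 * (m' / l) := by gcongr
      nlinarith
    have e : q ^ 3 * (27 * (m' - m) / m + 163 * m' / l) =
        27 * q ^ 3 * ((m' - m) / m + 6 * m' / l) + q ^ 3 * (m' / l) := by ring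
    rw [e]
    linarith

end Crest.Agent.R149
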