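import Crest.Agent.R149.Core
import Crest.Agent.R149.Kernel

/-! The two final statements of row 149, derived from the core theorem. -/

namespace Crest.Agent.R149

open MeasureTheory Crest.ProbabilityR.Continuum Filter Topology
open scoped ENNReal Pointwise

/-- A continuous two-step core. -/
noncomputable def finalCore (K ε d₂ : ℝ) (r : ℝ) : ℝ :=
  K * ramp ((r - 9 / 5) / (d₂ - 9 / 5)) * (43 - 32 * ramp (2 * r / ε - 1))

theorem finalCore_continuous (K ε d₂ : ℝ) : Continuous (finalCore K ε d₂) := by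
  unfold finalCore
  have := continuous_ramp
  fun_prop

theorem finalCore_le {K : ℝ} (hK : 0 < K) (ε d₂ r : ℝ) : finalCore K ε d₂ r ≤ 43 * K := by
  unfold finalCore
  have h1 := ramp_nonneg ((r - 9 / 5) / (d₂ - 9 / 5))
  have h2 := ramp_le_one ((r - 9 / 5) / (d₂ - 9 / 5))
  have h3 := ramp_nonneg (2 * r / ε - 1)
  have h4 := ramp_le_one (2 * r / ε - 1)
  calc K * ramp ((r - 9 / 5) / (d₂ - 9 / 5)) * (43 - 32 * ramp (2 * r / ε - 1))
      ≤ K * 1 * 43 := by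
        refine mul_le_mul (by gcongr) (by linarith) (by linarith) (by positivity)
    _ = 43 * K := by ring

theorem finalCore_isCore {K ε d₂ : ℝ} (hK : 0 < K) (hε : 0 < ε) (hd : 9 / 5 < d₂) :
    IsCore K ε d₂ (finalCore K ε d₂) := by
  have hd' : 0 < d₂ - 9 / 5 := by linarith
  have hone : ∀ r, r < 9 / 5 → ramp ((r - 9 / 5) / (d₂ - 9 / 5)) = 1 := fun r hr =>
    ramp_eq_one (div_nonpos_of_nonpos_of_nonneg (by linarith) hd'.le)
  refine ⟨(finalCore_continuous K ε d₂).measurable, fun r => ?_, fun r _ hr => ?_,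
    fun r h1 hr => ?_, fun r _ hr => ?_, fun r _ => finalCore_le hK ε d₂ r, fun r hr => ?_⟩
  · unfold finalCore
    have h1 := ramp_nonneg ((r - 9 / 5) / (d₂ - 9 / 5))
    have h4 := ramp_le_one (2 * r / ε - 1)
    exact mul_nonneg (by positivity) (by linarith)
  · unfold finalCore
    rw [hone r hr]
    have h4 := ramp_le_one (2 * r / ε - 1)
    nlinarith
  · unfold finalCore
    have : 1 ≤ 2 * r / ε - 1 := by
      rw [le_sub_iff_add_le, le_div_iff₀ hε]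
      linarith
    rw [hone r hr, ramp_eq_zero this]
    linarith
  · unfold finalCore
    have : 2 * r / ε - 1 ≤ 0 := by
      rw [sub_nonpos, div_le_one hε]
      linarith
    rw [ramp_eq_one this]
    have h2 := ramp_le_one ((r - 9 / 5) / (d₂ - 9 / 5))
    nlinarith
  · unfold finalCore
    have : 1 ≤ (r - 9 / 5) / (d₂ - 9 / 5) := by
      rw [le_div_iff₀ hd']
      linarith
    rw [ramp_eq_zero this]
    simp

theorem final_kink {g : ℝ → ℝ} {βc Dl Dr a b : ℝ} (hβ : 0 < βc) (ha : 0 < a)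
    (hl : HasDerivWithinAt g Dl (Set.Iio βc) βc) (hr : HasDerivWithinAt g Dr (Set.Ioi βc) βc)
    (h : Dr < Dl) : ∃ Dl' Dr' : ℝ,
      HasDerivWithinAt (fun β => (a * g β - b) / β) Dl' (Set.Iio βc) βc ∧
      HasDerivWithinAt (fun β => (a * g β - b) / β) Dr' (Set.Ioi βc) βc ∧ Dr' < Dl' := by
  refine ⟨(a * Dl * βc - (a * g βc - b) * 1) / βc ^ 2, (a * Dr * βc - (a * g βc - b) * 1) / βc ^ 2,
    ((hl.const_mul a).sub_const b).div (hasDerivWithinAt_id βc _) hβ.ne',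
    ((hr.const_mul a).sub_const b).div (hasDerivWithinAt_id βc _) hβ.ne', ?_⟩
  gcongr

theorem final_scale (φ : ℝ → ℝ) {l : ℝ} (hl : 0 < l) (L : ℝ) (N : ℕ) (β : ℝ) :
    partitionFn (fun r => φ (r / l)) L N β = l ^ (3 * N) * partitionFn φ (L / l) N β := by
  unfold partitionFn
  have h1 : ∀ x : Fin N → Pt, energy (fun r => φ (r / l)) x = energy φ (l⁻¹ • x) := by
    intro x
    unfold energy
    refine Finset.sum_congr rfl fun p _ => ?_
    simp only [Pi.smul_apply, dist_smul₀, Real.norm_eq_abs, abs_of_pos (inv_pos.2 hl)]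
    rw [div_eq_inv_mul]
  have h2 : l⁻¹ • (Set.pi Set.univ fun _ : Fin N => cube L) =
      Set.pi Set.univ fun _ : Fin N => cube (L / l) := by
    ext x
    rw [Set.mem_smul_set_iff_inv_smul_mem₀ (inv_pos.2 hl).ne', inv_inv]
    simp only [Set.mem_pi, Set.mem_univ, true_imp_iff, cube, Set.mem_ofPred_eq, Pi.smul_apply,
      PiLp.smul_apply, smul_eq_mul, le_div_iff₀ hl, mul_comm _ l, mul_nonneg_iff_of_pos_left hl]
  have h3 : Module.finrank ℝ (Fin N → Pt) = 3 * N := by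
    rw [Module.finrank_pi_fintype]
    simp [mul_comm]
  simp_rw [h1]
  rw [Measure.setIntegral_comp_smul_of_pos volume
    (fun y : Fin N → Pt => Real.exp (-β * energy φ y)) _ (inv_pos.2 hl), h2, h3, inv_pow, inv_inv,
    smul_eq_mul]
  ring

theorem final_scale_tendsto {φ : ℝ → ℝ} (hφ : Adm φ) {l : ℝ} (hl : 0 < l) {ρ β : ℝ} (hρ : 0 ≤ ρ)
    (hβ : 0 < β) :
    Tendsto (fun L : ℝ => -(1 / (β * L ^ 3)) *
        Real.log (partitionFn (fun r => φ (r / l)) L ⌊ρ * L ^ 3⌋₊ β)) atTop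
      (𝓝 ((1 / l ^ 3 * fe φ β (ρ * l ^ 3) - 3 * ρ * Real.log l) / β)) := by
  have h1 := (fe_tendsto hφ hβ.le (ρ := ρ * l ^ 3) (by positivity)).comp
    (tendsto_id.atTop_div_const hl)
  have h2 := tendsto_floor_div ρ hρ
  have h3 := (((h1.const_mul (1 / l ^ 3)).sub ((h2.const_mul 3).mul_const (Real.log l)))).div_const β
  refine h3.congr' ?_
  filter_upwards [eventually_gt_atTop 0] with L hL
  have h4 : ρ * l ^ 3 * (L / l) ^ 3 = ρ * L ^ 3 := by field_simp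
  have hpos : 0 < partitionFn φ (L / l) ⌊ρ * L ^ 3⌋₊ β := by
    rw [partitionFn_eq hφ.meas]
    exact ENNReal.toReal_pos (Z_pos hφ.meas (by positivity) _ _).ne'
      (Z_ne_top hφ (by positivity) _ hβ.le)
  simp only [Function.comp, id, h4]
  rw [final_scale φ hl, Real.log_mul (by positivity) hpos.ne', Real.log_pow]
  push_cast
  field_simp
  ring

theorem final_decay {φ : ℝ → ℝ} {M C s : ℝ} (hs : 0 ≤ s) (hM : ∀ r, |φ r| ≤ M)
    (hC : ∀ r, 2 ≤ r → |φ r| ≤ C * r ^ (-s)) :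
    ∃ C' : ℝ, ∀ r, 0 < r → |φ r| ≤ C' * r ^ (-s) := by
  have hM0 : 0 ≤ M := (abs_nonneg _).trans (hM 0)
  refine ⟨max C (M * 2 ^ s), fun r hr => ?_⟩
  have hr' : 0 < r ^ (-s) := Real.rpow_pos_of_pos hr _
  rcases le_total 2 r with h | h
  · exact (hC r h).trans (mul_le_mul_of_nonneg_right (le_max_left _ _) hr'.le)
  · refine (hM r).trans (le_trans ?_ (mul_le_mul_of_nonneg_right (le_max_right _ _) hr'.le))
    have h1 : r ^ s ≤ 2 ^ s := Real.rpow_le_rpow hr.le h hs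
    have h2 : 0 < r ^ s := Real.rpow_pos_of_pos hr _
    rw [Real.rpow_neg hr.le, mul_assoc]
    refine le_mul_of_one_le_right hM0 ?_
    rw [← div_eq_mul_inv, one_le_div h2]
    exact h1

theorem final_S0209 :
    ∃ φ : ℝ → ℝ, Continuous φ ∧ (∃ M : ℝ, ∀ r : ℝ, |φ r| ≤ M) ∧
      (∃ B : ℝ, ∀ (N : ℕ) (x : Fin N → Crest.ProbabilityR.Continuum.Pt), -B * N ≤ Crest.ProbabilityR.Continuum.energy φ x) ∧
      (∃ C : ℝ, ∀ r : ℝ, 1 ≤ r → |φ r| ≤ C * r ^ (-(3 + 1 / 32 : ℝ))) ∧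
      ∃ p η βc : ℝ, 0 < p ∧
        Filter.Tendsto (fun L : ℝ => (Crest.ProbabilityR.Continuum.packingNumber L : ℝ) / L ^ 3)
          Filter.atTop (nhds p) ∧
        0 < η ∧ η ≤ 5 * p / 3 ∧ 7 / 8 ≤ βc ∧ βc ≤ 9 / 8 ∧
        ∃ f : ℝ → ℝ → ℝ,
          (∀ ρ : ℝ, 5 * p / 3 - η < ρ → ρ < 5 * p / 3 + η → ∀ β : ℝ, 0 < β →
            Filter.Tendsto (fun L : ℝ => -(1 / (β * L ^ 3)) *
                Real.log (Crest.ProbabilityR.Continuum.partitionFn φ L ⌊ρ * L ^ 3⌋₊ β))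
              Filter.atTop (nhds (f β ρ))) ∧
          (∀ ρ : ℝ, 5 * p / 3 - η < ρ → ρ < 5 * p / 3 + η → ∃ Dl Dr : ℝ,
            HasDerivWithinAt (fun β => f β ρ) Dl (Set.Iio βc) βc ∧
            HasDerivWithinAt (fun β => f β ρ) Dr (Set.Ioi βc) βc ∧ Dr < Dl) := by
  obtain ⟨K, ε, d₂, hK, hε, -, hd1, hd2, hcore⟩ := core
  have hc := finalCore_isCore hK hε hd1
  obtain ⟨w, hwc, hw0, ⟨Cw, hCw⟩, ⟨C, hC⟩, -, hadm, ρ₁, ρ₂, βc, hρ₁, hρ₁₂, hβ1, hβ2, hkink⟩ :=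
    hcore _ hc
  obtain ⟨p, hp, hpl⟩ := packing_limit
  set φ : ℝ → ℝ := fun r => finalCore K ε d₂ r - w r with hφ
  set l : ℝ := ((ρ₁ + ρ₂) / 2 / (5 * p / 3)) ^ ((3 : ℕ) : ℝ)⁻¹ with hl
  have hq : 0 < (ρ₁ + ρ₂) / 2 / (5 * p / 3) := by
    have : 0 < ρ₁ + ρ₂ := by linarith
    positivity
  have hl0 : 0 < l := Real.rpow_pos_of_pos hq _
  have hl3 : l ^ 3 = (ρ₁ + ρ₂) / 2 / (5 * p / 3) := Real.rpow_inv_natCast_pow hq.le (by norm_num)
  have hl3' : 5 * p / 3 * l ^ 3 = (ρ₁ + ρ₂) / 2 := by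
    rw [hl3]
    field_simp
  clear_value l
  have hbd : ∀ r, |φ r| ≤ 43 * K + Cw := by
    intro r
    have h1 := hc.nonneg r
    have h2 := finalCore_le hK ε d₂ r
    have h3 := hw0 r
    have h4 := hCw r
    simp only [hφ]
    rw [abs_le]
    constructor <;> linarith
  have hdec : ∀ r, 2 ≤ r → |φ r| ≤ C * r ^ (-(3 + 1 / 32 : ℝ)) := by
    intro r hr
    have h1 : finalCore K ε d₂ r = 0 := le_antisymm (hc.up₃ r (by linarith)) (hc.nonneg r)
    simp only [hφ]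
    rw [h1, zero_sub, abs_neg, abs_of_nonneg (hw0 r)]
    exact hC r (by linarith)
  obtain ⟨C', hC'⟩ := final_decay (by norm_num) hbd hdec
  obtain ⟨B, hB⟩ := hadm.stab
  have hl30 : 0 < l ^ 3 := by positivity
  refine ⟨fun r => φ (r / l), ?_, ⟨_, fun r => hbd _⟩, ⟨B, fun N x => ?_⟩,
    ⟨C' * l ^ (3 + 1 / 32 : ℝ), fun r hr => ?_⟩, p, min ((ρ₂ - ρ₁) / 2 / l ^ 3) (5 * p / 3), βc, hp,
    hpl, ?_, min_le_right _ _, by linarith, by linarith,
    fun β ρ => (1 / l ^ 3 * fe φ β (ρ * l ^ 3) - 3 * ρ * Real.log l) / β, ?_, ?_⟩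
  · exact ((finalCore_continuous K ε d₂).sub hwc).comp (continuous_id.div_const l)
  · have h1 : energy (fun r => φ (r / l)) x = energy φ (l⁻¹ • x) := by
      unfold energy
      refine Finset.sum_congr rfl fun p _ => ?_
      simp only [Pi.smul_apply, dist_smul₀, Real.norm_eq_abs, abs_of_pos (inv_pos.2 hl0)]
      rw [div_eq_inv_mul]
    rw [h1, energy_eq_en]
    exact hB N _
  · have hr0 : 0 < r := by linarith
    refine (hC' (r / l) (by positivity)).trans (le_of_eq ?_)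
    rw [Real.div_rpow hr0.le hl0.le, Real.rpow_neg hl0.le]
    field_simp
  · refine lt_min ?_ (by positivity)
    have : 0 < ρ₂ - ρ₁ := by linarith
    positivity
  · intro ρ h1 _ β hβ
    have := min_le_right ((ρ₂ - ρ₁) / 2 / l ^ 3) (5 * p / 3)
    exact final_scale_tendsto hadm hl0 (by linarith) hβ
  · intro ρ h1 h2
    have h3 := min_le_left ((ρ₂ - ρ₁) / 2 / l ^ 3) (5 * p / 3)
    have h4 : (ρ₂ - ρ₁) / 2 / l ^ 3 * l ^ 3 = (ρ₂ - ρ₁) / 2 := by field_simp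
    have h5 : 5 * p / 3 - (ρ₂ - ρ₁) / 2 / l ^ 3 < ρ := by linarith
    have h6 : ρ < 5 * p / 3 + (ρ₂ - ρ₁) / 2 / l ^ 3 := by linarith
    have h7 := mul_lt_mul_of_pos_right h5 hl30
    have h8 := mul_lt_mul_of_pos_right h6 hl30
    rw [sub_mul, h4, hl3'] at h7
    rw [add_mul, h4, hl3'] at h8
    obtain ⟨Dl, Dr, hDl, hDr, hD⟩ := hkink (ρ * l ^ 3) (by linarith) (by linarith)
    exact final_kink (by linarith) (by positivity) hDl hDr hD

theorem final_S0210 :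
    ∃ φ : ℝ → ℝ, Measurable φ ∧
      (∀ a b : ℝ, 0 < a → a ≤ b → ∃ M : ℝ, ∀ r : ℝ, a ≤ r → r ≤ b → |φ r| ≤ M) ∧
      Filter.Tendsto φ (nhdsWithin 0 (Set.Ioi 0)) Filter.atTop ∧
      (∃ r₁ r₂ a : ℝ, 0 < r₁ ∧ r₁ < r₂ ∧ 0 < a ∧ ∀ r : ℝ, r₁ ≤ r → r ≤ r₂ → φ r ≤ -a) ∧
      (∃ R : ℝ, 0 < R ∧ MeasureTheory.IntegrableOn (fun r : ℝ => r ^ 2 * |φ r|) (Set.Ioi R)) ∧
      Filter.Tendsto (fun r : ℝ => r ^ 3 * φ r) Filter.atTop (nhds 0) ∧
      (∃ B : ℝ, ∀ (N : ℕ) (x : Fin N → Crest.ProbabilityR.Continuum.Pt), Function.Injective x →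
        -B * N ≤ Crest.ProbabilityR.Continuum.energy φ x) ∧
      ∃ f : ℝ → ℝ → ℝ,
        (∀ ρ : ℝ, 0 < ρ → ∀ β : ℝ, 0 < β →
          Filter.Tendsto (fun L : ℝ => -(1 / (β * L ^ 3)) *
              Real.log (Crest.ProbabilityR.Continuum.partitionFn φ L ⌊ρ * L ^ 3⌋₊ β))
            Filter.atTop (nhds (f β ρ))) ∧
        ∃ ρ₁ ρ₂ βc : ℝ, 0 ≤ ρ₁ ∧ ρ₁ < ρ₂ ∧ 1 / 2 < βc ∧ βc < 3 / 2 ∧
          ∀ ρ : ℝ, ρ₁ < ρ → ρ < ρ₂ → ∃ Dl Dr : ℝ,
            HasDerivWithinAt (fun β => f β ρ) Dl (Set.Iio βc) βc ∧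
            HasDerivWithinAt (fun β => f β ρ) Dr (Set.Ioi βc) βc ∧ Dr < Dl := by
  obtain ⟨K, ε, d₂, hK, hε, hε1, hd1, hd2, hcore⟩ := core
  have hc₀ := finalCore_isCore hK hε hd1
  have hmax : ∀ r, ε / 20 ≤ r → max (r⁻¹ - 20 / ε) 0 = 0 := by
    intro r hr
    refine max_eq_right (sub_nonpos.2 ?_)
    rw [← inv_div]
    exact inv_anti₀ (by positivity) hr
  set φ₁ : ℝ → ℝ := fun r => finalCore K ε d₂ r + max (r⁻¹ - 20 / ε) 0 with hφ₁
  have hc : IsCore K ε d₂ φ₁ := by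
    refine ⟨hc₀.meas.add ((measurable_inv.sub_const _).max measurable_const), fun r => ?_,
      fun r h1 h2 => ?_, fun r h1 h2 => ?_, fun r h1 h2 => ?_, fun r h1 => ?_, fun r h1 => ?_⟩
    · exact add_nonneg (hc₀.nonneg r) (le_max_right _ _)
    · exact (hc₀.lo₁ r h1 h2).trans (le_add_of_nonneg_right (le_max_right _ _))
    · exact (hc₀.lo₂ r h1 h2).trans (le_add_of_nonneg_right (le_max_right _ _))
    · simp only [hφ₁, hmax r h1, add_zero]
      exact hc₀.up₁ r h1 h2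
    · simp only [hφ₁, hmax r h1, add_zero]
      exact hc₀.up₂ r h1
    · simp only [hφ₁, hmax r (by linarith), add_zero]
      exact hc₀.up₃ r h1
  obtain ⟨w, hwc, hw0, ⟨Cw, hCw⟩, ⟨C, hC⟩, ⟨a, ha, haw⟩, hadm, ρ₁, ρ₂, βc, hρ₁, hρ₁₂, hβ1, hβ2,
    hkink⟩ := hcore _ hc
  set φ : ℝ → ℝ := fun r => φ₁ r - w r with hφ
  have hdec : ∀ r, 2 ≤ r → |φ r| ≤ C * r ^ (-(3 + 1 / 32 : ℝ)) := by
    intro r hr
    have h1 : φ₁ r = 0 := le_antisymm (hc.up₃ r (by linarith)) (hc.nonneg r)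
    simp only [hφ]
    rw [h1, zero_sub, abs_neg, abs_of_nonneg (hw0 r)]
    exact hC r (by linarith)
  obtain ⟨B, hB⟩ := hadm.stab
  refine ⟨φ, hadm.meas, fun a b ha _ => ⟨43 * K + a⁻¹ + Cw, fun r hr _ => ?_⟩, ?_,
    ⟨3, 4, a, by norm_num, by norm_num, ha, fun r h1 h2 => ?_⟩, ⟨2, by norm_num, ?_⟩, ?_,
    ⟨B, fun N x _ => ?_⟩, fun β ρ => (1 * fe φ β ρ - 0) / β, fun ρ hρ β hβ => ?_,
    ρ₁, ρ₂, βc, hρ₁.le, hρ₁₂, by linarith, by linarith, fun ρ h1 h2 => ?_⟩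
  · have h1 := hc.nonneg r
    have h2 := finalCore_le hK ε d₂ r
    have h3 := hw0 r
    have h4 := hCw r
    have h5 : max (r⁻¹ - 20 / ε) 0 ≤ a⁻¹ := by
      have h6 : r⁻¹ ≤ a⁻¹ := inv_anti₀ ha hr
      have h7 : 0 < 20 / ε := by positivity
      exact max_le (by linarith) (by positivity)
    have h8 : 0 < a⁻¹ := by positivity
    have h9 : φ₁ r ≤ 43 * K + a⁻¹ := add_le_add h2 h5
    simp only [hφ]
    rw [abs_le]
    constructor <;> linarith
  · refine tendsto_atTop_mono (f := fun r => r⁻¹ + (-(20 / ε) - Cw)) (fun r => ?_)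
      (tendsto_atTop_add_const_right _ _ tendsto_inv_nhdsGT_zero)
    have h1 := hc₀.nonneg r
    have h2 := le_max_left (r⁻¹ - 20 / ε) 0
    have h3 := hCw r
    simp only [hφ, hφ₁]
    linarith
  · have h3 := hc.up₃ r (by linarith)
    have h4 := haw r h2
    simp only [hφ]
    linarith
  · have hi : IntegrableOn (fun r : ℝ => C * r ^ (-(1 + 1 / 32) : ℝ)) (Set.Ioi 2) :=
      (integrableOn_Ioi_rpow_of_lt (by norm_num) (by norm_num)).const_mul C
    refine Integrable.mono' hi ?_ ?_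
    · exact ((measurable_id.pow_const 2).mul hadm.meas.abs).aestronglyMeasurable
    · refine (ae_restrict_iff' measurableSet_Ioi).2 (ae_of_all _ fun r hr => ?_)
      have hr2 : 2 < r := hr
      have hr0 : 0 < r := by linarith
      rw [Real.norm_eq_abs, abs_of_nonneg (by positivity)]
      refine (mul_le_mul_of_nonneg_left (hdec r hr2.le) (by positivity)).trans (le_of_eq ?_)
      rw [mul_left_comm, ← Real.rpow_natCast, ← Real.rpow_add hr0]
      norm_num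
  · have ht : Tendsto (fun r : ℝ => C * r ^ (-(1 / 32) : ℝ)) atTop (𝓝 (C * 0)) :=
      (tendsto_rpow_neg_atTop (by norm_num)).const_mul C
    rw [mul_zero] at ht
    refine squeeze_zero_norm' ?_ ht
    filter_upwards [eventually_ge_atTop 2] with r hr
    have hr0 : 0 < r := by linarith
    rw [Real.norm_eq_abs, abs_mul, abs_of_nonneg (by positivity)]
    refine (mul_le_mul_of_nonneg_left (hdec r hr) (by positivity)).trans (le_of_eq ?_)
    rw [mul_left_comm, ← Real.rpow_natCast, ← Real.rpow_add hr0]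
    norm_num
  · rw [energy_eq_en]
    exact hB N x
  · have h1 := (fe_tendsto hadm hβ.le hρ.le).div_const β
    simp only [one_mul, sub_zero]
    refine h1.congr fun L => ?_
    ring
  · obtain ⟨Dl, Dr, hDl, hDr, hD⟩ := hkink ρ h1 h2
    exact final_kink (by linarith) one_pos hDl hDr hD

end Crest.Agent.R149
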