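import Crest.Agent.R149.BU

/-! Superstability and the multi-scale argument: extreme densities are pure phases. -/

namespace Crest.Agent.R149

open MeasureTheory Crest.ProbabilityR.Continuum Filter Topology
open scoped ENNReal

theorem Levels.Ap_nonneg {w : ℝ → ℝ} (D : Levels w) (j : ℕ) : 0 ≤ D.Ap j := by
  simpa using D.row j ∅

theorem Levels.w_nonneg {w : ℝ → ℝ} (D : Levels w) (r : ℝ) : 0 ≤ w r := by
  rw [← D.wl_zero]
  exact D.wl_nonneg 0 r

theorem Levels.inv_m_le {w : ℝ → ℝ} (D : Levels w) (j : ℕ) : 1 / (D.m j : ℝ) ≤ D.e j := by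
  refine le_trans ?_ (D.lam_le j)
  have h1 := D.lam_nonneg j
  have h2 : (1 : ℝ) ≤ 2 ^ j := one_le_pow₀ (by norm_num)
  gcongr
  nlinarith

theorem Levels.e_pos {w : ℝ → ℝ} (D : Levels w) (j : ℕ) : 0 < D.e j := by
  have : (0 : ℝ) < D.m j := by exact_mod_cast D.m_pos j
  exact lt_of_lt_of_le (by positivity) (D.inv_m_le j)

theorem Levels.m_dvd {w : ℝ → ℝ} (D : Levels w) {j J : ℕ} (h : j ≤ J) : D.m j ∣ D.m J := by
  induction J, h using Nat.le_induction with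
  | base => exact dvd_rfl
  | succ n _ ih => exact ih.trans (D.dvd₁ n)

theorem levels_en_le {w : ℝ → ℝ} (D : Levels w) {ι : Type} [Fintype ι] [DecidableEq ι]
    (s : Site) (x : ι → Pt) : en w x ≤ D.Ap 0 / 2 * pc (bl (D.m 0) s x) := by
  have h := long_bound (D.wl_nonneg 0) (D.wl_anti 0) (D.m_pos 0) one_pos (D.row 0) le_rfl
    (fun r _ => D.wl_nonneg 0 r) s x
  have e : D.wl 0 = w := funext D.wl_zero
  rw [e] at h
  simpa using h

theorem levels_en_le_pcu {w : ℝ → ℝ} (D : Levels w) {ι : Type} [Fintype ι] [DecidableEq ι]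
    (x : ι → Pt) : en w x ≤ D.Ap 0 * (D.m 0 : ℝ) ^ 3 / 2 * pcu x := by
  have h1 := levels_en_le D 0 x
  have h2 := pc_bl_le_pcu (D.m_pos 0) 0 x
  have h3 := D.Ap_nonneg 0
  calc en w x ≤ D.Ap 0 / 2 * ((D.m 0 : ℝ) ^ 3 * pcu x) := h1.trans (by gcongr)
    _ = _ := by ring

theorem en_lower {φ₀ w : ℝ → ℝ} (D : Levels w) {a c : ℝ} (h0 : ∀ r, 0 ≤ φ₀ r)
    (ha : ∀ r, 0 ≤ r → r < 9 / 5 → a ≤ φ₀ r) (hac : D.Ap 0 * (D.m 0 : ℝ) ^ 3 + c ≤ a)
    {ι : Type} [Fintype ι] [DecidableEq ι] (x : ι → Pt) :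
    c / 2 * pcu x - a / 2 * Fintype.card ι ≤ en (fun r => φ₀ r - w r) x := by
  rw [en_sub (φ := fun r => φ₀ r - w r) (ψ := φ₀) (χ := w) (fun _ => rfl)]
  have h1 := superstab h0 ha x
  have h2 := levels_en_le_pcu D x
  have h3 : 0 ≤ pcu x := pc_nonneg _
  have h4 := mul_le_mul_of_nonneg_right hac h3
  linarith

theorem adm_of_levels {φ₀ w : ℝ → ℝ} (D : Levels w) {a c : ℝ} (hc : 0 ≤ c) (hφ₀ : Measurable φ₀)
    (hw : Measurable w) (h0 : ∀ r, 0 ≤ φ₀ r) (ha : ∀ r, 0 ≤ r → r < 9 / 5 → a ≤ φ₀ r)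
    (hneg : ∀ r, 2 ≤ r → φ₀ r ≤ 0) (hac : D.Ap 0 * (D.m 0 : ℝ) ^ 3 + c ≤ a) :
    Adm fun r => φ₀ r - w r := by
  refine ⟨hφ₀.sub hw, ⟨a / 2, fun N x => ?_⟩, fun r hr => ?_⟩
  · have h1 := en_lower D h0 ha hac x
    have h3 : 0 ≤ c / 2 * pcu x := mul_nonneg (by linarith) (pc_nonneg _)
    rw [Fintype.card_fin] at h1
    linarith
  · have := hneg r hr
    have := D.w_nonneg r
    linarith

theorem fe_ge_quad {φ₀ w : ℝ → ℝ} (D : Levels w) {a c : ℝ} (hc : 0 ≤ c) (hφ₀ : Measurable φ₀)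
    (hw : Measurable w) (h0 : ∀ r, 0 ≤ φ₀ r) (ha : ∀ r, 0 ≤ r → r < 9 / 5 → a ≤ φ₀ r)
    (hneg : ∀ r, 2 ≤ r → φ₀ r ≤ 0) (hac : D.Ap 0 * (D.m 0 : ℝ) ^ 3 + c ≤ a) {β ρ : ℝ}
    (hβ : 0 ≤ β) (hρ : 0 ≤ ρ) :
    β * c / 2 * ρ ^ 2 - β * a / 2 * ρ - 1 ≤ fe (fun r => φ₀ r - w r) β ρ := by
  refine le_fe_of_UB_univ (adm_of_levels D hc hφ₀ hw h0 ha hneg hac) hβ hρ
    (UB_of_exponent fun Γ' hΓ' => ?_)
  have t1 := tendsto_floor_div ρ hρ
  have t2 : Tendsto (fun L : ℝ => L / (L + 1)) atTop (𝓝 1) := by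
    have h : Tendsto (fun L : ℝ => 1 - (L + 1)⁻¹) atTop (𝓝 (1 - 0)) :=
      tendsto_const_nhds.sub (tendsto_inv_atTop_zero.comp (tendsto_atTop_add_const_right _ _
        tendsto_id))
    rw [sub_zero] at h
    refine h.congr' ?_
    filter_upwards [eventually_gt_atTop 0] with L hL
    field_simp
    ring
  have t3 : Tendsto (fun L : ℝ => β * c / 2 * (((⌊ρ * L ^ 3⌋₊ : ℝ) / L ^ 3) ^ 2 * (L / (L + 1)) ^ 3)
      - β * a / 2 * ((⌊ρ * L ^ 3⌋₊ : ℝ) / L ^ 3)) atTop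
      (𝓝 (β * c / 2 * (ρ ^ 2 * 1 ^ 3) - β * a / 2 * ρ)) :=
    (((t1.pow 2).mul (t2.pow 3)).const_mul _).sub (t1.const_mul _)
  rw [one_pow, mul_one] at t3
  filter_upwards [t3.eventually (lt_mem_nhds hΓ'), eventually_gt_atTop 0] with L hL hL0 x hx
  have h1 := en_lower D h0 ha hac x
  have h2 := sq_le_pcu hL0.le hx.1
  rw [Fintype.card_fin] at h1 h2
  set N : ℝ := (⌊ρ * L ^ 3⌋₊ : ℝ)
  have hL3 : 0 < L ^ 3 := by positivity
  have h3 : (N / L ^ 3) ^ 2 * (L / (L + 1)) ^ 3 * L ^ 3 ≤ pcu x := by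
    have : (N / L ^ 3) ^ 2 * (L / (L + 1)) ^ 3 * L ^ 3 = N ^ 2 / (L + 1) ^ 3 := by
      field_simp
    rw [this, div_le_iff₀ (by positivity)]
    linarith
  have h4 := mul_le_mul_of_nonneg_right hL.le hL3.le
  have h5 : N / L ^ 3 * L ^ 3 = N := by field_simp
  have h6 := mul_le_mul_of_nonneg_left h3 (show 0 ≤ β * c / 2 by positivity)
  have h7 := mul_le_mul_of_nonneg_left h1 hβ
  have h8 : (β * c / 2 * ((N / L ^ 3) ^ 2 * (L / (L + 1)) ^ 3) - β * a / 2 * (N / L ^ 3)) * L ^ 3 =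
      β * c / 2 * ((N / L ^ 3) ^ 2 * (L / (L + 1)) ^ 3 * L ^ 3) - β * a / 2 * N := by
    rw [sub_mul, mul_assoc (β * a / 2), h5]
    ring
  rw [h8] at h4
  linarith

/-- One level of the multi-scale argument. -/
theorem ms_level {φ₀ w : ℝ → ℝ} (D : Levels w) (hadm : Adm fun r => φ₀ r - w r)
    (hφ₀ : Measurable φ₀) (h0 : ∀ r, 0 ≤ φ₀ r) (hneg : ∀ r, 2 ≤ r → φ₀ r ≤ 0) (j : ℕ) {T : ℕ}
    {s : Site} (hs : s ∈ offsets T) {β : ℝ} (hβ : 0 ≤ β) {α v κ ρ : ℝ} (hρ : 0 ≤ ρ)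
    (hline : ∀ r, 0 ≤ r → α + v * r + κ * r ^ 2 ≤ fe (fun r => φ₀ r - w r) β r)
    (C₀ δ G : ℝ) (A : Ev)
    (hA : ∀ L, 0 < L → ∀ N, ∀ x ∈ A L N, pcu x ≤ C₀ * L ^ 3 ∧
      cross (D.ws j) (bl (D.m j) s x) x ≤ δ * L ^ 3 ∧
      G * L ^ 3 ≤ κ * pc (bl (D.m j) s x) / ((D.m j : ℝ) + 2) ^ 3 +
        β * (D.Ap j / 2 * pc (bl (D.m j) s x) - en (D.wl j) x)) :
    UB (fun r => φ₀ r - w r) β ρ A ((((D.m j : ℝ) + 2) / D.m j) ^ 3 * α + v * ρ +
      (G - β * (D.e j * C₀ / 2 + δ)) - (ρ + 2) / D.m j) := by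
  refine bu_bound (φs := fun r => φ₀ r - D.ws j r) hadm (hφ₀.sub (D.ws_meas j))
    (fun r hr => by have := hneg r hr; have := D.ws_nonneg j r; linarith) (D.wl_nonneg j)
    (D.wl_anti j) (fun r => by rw [D.split j r]; ring) (D.m_pos j) hs (D.low j) hβ hρ hline A _ ?_
  filter_upwards [eventually_gt_atTop 0] with L hL x hx
  obtain ⟨h1, h2, h3⟩ := hA L hL _ x hx.2
  rw [cross_sub (φ := fun r => φ₀ r - D.ws j r) (ψ := φ₀) (χ := D.ws j) (fun _ => rfl)]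
  have h4 := cross_nonneg (fun r _ => h0 r) (bl (D.m j) s x) x
  have hm : (0 : ℝ) < D.m j := by exact_mod_cast D.m_pos j
  have h5 : D.e j / (D.m j : ℝ) ^ 3 * pc (bl (D.m j) s x) ≤ D.e j * (C₀ * L ^ 3) := by
    have h6 := pc_bl_le_pcu (D.m_pos j) s x
    have h7 := (D.e_pos j).le
    rw [div_mul_eq_mul_div, mul_div_assoc]
    gcongr
    rw [div_le_iff₀ (by positivity)]
    nlinarith [pow_pos hm 3]
  have h8 : β * (D.Ap j / 2 * pc (bl (D.m j) s x) - en (D.wl j) x -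
      (D.e j * C₀ / 2 + δ) * L ^ 3) ≤
      β * ((D.Ap j - D.e j / (D.m j : ℝ) ^ 3) / 2 * pc (bl (D.m j) s x) - en (D.wl j) x +
        (cross φ₀ (bl (D.m j) s x) x - cross (D.ws j) (bl (D.m j) s x) x)) := by
    gcongr
    linarith
  linarith

/-- A grid offset that is good for all levels up to `J` at once. -/
theorem ms_offset {w : ℝ → ℝ} (D : Levels w) (J : ℕ) {ι : Type} [Fintype ι] [DecidableEq ι]
    (x : ι → Pt) {W : ℝ} (hW : en w x ≤ W) :
    ∃ s ∈ offsets (D.m J), ∀ j, j ≤ J → cross (D.ws j) (bl (D.m j) s x) x ≤ 6 * W * D.e j := by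
  have hW0 : 0 ≤ W := (en_nonneg (fun r _ => D.w_nonneg r) x).trans hW
  have hT : (0 : ℝ) < D.m J := by exact_mod_cast D.m_pos J
  have h1 : ∀ j, j ≤ J → ∑ s ∈ offsets (D.m J), cross (D.ws j) (bl (D.m j) s x) x / D.e j ≤
      (D.m J : ℝ) ^ 3 * (3 * W) * (1 / 2) ^ j := by
    intro j hj
    have h2 := offset_avg (D.ws_nonneg j) (D.lam_nonneg j) (D.ws_zero j) (D.m_pos j)
      (D.m_dvd hj) x
    have h3 : en (D.ws j) x ≤ W := by
      refine le_trans (en_mono (fun r _ => ?_) x) hW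
      rw [D.split j r]
      linarith [D.wl_nonneg j r]
    have hm : (0 : ℝ) < D.m j := by exact_mod_cast D.m_pos j
    have h4 : (D.lam j + 1) / D.m j ≤ (1 / 2) ^ j * D.e j := by
      have h5 := D.lam_le j
      rw [mul_div_assoc] at h5
      rw [one_div, inv_pow, ← div_eq_inv_mul, le_div_iff₀ (by positivity)]
      linarith
    rw [← Finset.sum_div, div_le_iff₀ (D.e_pos j)]
    have h6 := D.lam_nonneg j
    have h7 := en_nonneg (fun r _ => D.ws_nonneg j r) x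
    calc _ ≤ (D.m J : ℝ) ^ 3 * (3 * (D.lam j + 1) / D.m j) * en (D.ws j) x := h2
      _ = (D.m J : ℝ) ^ 3 * 3 * ((D.lam j + 1) / D.m j) * en (D.ws j) x := by ring
      _ ≤ (D.m J : ℝ) ^ 3 * 3 * ((1 / 2) ^ j * D.e j) * W := by
          have := (D.e_pos j).le
          gcongr
      _ = _ := by ring
  have h8 : ∑ s ∈ offsets (D.m J), ∑ j ∈ Finset.range (J + 1),
      cross (D.ws j) (bl (D.m j) s x) x / D.e j ≤ ∑ _s ∈ offsets (D.m J), 6 * W := by
    rw [Finset.sum_comm, Finset.sum_const, card_offsets, nsmul_eq_mul]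
    calc _ ≤ ∑ j ∈ Finset.range (J + 1), (D.m J : ℝ) ^ 3 * (3 * W) * (1 / 2) ^ j :=
          Finset.sum_le_sum fun j hj => h1 j (by simpa [Nat.lt_succ_iff] using hj)
      _ = (D.m J : ℝ) ^ 3 * (3 * W) * ∑ j ∈ Finset.range (J + 1), (1 / 2) ^ j := by
          rw [Finset.mul_sum]
      _ ≤ (D.m J : ℝ) ^ 3 * (3 * W) * 2 := by
          gcongr
          exact sum_geometric_two_le _
      _ = _ := by push_cast; ring
  have hne : (offsets (D.m J)).Nonempty := by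
    rw [← Finset.card_pos, card_offsets]
    exact pow_pos (D.m_pos J) 3
  obtain ⟨s, hs, h9⟩ := Finset.exists_le_of_sum_le hne h8
  refine ⟨s, hs, fun j hj => ?_⟩
  rw [← div_le_iff₀ (D.e_pos j)]
  refine le_trans (Finset.single_le_sum (f := fun j => cross (D.ws j) (bl (D.m j) s x) x / D.e j)
    (fun i _ => div_nonneg (cross_nonneg (fun r _ => D.ws_nonneg i r) _ _) (D.e_pos i).le)
    (Finset.mem_range.2 (by omega))) h9

theorem ms_ratio {m e : ℝ} (hm : 1 ≤ m) (he : 1 / m ≤ e) :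
    1 ≤ ((m + 2) / m) ^ 3 ∧ ((m + 2) / m) ^ 3 ≤ 1 + 26 * e := by
  have hm0 : 0 < m := by linarith
  have e1 : (m + 2) / m = 1 + 2 * (1 / m) := by field_simp
  have h1 : 0 < 1 / m := by positivity
  have h2 : 1 / m ≤ 1 := by rw [div_le_one hm0]; exact hm
  rw [e1]
  set y := 1 / m
  constructor
  · exact one_le_pow₀ (by linarith)
  · nlinarith [mul_le_mul_of_nonneg_left h2 h1.le, mul_pos h1 h1,
      mul_le_mul_of_nonneg_left h2 (mul_pos h1 h1).le]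

/-- The gain at level `j` controls the decrease of the second moment of the block densities. -/
theorem ms_gain {w : ℝ → ℝ} (D : Levels w) (j : ℕ) {ι : Type} [Fintype ι] [DecidableEq ι]
    (s : Site) (x : ι → Pt) :
    D.γ j * ((D.m j : ℝ) * D.t j) ^ 3 / 2 * (pc (bl (D.m j) s x) / (D.m j : ℝ) ^ 3 -
        pc (bl (D.m (j + 1)) s x) / (D.m (j + 1) : ℝ) ^ 3) ≤
      D.Ap j / 2 * pc (bl (D.m j) s x) - en (D.wl j) x := by
  have h1 := long_bound (D.wl_nonneg j) (D.wl_anti j) (D.m_pos j) (D.t_pos j) (D.row j)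
    (D.γ_pos j).le (D.γ_le j) s x
  obtain ⟨q, hq⟩ := D.dvd₂ j
  have hq0 : 0 < q := by
    rcases Nat.eq_zero_or_pos q with h | h
    · rw [h, mul_zero] at hq
      exact absurd hq (Nat.mul_pos (D.m_pos j) (D.t_pos j)).ne'
    · exact h
  have h2 := pc_bl_mul_le (D.m_pos (j + 1)) hq0 s x
  rw [← hq] at h2
  have hm : (0 : ℝ) < D.m j := by exact_mod_cast D.m_pos j
  have hm' : (0 : ℝ) < D.m (j + 1) := by exact_mod_cast D.m_pos (j + 1)
  have hq' : (D.m j : ℝ) * D.t j = D.m (j + 1) * q := by exact_mod_cast hq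
  have e1 : ((D.m j : ℝ) * D.t j) ^ 3 * (pc (bl (D.m j) s x) / (D.m j : ℝ) ^ 3 -
      pc (bl (D.m (j + 1)) s x) / (D.m (j + 1) : ℝ) ^ 3) =
      (D.t j : ℝ) ^ 3 * pc (bl (D.m j) s x) - (q : ℝ) ^ 3 * pc (bl (D.m (j + 1)) s x) := by
    rw [mul_sub]
    congr 1
    · field_simp
    · rw [hq']
      field_simp
  have h3 := D.γ_pos j
  have h4 : D.γ j / 2 * ((D.t j : ℝ) ^ 3 * pc (bl (D.m j) s x) -
      (q : ℝ) ^ 3 * pc (bl (D.m (j + 1)) s x)) ≤
      D.γ j / 2 * ((D.t j : ℝ) ^ 3 * pc (bl (D.m j) s x) - pc (bl (D.m j * D.t j) s x)) := by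
    gcongr
  calc _ = D.γ j / 2 * (((D.m j : ℝ) * D.t j) ^ 3 * (pc (bl (D.m j) s x) / (D.m j : ℝ) ^ 3 -
      pc (bl (D.m (j + 1)) s x) / (D.m (j + 1) : ℝ) ^ 3)) := by ring
    _ ≤ _ := by rw [e1]; linarith

theorem multiscale (a c C₁ : ℝ) (ha : 0 < a) (hc : 0 < c) (hC₁ : 0 < C₁) :
    ∃ C₂ : ℝ, 0 < C₂ ∧ ∀ (φ₀ w : ℝ → ℝ) (D : Levels w) (β r α v ε : ℝ),
      Measurable φ₀ → Measurable w → (∀ r, 0 ≤ φ₀ r) → (∀ r, 0 ≤ r → r < 9 / 5 → a ≤ φ₀ r) →
      (∀ r, 2 ≤ r → φ₀ r ≤ 0) → D.Ap 0 * (D.m 0 : ℝ) ^ 3 + c ≤ a → 1 / 2 ≤ β → β ≤ 2 →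
      0 < r → r ≤ C₁ → |α| ≤ C₁ → fe (fun r => φ₀ r - w r) β r ≤ C₁ →
      (∀ ρ, 0 ≤ ρ → α + v * ρ ≤ fe (fun r => φ₀ r - w r) β ρ) →
      α + v * r = fe (fun r => φ₀ r - w r) β r → IsExt (fe (fun r => φ₀ r - w r) β) r → 0 < ε →
      (∀ J, C₂ * ∑ j ∈ Finset.range J, D.e j / (D.γ j * ((D.m j : ℝ) * D.t j) ^ 3) ≤ ε) →
      ∀ γ', UB (fun r => φ₀ r - w r) β r
          (fun L _ => {x | en w x ≤ D.Ap 0 * (D.m 0 : ℝ) ^ 3 / 2 * (r ^ 2 + 2 * ε) * L ^ 3}) γ' →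
        γ' ≤ fe (fun r => φ₀ r - w r) β r := by
  obtain ⟨C₀, hC₀, hC₀'⟩ : ∃ C₀ : ℝ, 0 < C₀ ∧ c / 4 * C₀ = C₁ + a * C₁ + 2 :=
    ⟨4 * (C₁ + a * C₁ + 2) / c, by positivity, by field_simp⟩
  obtain ⟨C₂, hC₂, hC₂'⟩ : ∃ C₂ : ℝ, 0 < C₂ ∧ C₂ / 4 = 27 * C₁ + 3 + C₀ + 6 * a * C₀ :=
    ⟨4 * (27 * C₁ + 3 + C₀ + 6 * a * C₀), by positivity, by ring⟩
  refine ⟨C₂, hC₂, fun φ₀ w D β r α v ε hφ₀ hw h0 hlo hneg hac hβ1 hβ2 hr hrC hα hg hline htouch
    hext hε hsum γ' hgood => ?_⟩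
  have hadm := adm_of_levels D hc.le hφ₀ hw h0 hlo hneg hac
  have hβ : 0 ≤ β := by linarith
  set g := fe (fun r => φ₀ r - w r) β r with hgdef
  have hA0 : 0 ≤ D.Ap 0 * (D.m 0 : ℝ) ^ 3 := mul_nonneg (D.Ap_nonneg 0) (by positivity)
  have hm1 : ∀ j, (1 : ℝ) ≤ D.m j := fun j => by exact_mod_cast D.m_pos j
  obtain ⟨κ, hκ, v', hv'⟩ := hext (ε / 4) (by positivity)
  -- the top level
  set α' := g - v' * r + κ * (r ^ 2 - ε / 4) with hα'
  obtain ⟨J, hJ1, hJ2⟩ : ∃ J, D.e J * (26 * |α'| + C₀ + 6 * a * C₀ + C₁ + 2) < κ * (ε / 4) ∧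
      D.e J * (26 * (r ^ 2 + ε / 2)) < ε / 2 := by
    have t1 := D.e_tendsto.mul_const (26 * |α'| + C₀ + 6 * a * C₀ + C₁ + 2)
    have t2 := D.e_tendsto.mul_const (26 * (r ^ 2 + ε / 2))
    rw [zero_mul] at t1 t2
    exact ((t1.eventually (gt_mem_nhds (by positivity))).and
      (t2.eventually (gt_mem_nhds (by positivity)))).exists
  -- the events
  let Q : (j : ℕ) → Site → {N : ℕ} → (Fin N → Pt) → ℝ :=
    fun j s _ x => pc (bl (D.m j) s x) / (D.m j : ℝ) ^ 3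
  let ej : ℕ → ℝ := fun j => C₂ * (D.e j / (D.γ j * ((D.m j : ℝ) * D.t j) ^ 3))
  let A : ℕ × Site → Ev := fun p L _ =>
    if p.1 < J then {x | pcu x ≤ C₀ * L ^ 3 ∧
        cross (D.ws p.1) (bl (D.m p.1) p.2 x) x ≤ 3 * a * C₀ * D.e p.1 * L ^ 3 ∧
        ej p.1 * L ^ 3 ≤ Q p.1 p.2 x - Q (p.1 + 1) p.2 x}
    else if p.1 = J then {x | pcu x ≤ C₀ * L ^ 3 ∧
        cross (D.ws J) (bl (D.m J) p.2 x) x ≤ 3 * a * C₀ * D.e J * L ^ 3 ∧
        (r ^ 2 + ε / 2) * L ^ 3 ≤ pc (bl (D.m J) p.2 x) / ((D.m J : ℝ) + 2) ^ 3}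
    else if p.1 = J + 1 then {x | C₀ * L ^ 3 ≤ pcu x}
    else {x | en w x ≤ D.Ap 0 * (D.m 0 : ℝ) ^ 3 / 2 * (r ^ 2 + 2 * ε) * L ^ 3}
  have hUB : ∀ p : ℕ × Site, ∃ γ : ℝ, p.2 ∈ offsets (D.m J) →
      UB (fun r => φ₀ r - w r) β r (A p) γ ∧ (γ ≤ g → γ' ≤ g) := by
    rintro ⟨j, s⟩
    by_cases hs : s ∈ offsets (D.m J)
    swap
    · exact ⟨0, fun h => absurd h hs⟩
    by_cases hj : j < J
    · -- inhomogeneity at level `j`
      have h1 := ms_level D hadm hφ₀ h0 hneg j hs hβ (κ := 0) hr.le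
        (fun ρ hρ => by simpa using hline ρ hρ) C₀ (3 * a * C₀ * D.e j) (β * (C₂ / 2 * D.e j))
        (A (j, s)) (fun L hL N x hx => by
          simp only [A, if_pos hj, Set.mem_ofPred_eq] at hx
          refine ⟨hx.1, hx.2.1, ?_⟩
          have h2 := ms_gain D j s x
          have hγ := D.γ_pos j
          have ht : (0 : ℝ) < D.t j := by exact_mod_cast D.t_pos j
          have hm := hm1 j
          have h3 : D.γ j * ((D.m j : ℝ) * D.t j) ^ 3 / 2 * (ej j * L ^ 3) ≤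
              D.Ap j / 2 * pc (bl (D.m j) s x) - en (D.wl j) x :=
            le_trans (mul_le_mul_of_nonneg_left hx.2.2 (by positivity)) h2
          have h4 : D.γ j * ((D.m j : ℝ) * D.t j) ^ 3 / 2 * (ej j * L ^ 3) =
              C₂ / 2 * D.e j * L ^ 3 := by
            simp only [ej]
            field_simp
          rw [h4] at h3
          have h5 := mul_le_mul_of_nonneg_left h3 hβ
          rw [zero_mul, zero_div, zero_add]
          linarith)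
      refine ⟨_, fun _ => ⟨h1, fun h => absurd h (not_le.2 ?_)⟩⟩
      obtain ⟨r1, r2⟩ := ms_ratio (hm1 j) (D.inv_m_le j)
      have he := D.e_pos j
      have e1 : α - 26 * D.e j * C₁ ≤ (((D.m j : ℝ) + 2) / D.m j) ^ 3 * α := by
        have := abs_le.1 hα
        nlinarith
      have e2 : (r + 2) / D.m j ≤ (C₁ + 2) * D.e j := by
        rw [div_eq_mul_one_div]
        have := D.inv_m_le j
        have := hm1 j
        gcongr
      have e3 : 1 / 2 * (C₂ / 2 * D.e j) ≤ β * (C₂ / 2 * D.e j) := by gcongr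
      have e4 : β * (D.e j * C₀ / 2 + 3 * a * C₀ * D.e j) ≤
          2 * (D.e j * C₀ / 2 + 3 * a * C₀ * D.e j) := by gcongr
      have e5 : C₂ / 4 * D.e j = (27 * C₁ + 3 + C₀ + 6 * a * C₀) * D.e j := by rw [hC₂']
      linarith
    by_cases hj' : j = J
    · -- the top level
      have h1 := ms_level D hadm hφ₀ h0 hneg J hs hβ (α := α') (v := v' - 2 * κ * r) (κ := κ) hr.le
        (fun ρ hρ => by have := hv' ρ hρ; rw [hα']; linarith) C₀ (3 * a * C₀ * D.e J)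
        (κ * (r ^ 2 + ε / 2)) (A (j, s)) (fun L hL N x hx => by
          simp only [A, if_neg hj, if_pos hj', Set.mem_ofPred_eq] at hx
          refine ⟨hx.1, hx.2.1, ?_⟩
          have h2 := long_bound (D.wl_nonneg J) (D.wl_anti J) (D.m_pos J) one_pos (D.row J) le_rfl
            (fun r _ => D.wl_nonneg J r) s x
          have h3 : 0 ≤ β * (D.Ap J / 2 * pc (bl (D.m J) s x) - en (D.wl J) x) :=
            mul_nonneg hβ (by linarith)
          have h4 := mul_le_mul_of_nonneg_left hx.2.2 hκ.le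
          rw [mul_div_assoc]
          linarith)
      refine ⟨_, fun _ => ⟨h1, fun h => absurd h (not_le.2 ?_)⟩⟩
      obtain ⟨r1, r2⟩ := ms_ratio (hm1 J) (D.inv_m_le J)
      have he := D.e_pos J
      have e1 : α' - 26 * D.e J * |α'| ≤ (((D.m J : ℝ) + 2) / D.m J) ^ 3 * α' := by
        have := neg_abs_le α'
        have := abs_nonneg α'
        nlinarith
      have e2 : (r + 2) / D.m J ≤ (C₁ + 2) * D.e J := by
        rw [div_eq_mul_one_div]
        have := D.inv_m_le J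
        have := hm1 J
        gcongr
      have e4 : β * (D.e J * C₀ / 2 + 3 * a * C₀ * D.e J) ≤
          2 * (D.e J * C₀ / 2 + 3 * a * C₀ * D.e J) := by gcongr
      linarith
    by_cases hj'' : j = J + 1
    · -- superstability
      have h1 : UB (fun r => φ₀ r - w r) β r (A (j, s)) (C₁ + 2 - 1) := by
        refine UB_of_exponent fun Γ' hΓ' => ?_
        filter_upwards [eventually_gt_atTop 0] with L hL x hx
        have hx2 := hx.2
        simp only [A, if_neg hj, if_neg hj', if_pos hj'', Set.mem_ofPred_eq] at hx2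
        have h2 := en_lower D h0 hlo hac x
        rw [Fintype.card_fin] at h2
        have hL3 : 0 < L ^ 3 := by positivity
        have h3 : (⌊r * L ^ 3⌋₊ : ℝ) ≤ C₁ * L ^ 3 :=
          (Nat.floor_le (by positivity)).trans (by gcongr)
        have h4 := mul_le_mul_of_nonneg_left h2 hβ
        have h5 : 1 / 2 * (c / 2 * (C₀ * L ^ 3)) ≤ β * (c / 2 * pcu x) := by gcongr
        have h6 : β * (a / 2 * (⌊r * L ^ 3⌋₊ : ℝ)) ≤ 2 * (a / 2 * (C₁ * L ^ 3)) := by gcongr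
        have h7 : c / 4 * C₀ * L ^ 3 = (C₁ + a * C₁ + 2) * L ^ 3 := by rw [hC₀']
        have h8 := mul_le_mul_of_nonneg_right hΓ'.le hL3.le
        linarith
      exact ⟨_, fun _ => ⟨h1, fun h => absurd h (not_le.2 (by linarith))⟩⟩
    · refine ⟨γ', fun _ => ⟨?_, id⟩⟩
      simpa only [A, if_neg hj, if_neg hj', if_neg hj''] using hgood
  choose γ hγ using hUB
  obtain ⟨p, hp, hpg⟩ := le_fe_of_cover hadm hβ hr.le (Finset.range (J + 3) ×ˢ offsets (D.m J)) A γ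
    (fun p hp => (hγ p (Finset.mem_product.1 hp).2).1) (by
      filter_upwards [eventually_gt_atTop 0] with L hL x _
      have hL3 : 0 < L ^ 3 := by positivity
      have hW : en w x ≤ a / 2 * pcu x := by
        refine (levels_en_le_pcu D x).trans (mul_le_mul_of_nonneg_right ?_ (pc_nonneg _))
        linarith
      obtain ⟨s, hs, hcross⟩ := ms_offset D J x hW
      by_cases h1 : C₀ * L ^ 3 ≤ pcu x
      · refine ⟨(J + 1, s), Finset.mem_product.2 ⟨Finset.mem_range.2 (by omega), hs⟩, ?_⟩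
        simpa [A] using h1
      have h1' : pcu x ≤ C₀ * L ^ 3 := (not_le.1 h1).le
      have hcross' : ∀ j, j ≤ J →
          cross (D.ws j) (bl (D.m j) s x) x ≤ 3 * a * C₀ * D.e j * L ^ 3 := by
        intro j hj
        have := (D.e_pos j).le
        calc _ ≤ 6 * (a / 2 * pcu x) * D.e j := hcross j hj
          _ ≤ 6 * (a / 2 * (C₀ * L ^ 3)) * D.e j := by gcongr
          _ = _ := by ring
      by_cases h2 : ∃ j, j < J ∧ ej j * L ^ 3 ≤ Q j s x - Q (j + 1) s x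
      · obtain ⟨j, hj, h2⟩ := h2
        refine ⟨(j, s), Finset.mem_product.2 ⟨Finset.mem_range.2 (by omega), hs⟩, ?_⟩
        simp only [A, if_pos hj, Set.mem_ofPred_eq]
        exact ⟨h1', hcross' j hj.le, h2⟩
      by_cases h3 : (r ^ 2 + ε / 2) * L ^ 3 ≤ pc (bl (D.m J) s x) / ((D.m J : ℝ) + 2) ^ 3
      · refine ⟨(J, s), Finset.mem_product.2 ⟨Finset.mem_range.2 (by omega), hs⟩, ?_⟩
        simp only [A, lt_irrefl, if_false, if_true, Set.mem_ofPred_eq]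
        exact ⟨h1', hcross' J le_rfl, h3⟩
      refine ⟨(J + 2, s), Finset.mem_product.2 ⟨Finset.mem_range.2 (by omega), hs⟩, ?_⟩
      simp only [A, if_neg (show ¬ J + 2 < J by omega), if_neg (show ¬ J + 2 = J by omega),
        if_neg (show ¬ J + 2 = J + 1 by omega), Set.mem_ofPred_eq]
      push Not at h2 h3
      have h4 : Q 0 s x - Q J s x ≤ ε * L ^ 3 := by
        rw [← Finset.sum_range_sub' (fun j => Q j s x) J]
        calc _ ≤ ∑ j ∈ Finset.range J, ej j * L ^ 3 :=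
              Finset.sum_le_sum fun j hj => (h2 j (Finset.mem_range.1 hj)).le
          _ = (C₂ * ∑ j ∈ Finset.range J, D.e j / (D.γ j * ((D.m j : ℝ) * D.t j) ^ 3)) * L ^ 3 := by
              rw [← Finset.sum_mul, Finset.mul_sum]
          _ ≤ _ := by
              gcongr
              exact hsum J
      have h5 : Q J s x ≤ (r ^ 2 + ε) * L ^ 3 := by
        obtain ⟨r1, r2⟩ := ms_ratio (hm1 J) (D.inv_m_le J)
        have hm := hm1 J
        have e1 : Q J s x = (((D.m J : ℝ) + 2) / D.m J) ^ 3 *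
            (pc (bl (D.m J) s x) / ((D.m J : ℝ) + 2) ^ 3) := by
          simp only [Q]
          field_simp
        have he := (D.e_pos J).le
        have hp := pc_nonneg (bl (D.m J) s x)
        calc Q J s x ≤ (1 + 26 * D.e J) * ((r ^ 2 + ε / 2) * L ^ 3) := by
              rw [e1]
              gcongr
          _ = (r ^ 2 + ε / 2 + D.e J * (26 * (r ^ 2 + ε / 2))) * L ^ 3 := by ring
          _ ≤ _ := mul_le_mul_of_nonneg_right (by linarith) hL3.le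
      have hm := hm1 0
      calc en w x ≤ D.Ap 0 / 2 * pc (bl (D.m 0) s x) := levels_en_le D s x
        _ = D.Ap 0 * (D.m 0 : ℝ) ^ 3 / 2 * Q 0 s x := by
            simp only [Q]
            field_simp
        _ ≤ D.Ap 0 * (D.m 0 : ℝ) ^ 3 / 2 * ((r ^ 2 + 2 * ε) * L ^ 3) := by
            gcongr
            linarith
        _ = _ := by ring)
  exact (hγ p (Finset.mem_product.1 hp).2).2 hpg

end Crest.Agent.R149
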