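import Crest.Agent.R149.Basic

/-! Separated subsets of a cube and the packing density. -/

namespace Crest.Agent.R149

open MeasureTheory Crest.ProbabilityR.Continuum Filter Topology
open scoped ENNReal

open Classical in
/-- Cutting a cube into small cubes of side `m`. -/
theorem packing_cover {m L : ℝ} (hm : 0 < m) (X : Finset Pt) (hX : ∀ x ∈ X, x ∈ cube L) (n : ℕ)
    (hn : ∀ v : Pt, (X.filter fun x => x - v ∈ cube m).card ≤ n) :
    X.card ≤ n * (⌊L / m⌋₊ + 1) ^ 3 := by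
  have h := Finset.card_le_mul_card_image_of_maps_to (s := X)
    (f := fun x : Pt => fun k : Fin 3 => ⌊x k / m⌋₊)
    (t := Fintype.piFinset fun _ : Fin 3 => Finset.range (⌊L / m⌋₊ + 1)) (fun x hx => ?_) n
    (fun b _ => ?_)
  · simpa using h
  · rw [Fintype.mem_piFinset]
    intro k
    rw [Finset.mem_range, Nat.lt_succ_iff]
    exact Nat.floor_le_floor (div_le_div_of_nonneg_right (hX x hx k).2 hm.le)
  · refine le_trans (Finset.card_le_card fun x hx => ?_)
      (hn (WithLp.toLp 2 fun k => (b k : ℝ) * m))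
    obtain ⟨hx1, hx2⟩ := Finset.mem_filter.1 hx
    refine Finset.mem_filter.2 ⟨hx1, fun k => ?_⟩
    have h0 : 0 ≤ x k / m := div_nonneg (hX x hx1 k).1 hm.le
    have h1 := Nat.floor_le h0
    have h2 := Nat.lt_floor_add_one (x k / m)
    have h3 : ⌊x k / m⌋₊ = b k := congrFun hx2 k
    rw [h3] at h1 h2
    rw [le_div_iff₀ hm] at h1
    rw [div_lt_iff₀ hm] at h2
    simp only [PiLp.sub_apply]
    constructor <;> linarith

theorem packing_card_le {d m L : ℝ} (hm : 0 < m) (hd : 7 / 4 * m < d) (X : Finset Pt)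
    (h1 : ∀ x ∈ X, x ∈ cube L) (h2 : ∀ x ∈ X, ∀ y ∈ X, x ≠ y → d ≤ dist x y) :
    X.card ≤ (⌊L / m⌋₊ + 1) ^ 3 := by
  classical
  have h := packing_cover hm X h1 1 fun v => ?_
  · simpa using h
  · refine Finset.card_le_one.2 fun x hx y hy => ?_
    obtain ⟨hx1, hx2⟩ := Finset.mem_filter.1 hx
    obtain ⟨hy1, hy2⟩ := Finset.mem_filter.1 hy
    by_contra hne
    have h3 := dist_le_of_mem_cube hx2 hy2
    rw [dist_sub_right] at h3
    linarith [h2 x hx1 y hy1 hne]

theorem sepSet_bddAbove {d : ℝ} (hd : 0 < d) (L : ℝ) : BddAbove (sepSet d L) := by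
  refine ⟨(⌊L / (d / 2)⌋₊ + 1) ^ 3, ?_⟩
  rintro n ⟨X, rfl, h1, h2⟩
  exact packing_card_le (by positivity) (by linarith) X h1 h2

theorem exists_sep_config {d : ℝ} (hd : 0 < d) (L : ℝ) :
    ∃ X : Finset Pt, X.card = sepNum d L ∧ (∀ x ∈ X, x ∈ cube L) ∧
      ∀ x ∈ X, ∀ y ∈ X, x ≠ y → d ≤ dist x y := by
  have h : (sepSet d L).Nonempty := ⟨0, ∅, by simp⟩
  exact Nat.sSup_mem h (sepSet_bddAbove hd L)

theorem card_le_sepNum {d : ℝ} (hd : 0 < d) {L : ℝ} (X : Finset Pt) (h1 : ∀ x ∈ X, x ∈ cube L)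
    (h2 : ∀ x ∈ X, ∀ y ∈ X, x ≠ y → d ≤ dist x y) : X.card ≤ sepNum d L :=
  le_csSup (sepSet_bddAbove hd L) ⟨X, rfl, h1, h2⟩

theorem packing_floor_le {t : ℝ} (ht : 0 ≤ t) : (((⌊t⌋₊ + 1) ^ 3 : ℕ) : ℝ) ≤ (t + 1) ^ 3 := by
  push_cast
  have := Nat.floor_le ht
  gcongr

theorem sepNum_subadd {d : ℝ} (hd : 0 < d) {m L : ℝ} (hm : 0 < m) (hL : 0 ≤ L) :
    (sepNum d L : ℝ) ≤ (L / m + 1) ^ 3 * sepNum d m := by
  classical
  obtain ⟨X, hX, h1, h2⟩ := exists_sep_config hd L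
  have h := packing_cover hm X h1 (sepNum d m) fun v => ?_
  · rw [hX] at h
    have h' : (sepNum d L : ℝ) ≤ (sepNum d m : ℝ) * (((⌊L / m⌋₊ + 1) ^ 3 : ℕ) : ℝ) := by
      exact_mod_cast h
    refine h'.trans ?_
    rw [mul_comm]
    gcongr
    exact packing_floor_le (by positivity)
  · rw [← Finset.card_image_of_injective _ (sub_left_injective (b := v))]
    refine card_le_sepNum hd _ (fun x hx => ?_) fun x hx y hy hne => ?_
    · obtain ⟨a, ha, rfl⟩ := Finset.mem_image.1 hx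
      exact (Finset.mem_filter.1 ha).2
    · obtain ⟨a, ha, rfl⟩ := Finset.mem_image.1 hx
      obtain ⟨b, hb, rfl⟩ := Finset.mem_image.1 hy
      rw [dist_sub_right]
      exact h2 a (Finset.mem_filter.1 ha).1 b (Finset.mem_filter.1 hb).1
        fun h => hne (by rw [h])

theorem sepNum_le_cube {m : ℝ} (hm : 0 ≤ m) : (sepNum (9 / 5) m : ℝ) ≤ (m + 1) ^ 3 := by
  obtain ⟨X, hX, h1, h2⟩ := exists_sep_config (d := 9 / 5) (by norm_num) m
  have h := packing_card_le (m := 1) one_pos (by norm_num) X h1 h2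
  rw [hX, div_one] at h
  exact le_trans (by exact_mod_cast h) (packing_floor_le hm)

theorem packing_grid {d : ℝ} (hd : 0 < d) {L : ℝ} (hL : 0 ≤ L) :
    (L / d) ^ 3 ≤ (sepNum d L : ℝ) := by
  classical
  set f : (Fin 3 → ℕ) → Pt := fun z => WithLp.toLp 2 fun k => (z k : ℝ) * d with hf
  have hsep : ∀ z z', z ≠ z' → d ≤ dist (f z) (f z') := by
    intro z z' hne
    obtain ⟨k, hk⟩ := Function.ne_iff.1 hne
    refine le_trans ?_ (abs_sub_le_dist (f z) (f z') k)
    simp only [hf]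
    rcases lt_or_gt_of_ne hk with h | h
    · have : (z k : ℝ) + 1 ≤ z' k := by exact_mod_cast h
      refine le_trans ?_ (neg_le_abs _)
      nlinarith
    · have : (z' k : ℝ) + 1 ≤ z k := by exact_mod_cast h
      refine le_trans ?_ (le_abs_self _)
      nlinarith
  have hinj : Function.Injective f := by
    intro z z' h
    by_contra hne
    have := hsep z z' hne
    rw [h, dist_self] at this
    linarith
  have h := card_le_sepNum hd (L := L)
    ((Fintype.piFinset fun _ : Fin 3 => Finset.range (⌊L / d⌋₊ + 1)).image f)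
    (fun x hx => ?_) (fun x hx y hy hne => ?_)
  · rw [Finset.card_image_of_injective _ hinj] at h
    simp only [Fintype.card_piFinset, Finset.card_range, Finset.prod_const, Finset.card_univ,
      Fintype.card_fin] at h
    have h' : ((⌊L / d⌋₊ : ℝ) + 1) ^ 3 ≤ sepNum d L := by exact_mod_cast h
    refine le_trans ?_ h'
    have := (Nat.lt_floor_add_one (L / d)).le
    gcongr
  · obtain ⟨z, hz, rfl⟩ := Finset.mem_image.1 hx
    intro k
    have h1 : z k ≤ ⌊L / d⌋₊ :=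
      Nat.lt_succ_iff.1 (Finset.mem_range.1 (Fintype.mem_piFinset.1 hz k))
    have h2 : (z k : ℝ) ≤ L / d :=
      le_trans (by exact_mod_cast h1) (Nat.floor_le (div_nonneg hL hd.le))
    rw [le_div_iff₀ hd] at h2
    simp only [hf]
    exact ⟨by positivity, h2⟩
  · obtain ⟨z, _, rfl⟩ := Finset.mem_image.1 hx
    obtain ⟨z', _, rfl⟩ := Finset.mem_image.1 hy
    exact hsep z z' fun h => hne (by rw [h])

theorem le_sepNum {m : ℝ} (hm : 0 ≤ m) : (m / 2) ^ 3 ≤ (sepNum (9 / 5) m : ℝ) := by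
  refine le_trans ?_ (packing_grid (d := 9 / 5) (by norm_num) hm)
  gcongr
  norm_num

theorem packing_limit : ∃ p : ℝ, 0 < p ∧
    Tendsto (fun L : ℝ => (packingNumber L : ℝ) / L ^ 3) atTop (𝓝 p) := by
  change ∃ p : ℝ, 0 < p ∧ Tendsto (fun L : ℝ => (sepNum 1 L : ℝ) / L ^ 3) atTop (𝓝 p)
  set a : ℝ → ℝ := fun L => (sepNum 1 L : ℝ) / L ^ 3 with ha
  have h1 : ∀ L, 0 < L → 1 ≤ a L := by
    intro L hL
    have := packing_grid one_pos hL.le
    rw [div_one] at this
    exact (one_le_div (by positivity)).2 this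
  have hne : (a '' Set.Ioi 0).Nonempty := ⟨a 1, 1, Set.mem_Ioi.2 one_pos, rfl⟩
  have hlb : (1 : ℝ) ∈ lowerBounds (a '' Set.Ioi 0) := by
    rintro _ ⟨L, hL, rfl⟩
    exact h1 L hL
  refine ⟨sInf (a '' Set.Ioi 0), one_pos.trans_le (le_csInf hne hlb), tendsto_order.2 ⟨?_, ?_⟩⟩
  · intro b hb
    filter_upwards [eventually_gt_atTop 0] with L hL
    exact hb.trans_le (csInf_le ⟨1, hlb⟩ ⟨L, hL, rfl⟩)
  · intro b hb
    obtain ⟨_, ⟨m, hm, rfl⟩, hmb⟩ := exists_lt_of_csInf_lt hne hb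
    have hm' : 0 < m := hm
    have ht : Tendsto (fun L : ℝ => (1 + m * L⁻¹) ^ 3 * a m) atTop (𝓝 ((1 + m * 0) ^ 3 * a m)) :=
      (((tendsto_inv_atTop_zero.const_mul m).const_add 1).pow 3).mul_const _
    rw [mul_zero, add_zero, one_pow, one_mul] at ht
    filter_upwards [ht.eventually (gt_mem_nhds hmb), eventually_gt_atTop 0] with L hL hL0
    refine lt_of_le_of_lt ?_ hL
    have h2 := sepNum_subadd one_pos hm' hL0.le
    simp only [ha]
    rw [div_le_iff₀ (by positivity)]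
    refine h2.trans (le_of_eq ?_)
    field_simp

end Crest.Agent.R149
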